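import Vale.Agent.P283R.Wd.Osd66
import Mathlib.LinearAlgebra.Dimension.Constructions
import Mathlib.LinearAlgebra.Dimension.Finite
import Mathlib.LinearAlgebra.FiniteDimensional.Defs
import Mathlib.Data.ZMod.Basic
import Mathlib.Combinatorics.Pigeonhole
import Mathlib.Algebra.BigOperators.Ring.Finset
import Mathlib.Algebra.Order.BigOperators.Ring.Finset

/-!
# P283R, block WD: a complete fan of pages has boundedly many non-trivial pages
-/

open Finset Module

namespace Vale.Agent.P283R.Wd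

namespace Z66

open Classical in
/-- basic solutions -/
theorem car {ι V : Type} [Fintype ι] [AddCommGroup V] [Module ℝ V] [FiniteDimensional ℝ V]
    (w : ι → V) (m : ℕ) : ∀ ξ : ι → ℝ, (univ.filter fun l => ξ l ≠ 0).card ≤ m → 0 ≤ ξ →
      ∃ ζ : ι → ℝ, 0 ≤ ζ ∧ ∑ l, ζ l • w l = ∑ l, ξ l • w l ∧
        (univ.filter fun l => ζ l ≠ 0).card ≤ finrank ℝ V := by
  induction m with
  | zero => exact fun ξ h h0 => ⟨ξ, h0, rfl, h.trans (Nat.zero_le _)⟩
  | succ m ih =>
    intro ξ h h0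
    by_cases c : (univ.filter fun l => ξ l ≠ 0).card ≤ finrank ℝ V
    · exact ⟨ξ, h0, rfl, c⟩
    have key : ∀ g : ι → ℝ, (∀ l, ξ l = 0 → g l = 0) → ∑ l, g l • w l = 0 → ∀ i, 0 < g i →
        ∃ ζ : ι → ℝ, 0 ≤ ζ ∧ ∑ l, ζ l • w l = ∑ l, ξ l • w l ∧
          (univ.filter fun l => ζ l ≠ 0).card ≤ finrank ℝ V := by
      intro g g0 g1 i hi
      obtain ⟨j, hj, mn⟩ := exists_min_image (univ.filter fun l => 0 < g l) (fun l => ξ l / g l)
        ⟨i, by simpa using hi⟩
      have j0 : 0 < g j := by simpa using hj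
      have l0 : 0 ≤ ξ j / g j := div_nonneg (h0 j) j0.le
      obtain ⟨ζ, a, b, d⟩ := ih (fun l => ξ l - ξ j / g j * g l) (by
        have : (univ.filter fun l => ξ l - ξ j / g j * g l ≠ 0) ⊆
            (univ.filter fun l => ξ l ≠ 0).erase j := fun l hl => by
          have hl := (mem_filter.1 hl).2
          refine mem_erase.2 ⟨?_, mem_filter.2 ⟨mem_univ _, fun e => hl ?_⟩⟩
          · rintro rfl
            exact hl (by rw [div_mul_cancel₀ _ j0.ne', sub_self])
          · rw [e, g0 l e, mul_zero, sub_zero]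
        have a := card_le_card this
        rw [card_erase_of_mem (mem_filter.2 ⟨mem_univ _, fun e => j0.ne' (g0 j e)⟩)] at a
        omega) fun l => by
          show 0 ≤ ξ l - ξ j / g j * g l
          rcases le_or_gt (g l) 0 with e | e
          · have := mul_nonneg l0 (neg_nonneg.2 e)
            have := h0 l
            simp only [Pi.zero_apply] at this
            linarith
          · exact sub_nonneg.2 ((le_div_iff₀ e).1 (mn l (by simpa using e)))
      refine ⟨ζ, a, b.trans ?_, d⟩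
      simp only [sub_smul, mul_smul, sum_sub_distrib, ← smul_sum, g1, smul_zero, sub_zero]
    generalize hS : (univ.filter fun l => ξ l ≠ 0) = S at c
    obtain ⟨g, g1, i, hi⟩ := Fintype.not_linearIndependent_iff.1
      fun li : LinearIndependent ℝ fun l : S => w l => c (by simpa using li.fintype_card_le_finrank)
    let G : ι → ℝ := fun l => if h : l ∈ S then g ⟨l, h⟩ else 0
    have G0 : ∀ l, ξ l = 0 → G l = 0 := fun l e => dif_neg (by simp [← hS, e])
    have G1 : ∑ l, G l • w l = 0 := by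
      rw [← sum_subset (subset_univ S) fun l _ hl => by simp [G, hl], ← sum_coe_sort, ← g1]
      exact sum_congr rfl fun l _ => by simp [G]
    have Gi : G i = g i := by simp [G]
    rcases lt_or_gt_of_ne hi with e | e
    · exact key (fun l => -G l) (fun l e => by simp [G0 l e]) (by simp [G1]) i (by simpa [Gi] using e)
    · exact key G G0 G1 i (Gi ▸ e)

variable {ρ ι : Type} [Fintype ρ] [Fintype ι] [DecidableEq ρ] {pt : ι → Option ρ} {o : ρ}
  {μ c : ι → ℤ} {r : ℕ} {n : ι → Fin r → ℤ}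

open Classical in
/-- a basic solution has few horizontal primes and few pages with two primes -/
theorem bas {ξ : ι → ℝ} (h0 : 0 ≤ ξ) (h1 : ∀ p, ∑ l with pt l = some p, ξ l * μ l = 1)
    (h2 : ∀ i, ∑ l, ξ l * n l i = 0) : ∃ (ζ : ι → ℝ) (D : Finset ρ), 0 ≤ ζ ∧
      (∀ p, ∑ l with pt l = some p, ζ l * μ l = 1) ∧ (∀ i, ∑ l, ζ l * n l i = 0) ∧ D.card ≤ r ∧
      (univ.filter fun l => ζ l ≠ 0 ∧ pt l = none).card ≤ r ∧
      ∀ p ∉ D, ∃ a, pt a = some p ∧ ζ a * μ a = 1 := by
  obtain ⟨ζ, a, b, d⟩ := car (V := ρ ⊕ Fin r → ℝ)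
    (fun l => Sum.elim (fun p => if pt l = some p then μ l else 0) fun i => n l i) _ ξ le_rfl h0
  have b1 : ∀ p, ∑ l with pt l = some p, ζ l * μ l = 1 := fun p => by
    have := congrFun b (.inl p)
    rw [← h1 p]
    simpa [sum_filter] using this
  have b2 : ∀ i, ∑ l, ζ l * n l i = 0 := fun i => by
    have := congrFun b (.inr i)
    rw [← h2 i]
    simpa using this
  let S := fun q : Option ρ => univ.filter fun l => ζ l ≠ 0 ∧ pt l = q
  have s1 : ∀ p, ∑ l ∈ S (some p), ζ l * μ l = 1 := fun p => by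
    rw [← b1 p]
    refine sum_subset (fun l hl => by simpa using (mem_filter.1 hl).2.2) fun l h h' => ?_
    have : ζ l = 0 := by
      by_contra e
      exact h' (mem_filter.2 ⟨mem_univ _, e, (mem_filter.1 h).2⟩)
    rw [this, zero_mul]
  have s2 : ∀ p, 1 ≤ (S (some p)).card := fun p => card_pos.2 (by
    by_contra e
    have := s1 p
    rw [not_nonempty_iff_eq_empty.1 e] at this
    simp at this)
  rw [finrank_fintype_fun_eq_card, Fintype.card_sum, Fintype.card_fin,
    card_eq_sum_card_fiberwise (f := pt) (t := univ) fun _ _ => mem_univ _, Fintype.sum_option] at d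
  simp only [filter_filter] at d
  have s3 : Fintype.card ρ + (univ.filter fun p => 2 ≤ (S (some p)).card).card ≤
      ∑ p, (S (some p)).card := by
    rw [card_filter, ← card_univ, card_eq_sum_ones, ← sum_add_distrib]
    refine sum_le_sum fun p _ => ?_
    have := s2 p
    split_ifs <;> omega
  have d' : (S none).card + ∑ p, (S (some p)).card ≤ Fintype.card ρ + r := d
  refine ⟨ζ, univ.filter fun p => 2 ≤ (S (some p)).card, a, b1, b2, by omega,
    (by omega : (S none).card ≤ r), fun p hp => ?_⟩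
  have := s2 p
  obtain ⟨l, hl⟩ := card_eq_one.1 (show (S (some p)).card = 1 by
    simp only [mem_filter, mem_univ, true_and] at hp
    omega)
  have e := s1 p
  rw [hl, sum_singleton] at e
  exact ⟨l, (mem_filter.1 (hl ▸ mem_singleton_self l : l ∈ S (some p))).2.2, e⟩

open Classical in
/-- at most four pages have a multiple prime -/
theorem four (h1 : ∀ l p, pt l = some p → 1 ≤ μ l)
    (h2 : ∀ l p, pt l = some p → p ≠ o → μ l - 1 ≤ c l) (h3 : ∀ l, pt l = some o → -1 - μ l ≤ c l)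
    (su : ∀ p, ∃ l, pt l = some p)
    (hw : ∀ (ξ : ι → ℝ) (t : ℝ) (v : Fin r → ℤ), 0 ≤ ξ →
      (∀ p, ∑ l with pt l = some p, ξ l * μ l = t) → (∀ i, (v i : ℝ) = ∑ l, ξ l * n l i) →
      0 ≤ -∑ l, ξ l * c l) :
    (univ.filter fun p => p ≠ o ∧ ∃ l, pt l = some p ∧ μ l ≠ 1).card ≤ 4 := by
  generalize hB : (univ.filter fun p => p ≠ o ∧ ∃ l, pt l = some p ∧ μ l ≠ 1) = B
  have : ∀ p, ∃ l, pt l = some p ∧ (p ∈ B → p ≠ o ∧ 2 ≤ μ l) := fun p => by
    by_cases h : p ∈ B
    · obtain ⟨a, l, b, d⟩ := (mem_filter.1 (hB ▸ h)).2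
      exact ⟨l, b, fun _ => ⟨a, by have := h1 l p b; omega⟩⟩
    · exact (su p).imp fun l hl => ⟨hl, fun e => absurd e h⟩
  choose g g1 g2 using this
  let k : ρ → ℤ := fun p => ∏ q ∈ univ.erase p, μ (g q)
  have k0 : ∀ p, 0 < k p := fun p => prod_pos fun q _ => h1 _ _ (g1 q)
  have k1 : ∀ p, μ (g p) * k p = ∏ q, μ (g q) := fun p =>
    mul_prod_erase univ (fun q => μ (g q)) (mem_univ p)
  have T0 : 0 < ∏ q, μ (g q) := prod_pos fun q _ => h1 _ _ (g1 q)
  generalize ∏ q, μ (g q) = T at k1 T0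
  have key : ∀ f : ι → ℤ, ∑ l, (∑ p with g p = l, (k p : ℝ)) * f l = (∑ p, k p * f (g p) : ℤ) :=
    fun f => by
      rw [Int.cast_sum, ← sum_fiberwise univ g]
      refine sum_congr rfl fun l _ => ?_
      rw [sum_mul]
      exact sum_congr rfl fun p hp => by rw [(mem_filter.1 hp).2, Int.cast_mul]
  have a := hw (fun l => ∑ p with g p = l, (k p : ℝ)) T (fun i => ∑ p, k p * n (g p) i)
    (fun l => sum_nonneg fun p _ => Int.cast_nonneg (k0 p).le) (fun p => by
      have := key fun l => if pt l = some p then μ l else 0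
      simp only [g1, Option.some.injEq, mul_ite, mul_zero, sum_ite_eq', mem_univ, if_true,
        Int.cast_ite, Int.cast_zero] at this
      rw [sum_filter, this, mul_comm, k1]) fun i => (key fun l => n l i).symm
  rw [key, ← Int.cast_neg] at a
  have a : 0 ≤ -∑ p, k p * c (g p) := by exact_mod_cast a
  have b : ∑ p, ((if p ∈ B then T else 0) - if p = o then 4 * T else 0) ≤
      ∑ p, 2 * (k p * c (g p)) := sum_le_sum fun p _ => by
    have e0 := k0 p
    have e1 := k1 p
    have e2 := h1 _ _ (g1 p)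
    by_cases e : p = o
    · subst e
      have := h3 _ (g1 p)
      rw [if_neg fun h => (g2 p h).1 rfl, if_pos rfl]
      nlinarith
    · have := h2 _ _ (g1 p) e
      rw [if_neg e]
      split_ifs with h
      · have := (g2 p h).2
        nlinarith
      · nlinarith
  rw [← mul_sum, sum_sub_distrib, sum_ite_eq', if_pos (mem_univ _), sum_ite_mem, univ_inter,
    sum_const, nsmul_eq_mul] at b
  have : (B.card : ℤ) ≤ 4 := le_of_mul_le_mul_right (by linarith) T0
  exact_mod_cast this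

omit [Fintype ρ] in
/-- the cost of the weights -/
theorem cost (h1 : ∀ l p, pt l = some p → 1 ≤ μ l)
    (h2 : ∀ l p, pt l = some p → p ≠ o → μ l - 1 ≤ c l) (h3 : ∀ l, pt l = some o → -1 - μ l ≤ c l)
    (h4 : ∀ l, pt l = none → -1 ≤ c l) {x : ι → ℝ} (x0 : 0 ≤ x) :
    -∑ l, x l * c l ≤ ∑ l with pt l = none, x l + 2 * ∑ l with pt l = some o, x l * μ l := by
  rw [sum_filter, sum_filter, mul_sum, ← sum_add_distrib, ← sum_neg_distrib]
  refine sum_le_sum fun l _ => ?_
  have a : 0 ≤ x l := x0 l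
  rcases e : pt l with _ | p
  · have : (-1 : ℝ) ≤ c l := by exact_mod_cast h4 l e
    simp only [if_true, reduceCtorEq, if_false]
    nlinarith
  · have b : (1 : ℝ) ≤ μ l := by exact_mod_cast h1 l p e
    by_cases d : p = o
    · subst d
      have : (-1 : ℝ) - μ l ≤ c l := by exact_mod_cast h3 l e
      simp only [if_true, reduceCtorEq, if_false]
      nlinarith
    · have : (μ l : ℝ) - 1 ≤ c l := by exact_mod_cast h2 l p e d
      simp only [reduceCtorEq, if_false, Option.some.injEq, d]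
      nlinarith

/-- the pigeonhole principle modulo `L` -/
theorem pig {β : Type} [Fintype β] {L : ℕ} (L0 : 0 < L) (e : β → Fin r → ℤ) (e0 : ∀ p, e p ≠ 0)
    (h : r * (2 * L ^ r) * L < Fintype.card β) :
    ∃ (A : Finset β) (v : Fin r → ℤ), v ≠ 0 ∧ ∀ j, ∑ p ∈ A, e p j = L * v j := by
  classical
  have : NeZero L := ⟨L0.ne'⟩
  choose i hi using fun p => Function.ne_iff.1 (e0 p)
  obtain ⟨⟨j, s, z⟩, hy⟩ := Fintype.exists_lt_card_fiber_of_mul_lt_card
    (fun p => (i p, decide (0 < e p (i p)), fun j => (e p j : ZMod L))) (n := L) (by simpa using h)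
  obtain ⟨A, a1, a2⟩ := exists_subset_card_eq hy.le
  have a3 : ∀ p ∈ A, e p j ≠ 0 ∧ decide (0 < e p j) = s ∧ ∀ k, (e p k : ZMod L) = z k :=
    fun p hp => by
      have := (mem_filter.1 (a1 hp)).2
      simp only [Prod.mk.injEq] at this
      obtain ⟨rfl, b, d⟩ := this
      exact ⟨hi p, b, congrFun d⟩
  have dv : ∀ k, (L : ℤ) ∣ ∑ p ∈ A, e p k := fun k => by
    rw [← ZMod.intCast_zmod_eq_zero_iff_dvd, Int.cast_sum,
      sum_congr rfl fun p hp => (a3 p hp).2.2 k, sum_const, a2, nsmul_eq_mul, ZMod.natCast_self,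
      zero_mul]
  choose v hv using dv
  have ne : A.Nonempty := card_pos.1 (a2 ▸ L0)
  refine ⟨A, v, fun v0 => ?_, hv⟩
  have := hv j
  rw [v0, Pi.zero_apply, mul_zero] at this
  cases s with
  | true => exact (sum_pos (fun p hp => of_decide_eq_true (a3 p hp).2.1) ne).ne' this
  | false =>
    exact (sum_neg (fun p hp => lt_of_le_of_ne
      (not_lt.1 (of_decide_eq_false (a3 p hp).2.1)) (a3 p hp).1) ne).ne this

end Z66

/-- **HZ0**: if the origin is a sum of points of the pages and of the horizontal cone, then only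
boundedly many pages are not trivial -/
theorem hz0 (r : ℕ) {ε : ℝ} (hε : 0 < ε) : ∃ N : ℕ, ∀ (ρ ι : Type) [Fintype ρ] [Fintype ι]
    [DecidableEq ρ] (pt : ι → Option ρ) (o : ρ) (μ c : ι → ℤ) (n : ι → Fin r → ℤ),
    (∀ l p, pt l = some p → 1 ≤ μ l) → (∀ l p, pt l = some p → p ≠ o → μ l - 1 ≤ c l) →
    (∀ l, pt l = some o → -1 - μ l ≤ c l) → (∀ l, pt l = none → -1 ≤ c l) →
    (∃ ξ : ι → ℝ, 0 ≤ ξ ∧ (∀ p, ∑ l with pt l = some p, ξ l * μ l = 1) ∧
      ∀ i, ∑ l, ξ l * n l i = 0) →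
    (∀ (ξ : ι → ℝ) (t : ℝ) (v : Fin r → ℤ), 0 ≤ ξ → (∀ p, ∑ l with pt l = some p, ξ l * μ l = t) →
      (∀ i, (v i : ℝ) = ∑ l, ξ l * n l i) → (if v = 0 then 0 else ε) ≤ -∑ l, ξ l * c l) →
    ∃ Kp : Finset ρ, Kp.card ≤ N ∧ o ∈ Kp ∧
      ∀ l l' p, p ∉ Kp → pt l = some p → pt l' = some p → μ l = 1 ∧ n l = n l' := by
  classical
  have e0 : 0 < ε / (r + 3) := by positivity
  have e1 : ε / (r + 3) * (r + 3) = ε := div_mul_cancel₀ _ (by positivity)
  generalize ε / (r + 3) = e at e0 e1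
  obtain ⟨η, η0, H⟩ := osd (ι := ℝ) r e0
  obtain ⟨L, hL⟩ := exists_nat_gt (1 / η)
  have L0 : (0 : ℝ) < L := (by positivity : (0 : ℝ) < 1 / η).trans hL
  have L1 : (L : ℝ)⁻¹ ≤ η := by
    rw [div_lt_iff₀ η0] at hL
    rw [inv_le_iff_one_le_mul₀ L0]
    linarith
  refine ⟨1 + 4 + r + r * (2 * L ^ r) * L,
    fun ρ ι _ _ _ pt o μ c n h1 h2 h3 h4 ⟨ξ, ξ0, ξ1, ξ2⟩ hw => ?_⟩
  obtain ⟨ζ, D, ζ0, ζ1, ζ2, D0, H0, D1⟩ := Z66.bas ξ0 ξ1 ξ2
  have B0 := Z66.four (n := n) h1 h2 h3 (fun p => by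
    by_contra! d
    have := ξ1 p
    rw [filter_eq_empty_iff.2 fun l _ => d l] at this
    simp at this) fun x t v a b d => le_trans (by split_ifs <;> linarith) (hw x t v a b d)
  generalize hB : (univ.filter fun p => p ≠ o ∧ ∃ l, pt l = some p ∧ μ l ≠ 1) = B at B0
  generalize hI : (univ.filter fun l => ζ l ≠ 0 ∧ pt l = none) = I at H0
  have B1 : ∀ l p, p ≠ o → p ∉ B → pt l = some p → μ l = 1 := fun l p a b d => by
    by_contra f
    exact b (hB ▸ mem_filter.2 ⟨mem_univ _, a, l, d, f⟩)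
  obtain ⟨C, hC⟩ : ∃ C : Finset ρ, ∀ p, p ∈ C ↔ p ≠ o ∧ p ∉ B ∧ p ∉ D ∧
      ∃ l l', pt l = some p ∧ pt l' = some p ∧ n l ≠ n l' :=
    ⟨univ.filter fun p => p ≠ o ∧ p ∉ B ∧ p ∉ D ∧
      ∃ l l', pt l = some p ∧ pt l' = some p ∧ n l ≠ n l', fun p => by simp⟩
  suffices C.card ≤ r * (2 * L ^ r) * L by
    refine ⟨insert o (B ∪ D ∪ C), ?_, mem_insert_self _ _, fun l l' p hp a b => ?_⟩
    · have := card_insert_le o (B ∪ D ∪ C)
      have := card_union_le (B ∪ D) C
      have := card_union_le B D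
      omega
    · simp only [mem_insert, mem_union, not_or] at hp
      refine ⟨B1 l p hp.1 hp.2.1.1 a, by_contra fun d => hp.2.2 ?_⟩
      exact (hC p).2 ⟨hp.1, hp.2.1.1, hp.2.1.2, l, l', a, b, d⟩
  by_contra! big
  have : ∀ p : C, ∃ a b, pt a = some p ∧ pt b = some p ∧ μ a = 1 ∧ μ b = 1 ∧ ζ a = 1 ∧
      n b - n a ≠ 0 := fun p => by
    obtain ⟨a0, a1, a2, l, l', b, b', d⟩ := (hC p).1 p.2
    obtain ⟨a, a3, a4⟩ := D1 p a2
    have a5 := B1 a p a0 a1 a3
    rw [a5, Int.cast_one, mul_one] at a4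
    by_cases f : n l = n a
    · exact ⟨a, l', a3, b', a5, B1 _ p a0 a1 b', a4, sub_ne_zero.2 fun g => d (f.trans g.symm)⟩
    · exact ⟨a, l, a3, b, a5, B1 _ p a0 a1 b, a4, sub_ne_zero.2 f⟩
  choose a b a1 b1 a2 b2 a3 ab using this
  obtain ⟨A, w, w0, hA⟩ := Z66.pig (Nat.cast_pos.1 L0) _ ab (by simpa using big)
  obtain ⟨t, t1, t2, t3⟩ := H (I.image ζ) id (card_image_le.trans H0) fun x hx => by
    obtain ⟨l, -, rfl⟩ := mem_image.1 hx
    exact ζ0 l
  have t0 := η0.le.trans t1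
  have : ∀ l, ∃ k : ℤ, 0 ≤ t * ζ l - k ∧ (pt l ≠ none → k = 0) ∧
      (pt l = none → t * ζ l - k ≤ if l ∈ I then e else 0) := fun l => by
    by_cases d : l ∈ I
    · obtain ⟨k, k1, k2⟩ := t3 _ (mem_image_of_mem ζ d)
      exact ⟨k, k1, fun f => absurd (mem_filter.1 (hI ▸ d)).2.2 f, fun _ => by rwa [if_pos d]⟩
    · refine ⟨0, by simpa using mul_nonneg t0 (ζ0 l), fun _ => rfl, fun f => ?_⟩
      have : ζ l = 0 := by_contra fun g => d (hI ▸ mem_filter.2 ⟨mem_univ _, g, f⟩)
      simp [d, this]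
  choose k k0 k1 k2 using this
  have fin : ∀ (x : ι → ℝ) (v : Fin r → ℤ), 0 ≤ x →
      (∀ p, ∑ l with pt l = some p, x l * μ l = t) → (∀ l, pt l = none → x l = t * ζ l - k l) →
      (∀ i, (v i : ℝ) = ∑ l, x l * n l i) → v = 0 := fun x v x0 x1 x2 x3 => by
    by_contra v0
    have c1 := (hw x t v x0 x1 x3).trans (Z66.cost h1 h2 h3 h4 x0)
    have c2 : ∑ l with pt l = none, x l ≤ ∑ l, if l ∈ I then e else 0 := by
      rw [sum_filter]
      refine sum_le_sum fun l _ => ?_
      by_cases d : pt l = none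
      · rw [if_pos d, x2 l d]
        exact k2 l d
      · rw [if_neg d]
        split_ifs <;> linarith
    rw [sum_ite_mem, univ_inter, sum_const, nsmul_eq_mul] at c2
    rw [if_neg v0, x1] at c1
    have : (I.card : ℝ) * e ≤ r * e := mul_le_mul_of_nonneg_right (Nat.cast_le.2 H0) e0.le
    linarith
  have p0 : ∀ p, ∑ l with pt l = some p, (t * ζ l - k l) * μ l = t := fun p => by
    rw [sum_congr rfl (g := fun l => t * (ζ l * μ l)) fun l hl => by
      rw [k1 l (by simp [(mem_filter.1 hl).2])]; simp [mul_assoc], ← mul_sum, ζ1, mul_one]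
  have n0 : ∀ i, ((-∑ l, k l * n l i : ℤ) : ℝ) = ∑ l, (t * ζ l - k l) * n l i := fun i => by
    simp only [sub_mul, sum_sub_distrib, mul_assoc, ← mul_sum, ζ2]
    simp
  have v0 := fin (fun l => t * ζ l - k l) (fun i => -∑ l, k l * n l i) k0 p0 (fun _ _ => rfl) n0
  let y : ι → ℝ := fun l => ∑ p ∈ A, ((if b p = l then 1 else 0) - if a p = l then 1 else 0)
  have key : ∀ f : ι → ℝ, ∑ l, y l * f l = ∑ p ∈ A, (f (b p) - f (a p)) := fun f => by
    simp only [y, sum_mul]
    rw [sum_comm]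
    exact sum_congr rfl fun p _ => by simp [sub_mul, sum_sub_distrib]
  refine w0 (fin (fun l => t * ζ l - k l + (L : ℝ)⁻¹ * y l) w (fun l => ?_) (fun p => ?_)
    (fun l hl => ?_) fun i => ?_)
  · show 0 ≤ t * ζ l - k l + (L : ℝ)⁻¹ * y l
    have i0 : 0 ≤ (L : ℝ)⁻¹ := by positivity
    have y0 : 0 ≤ ∑ p ∈ A, if b p = l then (1 : ℝ) else 0 :=
      sum_nonneg fun _ _ => by split_ifs <;> norm_num
    by_cases d : ∃ p ∈ A, a p = l
    · obtain ⟨p, hp, rfl⟩ := d
      have : ∑ q ∈ A, (if a q = a p then (1 : ℝ) else 0) = 1 := by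
        rw [sum_eq_single_of_mem p hp fun q _ h => if_neg fun f : a q = a p =>
          h (Subtype.ext (Option.some.inj ((a1 q).symm.trans (f ▸ a1 p)))), if_pos rfl]
      simp only [y, sum_sub_distrib, this, a3, k1 (a p) (by simp [a1 p])]
      have := mul_nonneg i0 y0
      push_cast
      linarith
    · have : ∑ q ∈ A, (if a q = l then (1 : ℝ) else 0) = 0 :=
        sum_eq_zero fun q hq => if_neg fun f => d ⟨q, hq, f⟩
      simp only [y, sum_sub_distrib, this, sub_zero]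
      exact add_nonneg (k0 l) (mul_nonneg i0 y0)
  · have := key fun l => if pt l = some p then μ l else 0
    simp only [a1, b1, a2, b2, sub_self, sum_const_zero, mul_ite, mul_zero, ← sum_filter] at this
    simp only [add_mul, sum_add_distrib, p0, mul_assoc, ← mul_sum, this, mul_zero, add_zero]
  · have : y l = 0 := sum_eq_zero fun p _ => by
      rw [if_neg fun f => by simpa [f, hl] using b1 p, if_neg fun f => by simpa [f, hl] using a1 p,
        sub_self]
    simp [this]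
  · have f : ∑ p ∈ A, ((n (b p) i : ℝ) - n (a p) i) = L * w i := by exact_mod_cast hA i
    have g : -∑ l, k l * n l i = 0 := congrFun v0 i
    simp only [add_mul, sum_add_distrib, ← n0, g, mul_assoc, ← mul_sum, key, f]
    field_simp
    simp

end Vale.Agent.P283R.Wd
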