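import Vale.Agent.P283R.Cx.Gp
import Vale.Agent.P283R.Cx.Bas

/-!
# P283R, block WD: the Gauss lift with rational weights
-/

open Set
open Vale.Agent.P297Z

noncomputable section

namespace Vale.Agent.P283R.Wd

open Vale.Agent.P287D Cx

variable {K F : Type} [Field K] [Algebra ℂ K] [Field F] [Algebra ℂ F] [Algebra K F] {d k a : ℕ}
  {y : Fin d → K} {u : Fin k → F} {P : Pl K} {w : Fin k → ℤ} {U : Pl F}

/-- `U` is the Gauss place over `P` with the weights `w / a` -/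
structure Gq (y : Fin d → K) (u : Fin k → F) (P : Pl K) (a : ℕ) (w : Fin k → ℤ) (U : Pl F) :
    Prop where
  lies : Lies (algebraMap K F) U P
  lt : lt y u U = U.ord (algebraMap K F P.t) * (1 + kap y P)
  ord : ∀ (φ : K) m, φ ≠ 0 →
    a * U.ord (hm u φ m) = U.ord (algebraMap K F P.t) * (a * P.ord φ + m ⬝ᵥ w)
  min : ∀ ψ : (Fin k → ℤ) →₀ K, ∀ m ∈ ψ.support, U.ord (lv u ψ) ≤ U.ord (hm u (ψ m) m)

theorem gq [IsScalarTower ℂ K F] (x : Ext K d u) (hy : Frm y) (P : Pl K) (ha : 0 < a)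
    (w : Fin k → ℤ) : ∃ U, Gq y u P a w U := by
  obtain ⟨D, hD⟩ := hy
  obtain ⟨U, l, b, c, e⟩ := Gp.gp x.ff ((Cb.jac_ne_iff hD y).1 (by
    rw [Cb.jac_self hD]
    exact one_ne_zero)) x.ind x.gen P ha w
  refine ⟨U, l, c, fun φ m h => ?_, fun ψ m hm =>
    (e ψ.support ψ m hm (Finsupp.mem_support_iff.1 hm)).2⟩
  rw [ord_hm x.ind.ne_zero U h, l.ord φ, mul_add, mul_add, Finset.mul_sum, dotProduct,
    Finset.mul_sum]
  refine congrArg₂ _ (by ring) (Finset.sum_congr rfl fun i _ => ?_)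
  rw [mul_left_comm, b i]
  ring

/-- the order of a sum is at least the order of one of its terms -/
theorem ord_sum_ge {ι : Type} (s : Finset ι) (f : ι → F) (h : ∑ i ∈ s, f i ≠ 0) (U : Pl F) :
    ∃ i ∈ s, f i ≠ 0 ∧ U.ord (f i) ≤ U.ord (∑ i ∈ s, f i) := by
  by_contra z
  have m : ∑ i ∈ s, f i ∈ U.sub (-(U.ord (∑ i ∈ s, f i) + 1)) := sum_mem fun i hi =>
    or_iff_not_imp_left.2 fun i0 => by
      have : (U.ord (∑ i ∈ s, f i) : ℝ) + 1 ≤ U.ord (f i) := by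
        exact_mod_cast not_le.1 fun c => z ⟨i, hi, i0, c⟩
      linarith
  have := m.resolve_left h
  linarith

theorem Gq.att (h : Gq y u P a w U) {ψ : (Fin k → ℤ) →₀ K} (h0 : lv u ψ ≠ 0) :
    ∃ m ∈ ψ.support, U.ord (lv u ψ) = U.ord (hm u (ψ m) m) :=
  let ⟨m, b, _, c⟩ := ord_sum_ge ψ.support (fun m => hm u (ψ m) m) h0 U
  ⟨m, b, le_antisymm (h.min ψ m b) c⟩

theorem Gq.e_pos (h : Gq y u P a w U) : 0 < U.ord (algebraMap K F P.t) := h.lies.e_pos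

theorem dv_of {G : Subgroup (F ≃ₐ[ℂ] F)} {B : ℕ} (ha : 0 < a) (hB : 0 < B)
    (h : ∀ f, f ≠ 0 → Fix G f → (B : ℤ) ∣ a * U.ord f) : ∃ e : ℕ, 0 < e ∧ Dv G U e ∧ B ≤ a * e := by
  obtain ⟨a', B', c, e1, e2⟩ := Nat.exists_coprime a B
  have g := Nat.gcd_pos_of_pos_left B ha
  have a0 : 0 < a' := Nat.pos_of_mul_pos_right (e1 ▸ ha)
  refine ⟨B', Nat.pos_of_mul_pos_right (e2 ▸ hB), fun f f0 hf => ?_, ?_⟩
  · have k := h f f0 hf
    generalize Nat.gcd a B = g' at e1 e2 g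
    rw [e1, e2] at k
    push_cast at k
    rw [mul_right_comm, Int.mul_dvd_mul_iff_right (by exact_mod_cast g.ne')] at k
    exact (Nat.isCoprime_iff_coprime.2 c.symm).dvd_of_dvd_mul_left k
  · generalize Nat.gcd a B = g' at e1 e2 g
    rw [e1, e2]
    nlinarith [Nat.mul_le_mul_right (B' * g') a0]

end Vale.Agent.P283R.Wd
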