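import Vale.Agent.P283R.Wd.Fgc36

/-!
# P283R, block WD: from the sections to the complement
-/

open Set

noncomputable section

namespace Vale.Agent.P283R.Wd

open Vale.Agent.P287D Vale.Agent.P283M Vale.Agent.P297Z Cx
open Vale.Agent.P283R.To (mon mon_ne ord_mon)

variable {K : Type} [Field K] [Algebra ℂ K] {k N n q m : ℕ} {u : Finset K} {Λ Γ Γ' : BD K}
  {D : Pl K → Fin k → ℤ} {s : Fin N → K} {a : Fin N → Fin k → ℤ}

/-- a section of `-M (K + B)` on `T` which is klt at `Q` -/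
def Sek (n M : ℕ) (Γ : BD K) (T : Set (Pl K)) (Q : Pl K) : Prop :=
  ∃ φ : K, φ ≠ 0 ∧ (∀ E ∈ T, M * Γ E ≤ E.ord φ) ∧ (Q.ord φ : ℝ) < M * (1 + cn K (n + 1) Q)

theorem ex_span {A : Set K} (P : Pl K) {φ : K} (hφ : φ ∈ Submodule.span ℂ A) (φ0 : φ ≠ 0) :
    ∃ x ∈ A, x ≠ 0 ∧ P.ord x ≤ P.ord φ := by
  by_contra c
  have := ord_span (P := P) (r := P.ord φ + 1) (fun x hx x0 =>
    not_le.1 fun z => c ⟨x, hx, x0, z⟩) hφ φ0
  omega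

theorem Sek.mul {M l : ℕ} {T : Set (Pl K)} {Q : Pl K} (h : Sek n M Γ T Q) (l0 : 0 < l) :
    Sek n (M * l) Γ T Q := by
  obtain ⟨φ, φ0, a, b⟩ := h
  have l1 : (0 : ℝ) < l := Nat.cast_pos.2 l0
  refine ⟨φ ^ l, pow_ne_zero _ φ0, fun E hE => ?_, ?_⟩ <;> rw [Pl.ord_pow] <;> push_cast
  · nlinarith [a E hE]
  · nlinarith

/-- dropping the places at which a unit at `Q` vanishes -/
theorem Sek.loc {M : ℕ} {T T' : Set (Pl K)} {Q : Pl K} (h : Sek n M Γ T' Q) {f : K} (f0 : f ≠ 0)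
    (fQ : Q.ord f = 0) (fT : ∀ E ∈ T, 0 ≤ E.ord f) (fp : ∀ E ∈ T, E ∉ T' → 0 < E.ord f)
    (fin : {E | E ∈ T ∧ E.ord f ≠ 0}.Finite) : Sek n M Γ T Q := by
  obtain ⟨φ, φ0, a, b⟩ := h
  obtain ⟨l, hl⟩ := (fin.image fun E => ⌈M * Γ E - E.ord φ⌉₊).bddAbove
  refine ⟨φ * f ^ l, mul_ne_zero φ0 (pow_ne_zero _ f0), fun E hE => ?_, ?_⟩ <;>
    rw [Pl.ord_mul _ φ0 (pow_ne_zero _ f0), Pl.ord_pow] <;> push_cast
  · have l0 : (0 : ℝ) ≤ l := Nat.cast_nonneg _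
    by_cases c : E ∈ T'
    · have : (0 : ℝ) ≤ E.ord f := by exact_mod_cast fT E hE
      linarith [a E c, mul_nonneg l0 this]
    · have k1 : (1 : ℝ) ≤ E.ord f := by exact_mod_cast fp E hE c
      have k2 := Nat.ceil_le.1 (hl ⟨E, ⟨hE, (fp E hE c).ne'⟩, rfl⟩)
      nlinarith
  · simpa [fQ] using b

/-- a monomial of the Cox data of a subfamily -/
theorem sek_of {d : ℕ} {T : Set (Pl K)} {z : Fin d → K} {h h₁ : K} {δ : Fin k → ℤ} {Q : Pl K}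
    (hq : 0 < q) (hm : 0 < m) (h1 : h₁ ≠ 0) (ec : ∀ P, cn K (n + 1) P = kap z P + P.ord h₁)
    (e : Eqv T D ((q : ℝ) • Γ) (h₁ ^ q * h) δ) {ψ : K} (ψ0 : ψ ≠ 0)
    (hψ : ∀ E ∈ T, 0 ≤ E.ord ψ + (-((m : ℤ) • δ)) ⬝ᵥ D E) (l : 0 < ld z (q * m) (h ^ m * ψ) Q) :
    Sek n (q * m) Γ T Q := by
  have h0 := right_ne_zero_of_mul e.1
  have p0 := pow_ne_zero q h1
  have n0 : (0 : ℝ) < (q * m : ℕ) := by exact_mod_cast Nat.mul_pos hq hm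
  refine ⟨(h₁ ^ q * h) ^ m * ψ, mul_ne_zero (pow_ne_zero _ e.1) ψ0, fun E hE => ?_, ?_⟩
  · have k1 := e.2 E hE
    have k2 := hψ E hE
    rw [neg_dotProduct, smul_dotProduct, smul_eq_mul, ← Int.cast_le (R := ℝ)] at k2
    rw [Pl.ord_mul _ (pow_ne_zero _ e.1) ψ0, Pl.ord_pow]
    simp only [Pi.smul_apply, smul_eq_mul] at k1
    push_cast at k1 k2 ⊢
    rw [mul_right_comm, k1]
    linarith
  · rw [ld, sub_pos, div_lt_iff₀ n0, Pl.ord_mul _ (pow_ne_zero _ h0) ψ0, Pl.ord_pow] at l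
    rw [ec, Pl.ord_mul _ (pow_ne_zero _ e.1) ψ0, Pl.ord_pow, Pl.ord_mul _ p0 h0, Pl.ord_pow]
    push_cast at l ⊢
    linarith

/-- **from the sections to the complement** -/
theorem baks (dt : Dat n u Λ Γ Γ') (x : Cox (Tt n u Λ) D s a) {h : K} {δ : Fin k → ℤ}
    (e : Eqv (Tt n u Λ) D ((q : ℝ) • Γ) h δ) (N2 : 2 ≤ q * m)
    (H : ∀ Q, Ov u Q → Sek n (q * m) Γ (Tt n u Λ) Q) : Cpl n (q * m) u Λ Γ := by
  obtain ⟨y, E, hy, hc⟩ := Cb.exists_cn dt.ff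
  refine bak n k N q m K u Λ Γ Γ' D s a y h δ dt x ⟨E, hy⟩ hc N2 e fun Q o => ?_
  obtain ⟨φ, φ0, k1, k2⟩ := H Q o
  have p0 := pow_ne_zero m e.1
  have d0 := div_ne_zero φ0 p0
  have n0 : (0 : ℝ) < (q * m : ℕ) := by exact_mod_cast (by omega : 0 < q * m)
  obtain ⟨_, ⟨c, hc', rfl⟩, c0, le⟩ := ex_span Q ((x.sec (-((m : ℤ) • δ)) _ d0).2 fun P p => by
    have k3 := k1 P p
    have k4 := e.2 P p
    rw [Pl.ord_div _ φ0 p0, Pl.ord_pow, neg_dotProduct, smul_dotProduct, smul_eq_mul,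
      ← Int.cast_le (R := ℝ)]
    simp only [Pi.smul_apply, smul_eq_mul] at k4
    push_cast at k3 k4 ⊢
    rw [mul_right_comm, k4] at k3
    linarith) d0
  refine ⟨c, hc', ?_⟩
  rw [Pl.ord_div _ φ0 p0, ← Int.cast_le (R := ℝ)] at le
  rw [ld, sub_pos, div_lt_iff₀ n0, Pl.ord_mul _ p0 c0, ← hc]
  push_cast at le k2 ⊢
  linarith

end Vale.Agent.P283R.Wd
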