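import Vale.Agent.P283R.Cx.Tpy
import Vale.Agent.P283R.Cx.Big

/-!
# P283R, block WD: the data for a subfamily of the prime divisors
-/

open Set

noncomputable section

namespace Vale.Agent.P283R.Wd

open Vale.Agent.P287D Vale.Agent.P283M Vale.Agent.P297Z Cx Cy Cy.Tpb Cx.Tpy

namespace X36

variable {K : Type} [Field K] [Algebra ℂ K] {k N n q : ℕ} {ε : ℝ} {u : Finset K} {Λ Γ Γ' : BD K}
  {T : Set (Pl K)} {D : Pl K → Fin k → ℤ} {s : Fin N → K} {a : Fin N → Fin k → ℤ} {h h₁ g : K}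
  {δ e₁ b : Fin k → ℤ}

/-- a place with admissible weights lies over the base -/
theorem ov (sub : T ⊆ Tt n u Λ) (x : Cox T D s a) {P : Pl K} {ξ : Fin k → ℝ}
    (H : ∀ j, 0 ≤ (P.ord (s j) : ℝ) + pa (a j) ξ) : Ov u P := fun b hb => by
  by_cases b0 : b = 0
  · rw [b0]; exact zero_mem _
  have := wt x.ne H ((x.sec 0 _ b0).2 fun E hE => by
    rw [zero_dotProduct, add_zero]
    exact Pl.ord_nonneg_of_mem _ ((sub hE).1 b hb)) b0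
  rw [pa_zero, add_zero] at this
  exact (Pl.ord_nonneg_iff _ b0).1 (by exact_mod_cast this)

theorem le1 (hq : 0 < q) (dt : Dat n u Λ Γ Γ') (sub : T ⊆ Tt n u Λ)
    (e : Eqv T D ((q : ℝ) • Γ) h δ) (e' : Eqv T D (cn K (n + 1)) h₁ e₁) {τ : ℝ} (τ0 : 0 < τ) :
    ∀ E ∈ T, (-Γ - τ • Γ') E ≤
      -(q : ℝ)⁻¹ * (E.ord h + δ ⬝ᵥ D E : ℤ) + -τ * (E.ord h₁ + e₁ ⬝ᵥ D E : ℤ) := fun E hE => by
  have q0 : (0 : ℝ) < q := Nat.cast_pos.2 hq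
  have k1 := e.2 E hE
  have k2 := e'.2 E hE
  have k3 := dt.bdy E (sub hE).1 (sub hE).2
  simp only [dsc, Pi.sub_apply, Pi.smul_apply, Pi.neg_apply, smul_eq_mul] at k1 k3 ⊢
  rw [Int.cast_add, Int.cast_add, ← k1, ← k2, neg_mul, inv_mul_cancel_left₀ q0.ne']
  nlinarith

/-- nef in terms of weights -/
theorem nef (hq : 0 < q) (dt : Dat n u Λ Γ Γ') (nf : NefO n K u (-Γ)) (sub : T ⊆ Tt n u Λ)
    (x : Cox T D s a) (e : Eqv T D ((q : ℝ) • Γ) h δ) (e' : Eqv T D (cn K (n + 1)) h₁ e₁)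
    {P : Pl K} {ξ : Fin k → ℝ} (H : ∀ j, 0 ≤ (P.ord (s j) : ℝ) + pa (a j) ξ) :
    (q : ℝ)⁻¹ * (P.ord h + pa δ ξ) ≤ Γ P := by
  refine Tz.le_lim (z := Γ' P - (P.ord h₁ + pa e₁ ξ)) fun τ τ0 => ?_
  have := neg x (fun E hE => (sub hE).1) (ov sub x H) H (Br.klr dt dt.dn.neg nf τ0) e.1 e'.1
    (le1 hq dt sub e e' τ0)
  simp only [Pi.sub_apply, Pi.smul_apply, Pi.neg_apply, smul_eq_mul] at this
  linarith

/-- `-K` is big over `V` -/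
theorem big (dt : Dat n u Λ Γ Γ') (sub : T ⊆ Tt n u Λ) (Z : Pl K → ℤ)
    (fin : {P | P ∈ T ∧ Z P ≠ 0}.Finite) :
    ∃ (m : ℕ) (φ : K), φ ≠ 0 ∧ ∀ P ∈ T, (Z P : ℝ) ≤ P.ord φ - m * cn K (n + 1) P := by
  classical
  obtain ⟨m, φ, φ0, H⟩ := Cx.big n K u Λ Γ Γ' (fun P => if P ∈ T then Z P else 0) dt
    (fin.subset fun P c => by
      have m : P ∈ T := by_contra fun m => c.2 (if_neg m)
      exact ⟨m, (if_pos m).symm.trans_ne c.2⟩)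
  exact ⟨m, φ, φ0, fun P p => by simpa only [if_pos p] using H P (sub p)⟩

/-- sections with prescribed zeros -/
theorem bigs (dt : Dat n u Λ Γ Γ') (sub : T ⊆ Tt n u Λ) (e' : Eqv T D (cn K (n + 1)) h₁ e₁)
    (Z : Pl K → ℤ) (fin : {P | P ∈ T ∧ Z P ≠ 0}.Finite) :
    ∃ (m : ℕ) (φ : K), φ ≠ 0 ∧ ∀ P ∈ T, Z P ≤ P.ord φ + (-((m : ℤ) • e₁)) ⬝ᵥ D P := by
  obtain ⟨m, φ, φ0, H⟩ := big dt sub Z fin
  refine ⟨m, φ / h₁ ^ m, div_ne_zero φ0 (pow_ne_zero _ e'.1), fun P p => ?_⟩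
  have k := H P p
  rw [e'.2 P p] at k
  rw [Pl.ord_div _ φ0 (pow_ne_zero _ e'.1), Pl.ord_pow, neg_dotProduct, smul_dotProduct,
    smul_eq_mul, ← Int.cast_le (R := ℝ)]
  push_cast at k ⊢
  linarith

theorem lw (hq : 0 < q) (dt : Dat n u Λ Γ Γ') (nf : NefO n K u (-Γ)) (sub : T ⊆ Tt n u Λ)
    (x : Cox T D s a) (e : Eqv T D ((q : ℝ) • Γ) h ((q : ℤ) • e₁ + b))
    (e' : Eqv T D (cn K (n + 1)) h₁ e₁) : LW a ((q : ℤ) • e₁ + b) b := fun ξ H => by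
  have q0 : (0 : ℝ) < q := Nat.cast_pos.2 hq
  refine ⟨?_, fun ne => ?_⟩
  · have : (q : ℝ)⁻¹ * pa ((q : ℤ) • e₁ + b) ξ ≤ 0 := Tz.le_lim (z := -pa e₁ ξ) fun τ τ0 => by
      have := neg0 x (fun E hE => (sub hE).1) H (Br.klr dt dt.dn.neg nf τ0) e.1 e'.1
        (le1 hq dt sub e e' τ0)
      linarith
    exact nonpos_of_mul_nonpos_right this (inv_pos.2 q0)
  · obtain ⟨i, hi⟩ := Function.ne_iff.1 ne
    obtain ⟨d, he⟩ : ∃ d : Fin k → ℤ, 0 < pa d ξ := by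
      rcases lt_or_gt_of_ne hi with z | z
      · exact ⟨Pi.single i (-1), by rw [pa_single]; simpa using z⟩
      · exact ⟨Pi.single i 1, by rw [pa_single]; simpa using z⟩
    obtain ⟨m, φ, φ0, le⟩ := bigs dt sub e' (fun P => P.ord (1 : K) + d ⬝ᵥ D P) (x.fin 1 d)
    have := deg H ((x.sec (-((m : ℤ) • e₁) + (-1 : ℤ) • d) φ φ0).2 fun P p => by
      have := le P p
      rw [add_dotProduct, smul_dotProduct, smul_eq_mul]
      simp only [Pl.ord_one] at this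
      omega) φ0
    rw [← neg_smul, pa_add, pa_smul, pa_smul] at this
    rw [pa_add, pa_smul]
    push_cast at this ⊢
    have m0 : (0 : ℝ) ≤ m := Nat.cast_nonneg _
    have : pa e₁ ξ < 0 := by
      by_contra c
      nlinarith [mul_nonneg m0 (not_lt.1 c)]
    nlinarith [mul_pos q0 (neg_pos.2 this)]

end X36

open X36

variable {K : Type} [Field K] [Algebra ℂ K] {k N n q d c : ℕ} {ε : ℝ} {u : Finset K}
  {Λ Γ Γ' : BD K} {T : Set (Pl K)} {D : Pl K → Fin k → ℤ} {s : Fin N → K}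
  {a : Fin N → Fin k → ℤ} {h₀ h₁ g : K} {e₀ b : Fin k → ℤ}

/-- **the data for a subfamily of the prime divisors** -/
theorem dxs {f : Fin c → MvPolynomial (Fin N) ℂ} {z : Fin d → K} (hq : 0 < q)
    (dt : Dat n u Λ Γ Γ') (nf : NefO n K u (-Γ)) (lc : ∀ P, Ov u P → ε ≤ 1 + dsc (n + 1) Γ P)
    (sub : T ⊆ Tt n u Λ) (eff : ∀ P ∈ T, dsc (n + 1) Γ P ≤ 0) (x : Cox T D s a) (ci : CI s a f)
    (ff : FF K d) (fr : Frm z) (h1 : h₁ ≠ 0) (ec : ∀ P, cn K (n + 1) P = kap z P + P.ord h₁)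
    (can : Eqv T D (kap z) h₀ e₀) (bdy : Eqv T D ((q : ℝ) • -dsc (n + 1) Γ) g b) :
    Dx q ε z T D s a f (h₀ ^ q * g) g ((q : ℤ) • e₀ + b) b := by
  have q0 : (0 : ℝ) < q := Nat.cast_pos.2 hq
  have e' : Eqv T D (cn K (n + 1)) (h₀ * h₁) e₀ := ⟨mul_ne_zero can.1 h1, fun P p => by
    rw [ec, can.2 P p, Pl.ord_mul _ can.1 h1]
    push_cast
    ring⟩
  have e := eqv e' bdy
  have p0 := pow_ne_zero q can.1
  refine ⟨ff, fr, x, ci, mul_ne_zero p0 bdy.1, bdy.1, (x.sec _ _ bdy.1).2 fun P p => ?_,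
    fun P p => ?_, fun P ξ H => ?_, lw hq dt nf sub x e e'⟩
  · have k1 := bdy.2 P p
    rw [← Int.cast_nonneg_iff (R := ℝ), Int.cast_add, ← k1]
    simp only [Pi.smul_apply, Pi.neg_apply, smul_eq_mul]
    exact mul_nonneg q0.le (neg_nonneg.2 (eff P p))
  · rw [can.2 P p, Pl.ord_mul _ p0 bdy.1, Pl.ord_pow, add_dotProduct, smul_dotProduct, smul_eq_mul]
    push_cast
    ring
  · have k1 := nef hq dt nf sub x e e' H
    have k2 := lc P (ov sub x H)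
    rw [dsc, Pi.sub_apply, ec] at k2
    rw [Pl.ord_mul _ (pow_ne_zero _ e'.1) bdy.1, Pl.ord_pow, Pl.ord_mul _ can.1 h1] at k1
    rw [Pl.ord_mul _ p0 bdy.1, Pl.ord_pow, div_eq_inv_mul]
    push_cast at k1 ⊢
    have : (q : ℝ)⁻¹ * (q * (P.ord h₀ + P.ord h₁) + P.ord g + pa ((q : ℤ) • e₀ + b) ξ) =
        (q : ℝ)⁻¹ * (q * P.ord h₀ + P.ord g + pa ((q : ℤ) • e₀ + b) ξ) + P.ord h₁ := by
      field_simp
      ring
    linarith

/-- **enough sections** -/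
theorem frs (dt : Dat n u Λ Γ Γ') (sub : T ⊆ Tt n u Λ) (e' : Eqv T D (cn K (n + 1)) h₁ e₀)
    (sec : ∀ e φ, φ ≠ 0 → (φ ∈ Sp s a e ↔ ∀ P ∈ T, 0 ≤ P.ord φ + e ⬝ᵥ D P))
    (fin : ∀ (φ : K) e, {P | P ∈ T ∧ P.ord φ + e ⬝ᵥ D P ≠ 0}.Finite) (ne : ∀ j, s j ≠ 0) :
    Cox T D s a := by
  have key : ∀ (φ : K) e, ∃ e' c, c ≠ 0 ∧ (∀ P ∈ T, 0 ≤ P.ord c + e' ⬝ᵥ D P) ∧
      ∀ P ∈ T, 0 ≤ P.ord φ + e ⬝ᵥ D P + (P.ord c + e' ⬝ᵥ D P) := fun φ e => by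
    obtain ⟨m, c, c0, H⟩ := bigs dt sub e' (fun P => |P.ord φ + e ⬝ᵥ D P|)
      ((fin φ e).subset fun P p => ⟨p.1, abs_ne_zero.1 p.2⟩)
    exact ⟨_, c, c0, fun P p => (abs_nonneg _).trans (H P p), fun P p => by
      linarith [H P p, neg_abs_le (P.ord φ + e ⬝ᵥ D P)]⟩
  refine ⟨ne, sec, fin, fun φ => ?_, fun e => ?_⟩
  · obtain ⟨e, c, c0, k1, k2⟩ := key φ 0
    refine ⟨e, φ * c, ?_, c, (sec _ _ c0).2 k1, c0, (mul_div_cancel_right₀ φ c0).symm⟩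
    by_cases φ0 : φ = 0
    · rw [φ0, zero_mul]
      exact zero_mem _
    · refine (sec _ _ (mul_ne_zero φ0 c0)).2 fun P p => ?_
      have := k2 P p
      rw [zero_dotProduct] at this
      rw [Pl.ord_mul _ φ0 c0]
      omega
  · obtain ⟨e', c, c0, k1, k2⟩ := key 1 e
    refine ⟨e', c, (sec _ _ c0).2 fun P p => ?_, c, (sec _ _ c0).2 k1, c0, c0⟩
    have := k2 P p
    rw [Pl.ord_one] at this
    rw [add_dotProduct]
    omega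

end Vale.Agent.P283R.Wd
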