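import Vale.Agent.P283R.Wd.S42
import Vale.Agent.P283R.T3.Ad78
import Vale.Agent.P283R.Tp.Hrt

/-!
# P283R, block WD: **CEN** and **SECB**
-/

noncomputable section

namespace Vale.Agent.P283R.Wd

open Vale.Agent.P287D Vale.Agent.P297Z Cx

section

variable {K F : Type} [Field K] [Algebra ℂ K] [Field F] [Algebra ℂ F] [Algebra K F]
  [IsScalarTower ℂ K F] {ρ : ℕ} {u : Fin ρ → F} {c : (Fin ρ → ℤ) → K} {S₁ : Subalgebra ℂ K}
  {p₁ : Ideal S₁} {S : Subalgebra ℂ F} {p : Ideal S}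

theorem Gd.dec (h : Gd u c S₁ p₁ S p) (J : Ideal S)
    (hJ : ∀ m, m ≠ 0 → ∃ b ∈ J, (b : F) = hm u (c m) m) {a : F} (ha : a ∈ S) :
    ∃ a₁ : S₁, ∃ b ∈ J, a = algebraMap K F a₁ + b := by
  have := h.gen ha
  clear ha
  induction this using Algebra.adjoin_induction with
  | mem x hx =>
    rcases hx with ⟨a, ha, rfl⟩ | ⟨m, m0, rfl⟩
    · exact ⟨⟨a, ha⟩, 0, zero_mem _, by simp⟩
    · obtain ⟨b, hb, e⟩ := hJ m m0
      exact ⟨0, b, hb, by simp [e]⟩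
  | algebraMap r =>
    exact ⟨algebraMap ℂ S₁ r, 0, zero_mem _, by simp [← IsScalarTower.algebraMap_apply]⟩
  | add x y _ _ hx hy =>
    obtain ⟨a, b, hb, rfl⟩ := hx
    obtain ⟨a', b', hb', rfl⟩ := hy
    exact ⟨a + a', b + b', add_mem hb hb', by push_cast; ring⟩
  | mul x y _ _ hx hy =>
    obtain ⟨a, b, hb, rfl⟩ := hx
    obtain ⟨a', b', hb', rfl⟩ := hy
    exact ⟨a * a', ⟨_, h.le a a.2⟩ * b' + b * (⟨_, h.le a' a'.2⟩ + b'),
      add_mem (J.mul_mem_left _ hb') (J.mul_mem_right _ hb), by push_cast; ring⟩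

omit [IsScalarTower ℂ K F] in
theorem rd_lies {U : Pl F} {P : Pl K} (l : Lies (algebraMap K F) U P) {a : K} (r : a ∈ P.ring) :
    U.rd (algebraMap K F a) = 0 ↔ P.rd a = 0 := by
  rw [Bm.rd_zero_iff P r, Bm.rd_zero_iff U ((l a).1 r)]
  exact or_congr (map_eq_zero _) (l.ord_pos_iff a)

end

theorem cen45 : CEN := by
  intro K F _ _ _ _ _ _ d ρ y u _ _ c S₁ p₁ S p h
  refine ⟨fun U P l hP pos => ?_, fun U P l hU a => ?_, fun res a => ?_,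
    fun a => h.dec p h.th a.2⟩
  · have z : ∀ m, m ≠ 0 → hm u (c m) m = 0 ∨ 0 < U.ord (hm u (c m) m) := fun m m0 =>
      (eq_or_ne (c m) 0).imp (fun e => by simp [hm, e]) (pos m m0)
    have zr : ∀ m, m ≠ 0 → hm u (c m) m ∈ U.ring := fun m m0 =>
      (z m m0).elim (fun e => e ▸ zero_mem _) fun e => Cb.mem_ord e.le
    have r : ∀ a ∈ S, a ∈ U.ring := fun a ha => Algebra.adjoin_induction (by
      rintro _ (⟨a, ha, rfl⟩ | ⟨m, m0, rfl⟩)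
      exacts [(l a).1 (hP ⟨a, ha⟩).1, zr m m0]) U.con (fun _ _ _ _ => add_mem)
      (fun _ _ _ _ => mul_mem) (h.gen ha)
    intro a
    obtain ⟨a₁, b, ⟨b1, b2⟩, e⟩ := h.dec (p ⊓ RingHom.ker (Bm.rdh U S r)) (fun m m0 => by
      obtain ⟨b, hb, e⟩ := h.th m m0
      exact ⟨b, ⟨hb, (Bm.rd_zero_iff U (r b b.2)).2 (e ▸ z m m0)⟩, e⟩) a.2
    have b3 : U.rd b = 0 := b2
    have e' : a = ⟨_, h.le a₁ a₁.2⟩ + b := Subtype.ext e
    refine ⟨r a a.2, ?_⟩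
    rw [e, Cb.rd_add (r _ (h.le a₁ a₁.2)) (r b b.2), b3, add_zero, rd_lies l (hP a₁).1,
      ← (hP a₁).2, h.cm a₁ ⟨_, h.le a₁ a₁.2⟩ rfl, e']
    exact p.add_mem_iff_left b1
  · have r : (a : K) ∈ P.ring := (l a).2 (hU ⟨_, h.le a a.2⟩).1
    exact ⟨r, (h.cm a ⟨_, h.le a a.2⟩ rfl).trans ((hU _).2.trans (rd_lies l r))⟩
  · obtain ⟨a₁, b, hb, e⟩ := h.dec p h.th a.2
    obtain ⟨r, hr⟩ := res a₁
    refine ⟨r, ?_⟩
    have : a - algebraMap ℂ S r = ⟨_, h.le _ (a₁ - algebraMap ℂ S₁ r).2⟩ + b := Subtype.ext (by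
      simp [e, ← IsScalarTower.algebraMap_apply, add_sub_right_comm])
    rw [this]
    exact add_mem ((h.cm _ _ rfl).1 hr) hb

theorem secb45 : SECB := by
  intro d q K _ _ S p y t γ q0 aff nor hp hy tS ind g0 bd P hP
  obtain ⟨w, w0, e⟩ := T3.A78.chg hy (Cb.fr_of aff.ff ind) q0 g0
  have q1 : (0 : ℝ) < q := by exact_mod_cast q0
  have m := (hrt d K S aff nor).2.2.1 p hp w fun R hR => by
    obtain ⟨r, -, cen, -⟩ := id hR
    have a := bd R hR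
    have b := Cb.kap_nonneg (P := R) aff.ff fun l => (cen ⟨t l, tS l⟩).1
    rw [← e, ld] at a
    have : (0 : ℝ) ≤ R.ord w := (div_nonneg_iff.1 (by linarith : (0 : ℝ) ≤ R.ord w / q)).elim
      (·.1) fun k => absurd k.2 q1.not_ge
    exact (Pl.ord_nonneg_iff _ w0).1 (by exact_mod_cast this)
  have o : (0 : ℝ) ≤ P.ord w := by exact_mod_cast Pl.ord_nonneg_of_mem _ (Hr.cen_lo hP m)
  have := div_nonneg o q1.le
  rw [← e, ld]
  linarith

end Vale.Agent.P283R.Wd
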