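import Mathlib.LinearAlgebra.FiniteDimensional.Lemmas
import Mathlib.LinearAlgebra.Dimension.Constructions
import Mathlib.LinearAlgebra.Matrix.DotProduct
import Mathlib.Algebra.BigOperators.Field
import Mathlib.Algebra.Order.BigOperators.Ring.Finset
import Mathlib.Tactic.FieldSimp
import Mathlib.Tactic.Ring
import Mathlib.Tactic.Linarith
import Mathlib.Tactic.Positivity
import Mathlib.Tactic.LinearCombination

/-!
# P283R, block WD: counting lemmas for pages (spanning simplices, the gap iteration)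
-/

open Finset Module

namespace Vale.Agent.P283R.Wd

namespace G25

open Classical in
theorem gap_aux (W : ℕ → ℕ) (t : ℕ) : ∀ s : ℕ, ∃ C : ℕ, ∀ {V : Type} [AddCommGroup V] [Module ℚ V]
    [FiniteDimensional ℚ V] {I : Type} (F : Finset I) (Z : I → Submodule ℚ V) (J₀ : Finset I),
    J₀.card ≤ s → finrank ℚ V ≤ finrank ℚ (⨅ p ∈ F \ J₀, Z p : Submodule ℚ V) + t →
    ∃ J : Finset I, J₀ ⊆ J ∧ J ⊆ J₀ ∪ F ∧ J.card ≤ C ∧ ∀ ν : V, (∀ p ∈ F \ J, ν ∈ Z p) ∨
      W J.card ≤ ((F \ J).filter fun p => ν ∉ Z p).card := by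
  induction t with
  | zero =>
    refine fun s => ⟨s, fun F Z J₀ h0 h1 => ⟨J₀, Subset.rfl, subset_union_left, h0, fun ν => .inl ?_⟩⟩
    have := Submodule.eq_top_of_finrank_eq (le_antisymm (Submodule.finrank_le _) h1)
    intro p hp
    have a : ν ∈ (⨅ p ∈ F \ J₀, Z p : Submodule ℚ _) := this ▸ trivial
    simp only [Submodule.mem_iInf] at a
    exact a p hp
  | succ t ih =>
    intro s
    obtain ⟨C, hC⟩ := ih (s + (range (s + 1)).sup W)
    refine ⟨max s C, fun {V} _ _ _ {I} F Z J₀ h0 h1 => ?_⟩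
    by_cases c : ∀ ν : V, (∀ p ∈ F \ J₀, ν ∈ Z p) ∨
      W J₀.card ≤ ((F \ J₀).filter fun p => ν ∉ Z p).card
    · exact ⟨J₀, Subset.rfl, subset_union_left, h0.trans (le_max_left _ _), c⟩
    obtain ⟨ν, c⟩ := not_forall.1 c
    obtain ⟨c1, c2⟩ := not_or.1 c
    set A := (F \ J₀).filter fun p => ν ∉ Z p with hA
    have w : W J₀.card ≤ (range (s + 1)).sup W := le_sup (f := W) (mem_range.2 (by omega))
    have lt : (⨅ p ∈ F \ J₀, Z p : Submodule ℚ V) < ⨅ p ∈ F \ (J₀ ∪ A), Z p := by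
      refine lt_of_le_of_ne (fun x hx => ?_) fun e => c1 fun p hp => ?_
      · simp only [Submodule.mem_iInf] at hx ⊢
        exact fun p hp => hx p (sdiff_subset_sdiff Subset.rfl subset_union_left hp)
      · have a : ν ∈ (⨅ p ∈ F \ (J₀ ∪ A), Z p : Submodule ℚ V) := by
          simp only [Submodule.mem_iInf]
          intro p hp
          by_contra n
          rw [mem_sdiff, mem_union, not_or] at hp
          exact hp.2.2 (mem_filter.2 ⟨mem_sdiff.2 ⟨hp.1, hp.2.1⟩, n⟩)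
        rw [← e] at a
        simp only [Submodule.mem_iInf] at a
        exact a p hp
    have := Submodule.finrank_lt_finrank_of_lt lt
    obtain ⟨J, a1, a2, a3, a4⟩ := hC F Z (J₀ ∪ A)
      ((card_union_le _ _).trans (by omega)) (by omega)
    refine ⟨J, subset_union_left.trans a1, a2.trans ?_, a3.trans (le_max_right _ _), a4⟩
    exact union_subset (union_subset subset_union_left
      (((filter_subset _ _).trans sdiff_subset).trans subset_union_right)) subset_union_right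

/-- the vectors orthogonal to a set of integral walls -/
def perp {ρ : ℕ} (E : Set (Fin ρ → ℤ)) : Submodule ℚ (Fin ρ → ℚ) where
  carrier := {ν | ∀ e ∈ E, ∑ k, (e k : ℚ) * ν k = 0}
  add_mem' := fun {a b} ha hb e he => by
    simp only [Pi.add_apply, mul_add, sum_add_distrib, ha e he, hb e he, add_zero]
  zero_mem' := fun e _ => by simp
  smul_mem' := fun c a ha e he => by
    have : ∑ k, (e k : ℚ) * (c • a) k = c * ∑ k, (e k : ℚ) * a k := by
      rw [mul_sum]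
      exact sum_congr rfl fun k _ => by simp only [Pi.smul_apply, smul_eq_mul]; ring
    rw [this, ha e he, mul_zero]

theorem mem_perp {ρ : ℕ} {E : Set (Fin ρ → ℤ)} {ν : Fin ρ → ℤ} :
    (fun k => (ν k : ℚ)) ∈ perp E ↔ ∀ e ∈ E, e ⬝ᵥ ν = 0 := by
  refine forall₂_congr fun e _ => ?_
  show ∑ k, (e k : ℚ) * (ν k : ℚ) = 0 ↔ _
  rw [dotProduct]
  exact_mod_cast Iff.rfl

end G25

open Classical in
/-- **the gap iteration**, abstract form -/
theorem gapV (W : ℕ → ℕ) (ρ s : ℕ) : ∃ C : ℕ, ∀ {V : Type} [AddCommGroup V] [Module ℚ V]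
    [FiniteDimensional ℚ V] {I : Type} (F : Finset I) (Z : I → Submodule ℚ V) (J₀ : Finset I),
    J₀.card ≤ s → finrank ℚ V ≤ ρ →
    ∃ J : Finset I, J₀ ⊆ J ∧ J ⊆ J₀ ∪ F ∧ J.card ≤ C ∧ ∀ ν : V, (∀ p ∈ F \ J, ν ∈ Z p) ∨
      W J.card ≤ ((F \ J).filter fun p => ν ∉ Z p).card := by
  obtain ⟨C, h⟩ := G25.gap_aux W ρ s
  exact ⟨C, fun F Z J₀ a b => h F Z J₀ a (by omega)⟩

open Classical in
/-- **the gap iteration**: outside boundedly many pages every integral `ν` is orthogonal to all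
walls or is not orthogonal to the walls of many pages -/
theorem gap (W : ℕ → ℕ) (ρ s : ℕ) : ∃ C : ℕ, ∀ {I : Type} (F : Finset I)
    (E : I → Set (Fin ρ → ℤ)) (J₀ : Finset I), J₀.card ≤ s →
    ∃ J : Finset I, J₀ ⊆ J ∧ J ⊆ J₀ ∪ F ∧ J.card ≤ C ∧ ∀ ν : Fin ρ → ℤ,
      (∀ p ∈ F \ J, ∀ e ∈ E p, e ⬝ᵥ ν = 0) ∨
      W J.card ≤ ((F \ J).filter fun p => ∃ e ∈ E p, e ⬝ᵥ ν ≠ 0).card := by
  obtain ⟨C, h⟩ := gapV W ρ s
  refine ⟨C, fun F E J₀ a => ?_⟩
  obtain ⟨J, a1, a2, a3, a4⟩ := h F (fun p => G25.perp (E p)) J₀ a (by simp)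
  refine ⟨J, a1, a2, a3, fun ν => (a4 fun k => (ν k : ℚ)).imp
    (fun b p hp => G25.mem_perp.1 (b p hp)) fun b => b.trans (le_of_eq ?_)⟩
  congr 1
  refine filter_congr fun p _ => ?_
  rw [G25.mem_perp]
  simp only [not_forall, exists_prop, ne_eq]

/-- a spanning subfamily of bounded size -/
theorem spxV {V D : Type} [AddCommGroup V] [Module ℚ V] [FiniteDimensional ℚ V] (S : Set D)
    (x : D → V) : ∃ B : Finset D, ↑B ⊆ S ∧ B.card ≤ finrank ℚ V ∧
      ∀ φ : V →ₗ[ℚ] ℚ, (∀ d ∈ B, φ (x d) = 0) → ∀ d ∈ S, φ (x d) = 0 := by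
  classical
  obtain ⟨κ, a, ai, sp, li⟩ := exists_linearIndependent' ℚ fun d : S => x d
  have : Finite κ := li.finite
  have : Fintype κ := Fintype.ofFinite κ
  refine ⟨univ.image fun i => (a i : D), fun d hd => ?_, card_image_le.trans li.fintype_card_le_finrank,
    fun φ h d hd => ?_⟩
  · obtain ⟨i, -, rfl⟩ := mem_image.1 hd
    exact (a i).2
  · have : x d ∈ Submodule.span ℚ (Set.range ((fun d : S => x d) ∘ a)) := by
      rw [sp]
      exact Submodule.subset_span ⟨⟨d, hd⟩, rfl⟩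
    refine (Submodule.span_le (p := LinearMap.ker φ)).2 ?_ this
    rintro _ ⟨i, rfl⟩
    exact h _ (mem_image.2 ⟨i, mem_univ _, rfl⟩)

/-- **spanning simplex of the lifted vertices `(n d, b d)`** -/
theorem spx {ρ : ℕ} {D : Type} (S : Set D) (hS : S.Nonempty) (n : D → Fin ρ → ℤ) (b : D → ℤ) :
    ∃ B : Finset D, ↑B ⊆ S ∧ B.Nonempty ∧ B.card ≤ ρ + 2 ∧ ∀ (u : Fin ρ → ℤ) (a c : ℤ),
      (∀ d ∈ B, n d ⬝ᵥ u + a * b d + c = 0) → ∀ d ∈ S, n d ⬝ᵥ u + a * b d + c = 0 := by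
  obtain ⟨B, h1, h2, h3⟩ := spxV (V := (Fin ρ → ℚ) × ℚ × ℚ) S
    fun d => (fun k => (n d k : ℚ), (b d : ℚ), 1)
  have key : ∀ (u : Fin ρ → ℤ) (a c : ℤ),
      (∀ d ∈ B, n d ⬝ᵥ u + a * b d + c = 0) → ∀ d ∈ S, n d ⬝ᵥ u + a * b d + c = 0 := by
    intro u a c h d hd
    let φ : ((Fin ρ → ℚ) × ℚ × ℚ) →ₗ[ℚ] ℚ :=
      { toFun := fun y => ∑ k, y.1 k * u k + a * y.2.1 + c * y.2.2
        map_add' := fun y z => by
          simp only [Prod.fst_add, Prod.snd_add, Pi.add_apply, add_mul, sum_add_distrib]; ring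
        map_smul' := fun r y => by
          simp only [Prod.smul_fst, Prod.smul_snd, Pi.smul_apply, smul_eq_mul, RingHom.id_apply,
            mul_add, mul_sum, mul_assoc]
          ring }
    have e : ∀ d, φ (fun k => (n d k : ℚ), (b d : ℚ), 1) = ((n d ⬝ᵥ u + a * b d + c : ℤ) : ℚ) :=
      fun d => by
        show ∑ k, (n d k : ℚ) * u k + a * (b d : ℚ) + c * 1 = _
        rw [dotProduct]
        push_cast
        ring
    have := h3 φ (fun d hd => by rw [e, h d hd, Int.cast_zero]) d hd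
    rw [e] at this
    exact_mod_cast this
  refine ⟨B, h1, ?_, by simpa [add_assoc] using h2, key⟩
  by_contra c
  obtain ⟨d, hd⟩ := hS
  have := key 0 0 1 (fun d hd => (c ⟨d, hd⟩).elim) d hd
  simp at this

open Classical in
/-- **step (1)**: one term has order zero, and the ramification is one, outside boundedly many
pages -/
theorem hel {ρ q : ℕ} (hq : 1 ≤ q) {I D T : Type} [Fintype I] [Fintype D] (pt : D → I)
    (su : Function.Surjective pt) (μ : D → ℕ) (μ1 : ∀ d, 1 ≤ μ d) (n : D → Fin ρ → ℤ) (b : D → ℤ)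
    (c : T → D → ℤ) (c0 : ∀ m d, 0 ≤ c m d) (u : T → Fin ρ → ℤ) (a : T → I → ℤ)
    (hc : ∀ m d, μ d = 1 → c m d = n d ⬝ᵥ u m + b d + a m (pt d)) (A : ℚ)
    (H : ∀ ξ : D → ℚ, (∀ d, 0 ≤ ξ d) → (∀ p, ∑ d with pt d = p, ξ d * μ d = 1) →
      ∃ m, ∑ d, ξ d * (q * (μ d - 1) + c m d) ≤ A) :
    ∃ m, ∃ J : Finset I, (J.card : ℚ) ≤ A * (ρ + 2) ∧ ∀ d, pt d ∉ J → μ d = 1 ∧ c m d = 0 := by
  have ex : ∀ p, ∃ B : Finset D, (∀ d ∈ B, pt d = p) ∧ B.Nonempty ∧ B.card ≤ ρ + 2 ∧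
      ((∃ d, B = {d} ∧ 2 ≤ μ d) ∨ (∀ d, pt d = p → μ d = 1) ∧
        ∀ m, (∀ d ∈ B, c m d = 0) → ∀ d, pt d = p → c m d = 0) := fun p => by
    by_cases h : ∃ d, pt d = p ∧ 2 ≤ μ d
    · obtain ⟨d, h1, h2⟩ := h
      exact ⟨{d}, by simpa using h1, singleton_nonempty _, by simp, .inl ⟨d, rfl, h2⟩⟩
    have h1 : ∀ d, pt d = p → μ d = 1 := fun d hd => by
      have := μ1 d
      by_contra n
      exact h ⟨d, hd, by omega⟩
    obtain ⟨B, a1, a2, a3, a4⟩ := spx {d | pt d = p} (su p) n b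
    refine ⟨B, fun d hd => a1 hd, a2, a3, .inr ⟨h1, fun m hm d hd => ?_⟩⟩
    have := a4 (u m) 1 (a m p) (fun d hd => by
      have e : pt d = p := a1 hd
      rw [one_mul, ← e, ← hc m d (h1 d e), hm d hd]) d hd
    rw [hc m d (h1 d hd), hd, ← this, one_mul]
  choose B b1 b2 b3 b4 using ex
  have mp : ∀ d, (0 : ℚ) < μ d := fun d => by exact_mod_cast μ1 d
  have cp : ∀ p, (0 : ℚ) < (B p).card := fun p => by exact_mod_cast (b2 p).card_pos
  let ξ : D → ℚ := fun d => if d ∈ B (pt d) then 1 / ((B (pt d)).card * μ d) else 0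
  have ξ0 : ∀ d, 0 ≤ ξ d := fun d => by
    have := mp d
    have := cp (pt d)
    simp only [ξ]
    split_ifs
    · positivity
    · exact le_rfl
  have ξ1 : ∀ p, ∀ d ∈ B p, ξ d = 1 / ((B p).card * μ d) := fun p d hd => by
    simp only [ξ, b1 p d hd, if_pos hd]
  obtain ⟨m, hm⟩ := H ξ ξ0 fun p => by
    rw [← sum_subset (s₁ := B p) (fun d hd => by simpa using b1 p d hd) fun d hd hn => by
      have e : pt d = p := by simpa using hd
      simp only [ξ, e, if_neg hn, zero_mul]]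
    rw [sum_congr rfl (g := fun _ => 1 / ((B p).card : ℚ)) fun d hd => by
      have := mp d
      have := cp p
      rw [ξ1 p d hd]
      field_simp]
    have := cp p
    rw [sum_const, nsmul_eq_mul]
    field_simp
  have t0 : ∀ d, 0 ≤ ξ d * (q * (μ d - 1) + c m d : ℚ) := fun d => by
    have h1 : (1 : ℚ) ≤ μ d := by exact_mod_cast μ1 d
    have h2 : (0 : ℚ) ≤ c m d := by exact_mod_cast c0 m d
    exact mul_nonneg (ξ0 d) (add_nonneg (mul_nonneg (Nat.cast_nonneg _) (by linarith)) h2)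
  have rp : (0 : ℚ) < ρ + 2 := by positivity
  refine ⟨m, univ.filter fun p => ¬∀ d, pt d = p → μ d = 1 ∧ c m d = 0, ?_, fun d hd => ?_⟩
  swap
  · simp only [mem_filter, mem_univ, true_and, not_not] at hd
    exact hd d rfl
  rw [← div_le_iff₀ rp]
  refine le_trans ?_ hm
  rw [← sum_fiberwise (s := univ) (g := pt), div_eq_mul_inv, ← nsmul_eq_mul, ← sum_const]
  refine le_trans (sum_le_sum fun p hp => ?_) (sum_le_sum_of_subset_of_nonneg (filter_subset _ _)
    fun p _ _ => sum_nonneg fun d _ => t0 d)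
  have np := (mem_filter.1 hp).2
  have q1 : (1 : ℚ) ≤ q := by exact_mod_cast hq
  have r0 : (0 : ℚ) ≤ ρ := Nat.cast_nonneg _
  obtain ⟨d, hd, h⟩ : ∃ d ∈ B p, ((ρ : ℚ) + 2)⁻¹ ≤ ξ d * (q * (μ d - 1) + c m d) := by
    rcases b4 p with ⟨d, e, h2⟩ | ⟨h1, h2⟩
    · have hd : d ∈ B p := by rw [e]; exact mem_singleton_self d
      refine ⟨d, hd, ?_⟩
      have h3 : (2 : ℚ) ≤ μ d := by exact_mod_cast h2
      have h4 : (0 : ℚ) ≤ c m d := by exact_mod_cast c0 m d
      rw [ξ1 p d hd, e, card_singleton, Nat.cast_one, one_mul, one_div, inv_mul_eq_div,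
        le_div_iff₀ (mp d), inv_mul_le_iff₀ rp]
      nlinarith [mul_nonneg (sub_nonneg.2 q1) (sub_nonneg.2 h3), mul_nonneg r0 h4,
        mul_nonneg r0 (mul_nonneg (zero_le_one.trans q1) (show (0 : ℚ) ≤ μ d - 1 by linarith))]
    · obtain ⟨d, hd, h3⟩ : ∃ d ∈ B p, c m d ≠ 0 := by
        by_contra n
        simp only [not_exists, not_and, not_not] at n
        exact np fun d hd => ⟨h1 d hd, h2 m n d hd⟩
      refine ⟨d, hd, ?_⟩
      have h4 : (1 : ℚ) ≤ c m d := by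
        have := c0 m d
        exact_mod_cast (by omega : 1 ≤ c m d)
      have h5 : ((B p).card : ℚ) ≤ ρ + 2 := by exact_mod_cast b3 p
      rw [ξ1 p d hd, h1 d (b1 p d hd), Nat.cast_one, mul_one, sub_self, mul_zero, zero_add, one_div]
      exact (inv_anti₀ (cp p) h5).trans (le_mul_of_one_le_right (inv_nonneg.2 (cp p).le) h4)
  exact h.trans (single_le_sum (f := fun d => ξ d * (q * (μ d - 1) + c m d : ℚ))
    (fun d _ => t0 d) (mem_filter.2 ⟨mem_univ _, b1 p d hd⟩))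

end Vale.Agent.P283R.Wd
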