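import Vale.Agent.P283R.Wd.S42
import Vale.Agent.P283R.Bh.Fib

/-!
# P283R, block WD: from the Cox data to a monomial, the statements
-/

open Set

noncomputable section

namespace Vale.Agent.P283R.Wd

open Vale.Agent.P287D Vale.Agent.P283M Cx Cy
open Vale.Agent.P283R.To (mon)

section defs

variable {K₁ K₀ K F : Type} [Field K₁] [Algebra ℂ K₁] [Field K₀] [Algebra ℂ K₀] [Field K]
  [Algebra ℂ K] [Field F] [Algebra ℂ F] {d k ρ N E : ℕ} {ι : Type}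

/-- the pages: vertices, support functions, equations, degrees -/
structure Pg (ι K₁ : Type) (k ρ : ℕ) where
  I : Finset ι
  V : ι → Set (Fin ρ → ℤ)
  κ : ι → (Fin ρ → ℤ) → ℤ
  l : ι → K₁
  β : ι → Fin k → ℤ
  α : Fin ρ → Fin k → ℤ

/-- the coefficient of the generator of the degree `m` -/
def Pg.cc (π : Pg ι K₁ k ρ) (m : Fin ρ → ℤ) : K₁ := ∏ p ∈ π.I, π.l p ^ π.κ p m

/-- its degree -/
def Pg.al (π : Pg ι K₁ k ρ) (m : Fin ρ → ℤ) : Fin k → ℤ :=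
  ∑ i, m i • π.α i + ∑ p ∈ π.I, π.κ p m • π.β p

/-- many pages in every direction -/
structure Pg.Wid (π : Pg ι K₁ k ρ) (W : ℕ) : Prop where
  k0 : ∀ p ∈ π.I, π.κ p 0 = 0
  vn : ∀ p ∈ π.I, (π.V p).Nonempty
  vk : ∀ p ∈ π.I, ∀ v ∈ π.V p, ∀ ν, 0 ≤ v ⬝ᵥ ν + π.κ p ν
  wid : ∀ ν : Fin ρ → ℤ, ν ≠ 0 →
    W ≤ {p | p ∈ π.I ∧ ∃ v ∈ π.V p, ∃ v' ∈ π.V p, v ⬝ᵥ ν ≠ v' ⬝ᵥ ν}.ncard

/-- the sections on `K₀ = K₁(u)` are free over the sections in `K₁` -/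
structure Wv [Algebra K₁ K₀] (π : Pg ι K₁ k ρ) (u : Fin ρ → K₀) (s : Fin N → K₀)
    (a : Fin N → Fin k → ℤ) (s' : Fin E → K₁) (a' : Fin E → Fin k → ℤ) : Prop where
  ne : ∀ j, s' j ≠ 0
  l0 : ∀ p ∈ π.I, π.l p ≠ 0 ∧ π.l p ∈ Sp s' a' (π.β p)
  cmp : ∀ e, ∀ φ ∈ Sp s a e, ∃ ψ : (Fin ρ → ℤ) →₀ K₁, lv u ψ = φ ∧ ∀ m, hm u (ψ m) m ∈ Sp s a e
  fre : ∀ e m (z : K₁), hm u z m ∈ Sp s a e ↔ z / π.cc m ∈ Sp s' a' (e - π.al m)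

/-- the section `φ` of the degree `e` vanishes along the closed orbit over `Q` -/
def Pos (s : Fin N → K₀) (a : Fin N → Fin k → ℤ) (Q : Pl K₀) (φ : K₀) (e : Fin k → ℤ) : Prop :=
  ∀ φ' ∈ Sp s a (-e), φ' ≠ 0 → 0 < Q.ord (φ * φ')

/-- the pages and the generators vanish along the closed orbit over `Q` -/
structure Ps [Algebra K₁ K₀] (π : Pg ι K₁ k ρ) (u : Fin ρ → K₀) (s : Fin N → K₀)
    (a : Fin N → Fin k → ℤ) (Q : Pl K₀) : Prop where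
  ov : ∀ c, dg a c = 0 → 0 ≤ Q.ord (∏ j, s j ^ c j)
  pl : ∀ p ∈ π.I, Pos s a Q (algebraMap K₁ K₀ (π.l p)) (π.β p)
  pt : ∀ m, m ≠ 0 → Pos s a Q (hm u (π.cc m) m) (π.al m)

/-- the generators in `K = K₁(t)` -/
def Pg.cK [Algebra K₁ K] (π : Pg ι K₁ k ρ) (t : Fin k → K) (m : Fin ρ → ℤ) : K :=
  hm t (π.cc m) (π.al m)

/-- `S` is the sum of the `c m * u ^ m * S₁` -/
structure Gs [Algebra K F] (u : Fin ρ → F) (c : (Fin ρ → ℤ) → K) (S₁ : Subalgebra ℂ K)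
    (S : Subalgebra ℂ F) : Prop where
  c0 : c 0 = 1
  ne : ∀ m, c m ≠ 0
  mem : ∀ b, b ∈ S ↔ ∃ ψ : (Fin ρ → ℤ) →₀ K, lv u ψ = b ∧ ∀ m, ψ m / c m ∈ S₁

variable (K₁ F) in
/-- the square of the fields -/
structure Tow [Algebra K₁ K₀] [Algebra K₁ K] [Algebra K₀ F] [Algebra K F] (d : ℕ)
    (u : Fin ρ → K₀) (t : Fin k → K) : Prop where
  com : ∀ z : K₁, algebraMap K F (algebraMap K₁ K z) = algebraMap K₀ F (algebraMap K₁ K₀ z)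
  x1 : Ext K₁ d u
  x2 : Ext K₁ d t
  x3 : Ext K (d + k) fun i => algebraMap K₀ F (u i)
  x4 : Ext K₀ (d + ρ) fun i => algebraMap K F (t i)

/-- no cancellation -/
def Gm [Algebra K F] (t : Fin k → F) (U : Pl F) : Prop :=
  ∀ ψ : (Fin k → ℤ) →₀ K, ∀ e ∈ ψ.support, U.ord (lv t ψ) ≤ U.ord (hm t (ψ e) e)

/-- the lift of Goldman and Tucker -/
structure Lf [Algebra K F] (y : Fin d → K) (t : Fin k → F) (s : Fin N → K)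
    (a : Fin N → Fin k → ℤ) (Q : Pl K) (U : Pl F) (u₀ : Fin N → ℕ) : Prop where
  lies : Lies (algebraMap K F) U Q
  lt : lt y t U = U.ord (algebraMap K F Q.t) * (1 + kap y Q)
  dg : dg a u₀ = 0
  gt : ∀ j, 0 ≤ U.ord (hm t (s j) (a j)) ∧ (0 < u₀ j ↔ U.ord (hm t (s j) (a j)) = 0)
  gm : Gm (K := K) t U

end defs

/-- a property of a square of fields; the last two arguments are the images of `u` and `t` -/
def ForT (p : ∀ (K₁ K₀ K F : Type) [Field K₁] [Algebra ℂ K₁] [Field K₀] [Algebra ℂ K₀] [Field K]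
    [Algebra ℂ K] [Field F] [Algebra ℂ F] [Algebra K₁ K₀] [Algebra K₁ K] [Algebra K₀ F]
    [Algebra K F] (d k ρ : ℕ), (Fin d → K₁) → (Fin ρ → K₀) → (Fin k → K) → (Fin ρ → F) →
      (Fin k → F) → Prop) : Prop :=
  ∀ (K₁ K₀ K F : Type) [Field K₁] [Algebra ℂ K₁] [Field K₀] [Algebra ℂ K₀] [Field K] [Algebra ℂ K]
    [Field F] [Algebra ℂ F] [Algebra K₁ K₀] [Algebra K₁ K] [Algebra K₀ F] [Algebra K F]
    [IsScalarTower ℂ K₁ K₀] [IsScalarTower ℂ K₁ K] [IsScalarTower ℂ K₀ F] [IsScalarTower ℂ K F]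
    (d k ρ : ℕ) (y : Fin d → K₁) (u : Fin ρ → K₀) (t : Fin k → K), Tow K₁ F d u t → Frm y →
    p K₁ K₀ K F d k ρ y u t (fun i => algebraMap K₀ F (u i)) fun i => algebraMap K F (t i)

/-- **TOW** -/
def TOW : Prop := ∀ (K₁ K₀ : Type) [Field K₁] [Algebra ℂ K₁] [Field K₀] [Algebra ℂ K₀]
  [Algebra K₁ K₀] [IsScalarTower ℂ K₁ K₀] (d k ρ : ℕ) (u : Fin ρ → K₀), Ext K₁ d u →
  ∃ (K F : Type) (_ : Field K) (_ : Algebra ℂ K) (_ : Field F) (_ : Algebra ℂ F)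
    (_ : Algebra K₁ K) (_ : Algebra K₀ F) (_ : Algebra K F) (_ : IsScalarTower ℂ K₁ K)
    (_ : IsScalarTower ℂ K₀ F) (_ : IsScalarTower ℂ K F) (t : Fin k → K), Tow K₁ F d u t

/-- **PRM**: the two descriptions of `F` -/
def PRM : Prop := ForT fun K₁ K₀ K F _ _ _ _ _ _ _ _ _ _ _ _ _ k ρ y u t u' t' =>
  (∀ (z : K₁) m e, hm u' (hm t z e) m = hm t' (hm u z m) e) ∧
  (∀ (γ : (Fin ρ → ℤ) →₀ K₁) (ψ : (Fin ρ → ℤ) →₀ K) (η : K₁) (e : Fin k → ℤ),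
    (∀ m, ψ m = hm t (η * γ m) e) → lv u' ψ = hm t' (algebraMap K₁ K₀ η * lv u γ) e) ∧
  (∀ r : ℕ, 0 < r → ∀ U : Pl F, lt (zt y fun i => t i ^ r) u' U =
    lt (zt y u) t' U - ∑ i, (U.ord (u' i) : ℝ) + r * ∑ i, (U.ord (t' i) : ℝ)) ∧
  ∀ U P, Lies (algebraMap K F) U P → Gm (K := K₀) t' U → Gm (K := K₁) t P

/-- **UGG**: the groups -/
def UGG : Prop := ForT fun K₁ K₀ K F _ _ _ _ _ _ _ _ _ _ _ _ _ _ _ _ _ t u' t' =>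
  ∀ (r : ℕ) (A : Subgroup (K ≃ₐ[ℂ] K)) (G : Subgroup (F ≃ₐ[ℂ] F)), 0 < r →
    (A : Set _) = Gr K₁ t r → (G : Set _) = Gr K₀ t' r → Finite G → Ug u' A G

/-- **GSS**: the two rings -/
def GSS : Prop := ForT fun K₁ K₀ _ _ _ _ _ _ _ _ _ _ _ _ _ _ d k ρ _ u t u' t' =>
  ∀ (N E : ℕ) (ι : Type) (π : Pg ι K₁ k ρ) T D (s : Fin N → K₀) a (s' : Fin E → K₁) a',
    Cox T D s a → Wv π u s a s' a' → (∀ p ∈ π.I, π.κ p 0 = 0) →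
    Gs u' (π.cK t) (Rg s' a' t) (Rg s a t') ∧ Aff (d + k) (Rg s' a' t) ∧
      IsIntegrallyClosed (Rg s' a' t) ∧ Aff (d + k + ρ) (Rg s a t')

/-- **LIFG**: the lift is a Gauss place -/
def LIFG : Prop := ForX fun K F _ _ _ _ _ _ k y t => ∀ (N : ℕ) (s : Fin N → K)
  (a : Fin N → Fin k → ℤ) (Q : Pl K), (∀ j, s j ≠ 0) →
    (∀ c, dg a c = 0 → 0 ≤ Q.ord (∏ j, s j ^ c j)) → ∃ (U : Pl F) (u₀ : _), Lf y t s a Q U u₀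

/-- **POS**: positivity at the lift -/
def POS : Prop := ForX fun K _ _ _ _ _ _ _ k y t => ∀ (N : ℕ) (s : Fin N → K)
  (a : Fin N → Fin k → ℤ) Q U u₀, (∀ j, s j ≠ 0) → Lf y t s a Q U u₀ → ∀ e, ∀ φ ∈ Sp s a e,
    φ ≠ 0 → (0 < U.ord (hm t φ e) ↔ Pos s a Q φ e)

/-- **GTS**: the property of Goldman and Tucker for the small ring -/
def GTS : Prop := ForT fun K₁ K₀ _ _ _ _ _ _ _ _ _ _ _ _ _ _ _ k ρ y u _ _ t' =>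
  ∀ (N E : ℕ) (ι : Type) (π : Pg ι K₁ k ρ) (s : Fin N → K₀) a (s' : Fin E → K₁) a' Q U u₀,
    (∀ j, s j ≠ 0) → Wv π u s a s' a' → (∀ p ∈ π.I, π.κ p 0 = 0) → Ps π u s a Q →
    Lf (zt y u) t' s a Q U u₀ → ∃ u₁, Lf (zt y u) t' (fun j => algebraMap K₁ K₀ (s' j)) a' Q U u₁

/-- **DPT**: depth -/
def DPT : Prop := ∀ ρ W' : ℕ, 0 < ρ → ∃ W : ℕ, ForX fun K₁ K _ _ _ _ _ _ k _ t =>
  ∀ (ι : Type) (π : Pg ι K₁ k ρ) (S₁ : Subalgebra ℂ K) (p₁ : Ideal S₁), π.Wid W →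
    (∀ p ∈ π.I, π.l p ≠ 0 ∧ ∃ b ∈ p₁, (b : K) = hm t (π.l p) (π.β p)) →
    Dp W' (π.cK t) S₁ p₁ ∧ ∀ P : Pl K, (∀ b ∈ S₁, b ∈ P.ring) →
      ∃ n : Fin ρ → ℤ, ∀ m, 0 ≤ P.ord (π.cK t m) + m ⬝ᵥ n

/-- **PDB**: the boundary stays effective -/
def PDB : Prop := ForX fun K _ _ _ _ _ _ d ρ y u => ∀ (q : ℕ) c ψ S₁ S, 0 < q →
  Gs (K := K) u c S₁ S → Aff d S₁ → IsIntegrallyClosed S₁ → Aff (d + ρ) S → IsIntegrallyClosed S →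
    (∀ R, PD S R → lw y u q ψ R ≤ 1) → ∀ m ∈ ψ.support, ∀ R, PD S₁ R → ld y q (ψ m / c m) R ≤ 1

/-- **KLD**: klt descends -/
def KLD : Prop := ForX fun K _ _ _ _ _ _ _ ρ y u => ∀ (q : ℕ) c (g : K) S₁ S, 0 < q → g ≠ 0 →
  Gs (K := K) u c S₁ S → (∀ P : Pl K, (∀ b ∈ S₁, b ∈ P.ring) →
    ∃ n : Fin ρ → ℤ, ∀ m, 0 ≤ P.ord (c m) + m ⬝ᵥ n) →
    (∀ V, (∀ b ∈ S, b ∈ V.ring) → 0 < lw y u q (.single 0 g) V) →
    ∀ P : Pl K, (∀ b ∈ S₁, b ∈ P.ring) → 0 < ld y q g P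

/-- **GDS**: the centres -/
def GDS : Prop := ForX fun K _ _ _ _ _ _ _ _ _ u => ∀ c S₁ S p₁ p U P, Gs (K := K) u c S₁ S →
  Lies (algebraMap K _) U P → Cen S p U → Cen S₁ p₁ P → (∀ m, m ≠ 0 → 0 < U.ord (hm u (c m) m)) →
    Gd u c S₁ p₁ S p

/-- **NTW**: the norm, the trace, one monomial -/
def NTW : Prop := ForX fun K₁ K _ _ _ _ _ d k _ t => ∀ (E J r n : ℕ) (s' : Fin E → K₁) a'
  (A B : Subgroup (K ≃ₐ[ℂ] K)) p₁ (P : Pl K) (x : K) (h : K₁) (δ : Fin k → ℤ), 0 < r →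
    (A : Set _) = Gr K₁ t r → (∀ j, s' j ≠ 0) → Aff (d + k) (Rg s' a' t) →
    Cen (Rg s' a' t) p₁ P → Gm (K := K₁) t P → Idx J A B (Rg s' a' t) p₁ →
    x ∈ Lo (Rg s' a' t) p₁ → x ≠ 0 → h ≠ 0 → Fix B (x * hm t h δ ^ n) →
    ∃ c : Fin E → ℕ, (∀ i, (r : ℤ) ∣ dg a' c i + (n * J.factorial : ℕ) * δ i) ∧
      ∑ j, (c j : ℝ) * P.ord (hm t (s' j) (a' j)) ≤ J.factorial * P.ord x

/-- the data of the wide case -/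
structure Wx {K₁ K₀ : Type} [Field K₁] [Algebra ℂ K₁] [Field K₀] [Algebra ℂ K₀] [Algebra K₁ K₀]
    {d k ρ N E c : ℕ} {ι : Type} (W q : ℕ) (ε : ℝ) (y : Fin d → K₁) (u : Fin ρ → K₀)
    (T : Set (Pl K₀)) (D : Pl K₀ → Fin k → ℤ) (s : Fin N → K₀) (a : Fin N → Fin k → ℤ)
    (f : Fin c → MvPolynomial (Fin N) ℂ) (η : K₁) (γ : (Fin ρ → ℤ) →₀ K₁) (δ b : Fin k → ℤ)
    (π : Pg ι K₁ k ρ) (s' : Fin E → K₁) (a' : Fin E → Fin k → ℤ) (Q : Pl K₀) : Prop where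
  fr : Frm y
  g0 : γ 0 ≠ 0
  dx : Dx q ε (zt y u) T D s a f (hm u η 1 ^ q * lv u γ) (lv u γ) δ b
  wid : π.Wid W
  wv : Wv π u s a s' a'
  ps : Ps π u s a Q

/-- **CORW**: the theorem for the finite groups -/
def CORW : Prop := ∀ (d k ρ E q : ℕ) (ε : ℝ), 0 < ρ → 0 < q → 0 < ε → ∃ W m : ℕ, 1 ≤ W ∧ 2 ≤ m ∧
  ∀ (K₁ K₀ K F : Type) [Field K₁] [Algebra ℂ K₁] [Field K₀] [Algebra ℂ K₀] [Field K] [Algebra ℂ K]
    [Field F] [Algebra ℂ F] [Algebra K₁ K₀] [Algebra K₁ K] [Algebra K₀ F] [Algebra K F]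
    [IsScalarTower ℂ K₁ K₀] [IsScalarTower ℂ K₁ K] [IsScalarTower ℂ K₀ F] [IsScalarTower ℂ K F]
    (N c : ℕ) (ι : Type) (y : Fin d → K₁) (u : Fin ρ → K₀) (t : Fin k → K) T D (s : Fin N → K₀) a
    (f : Fin c → _) η γ δ b (π : Pg ι K₁ k ρ) (s' : Fin E → K₁) a' Q (U : Pl F) u₀ (r : ℕ),
    Tow K₁ F d u t → Wx W q ε y u T D s a f η γ δ b π s' a' Q →
    Lf (zt y u) (fun i => algebraMap K F (t i)) s a Q U u₀ → 0 < r →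
    ∃ n : Fin E → ℕ, (∀ i, (r : ℤ) ∣ dg a' n i + m * δ i) ∧
      ∑ j, (n j : ℝ) * U.ord (hm (fun i => algebraMap K F (t i)) (algebraMap K₁ K₀ (s' j)) (a' j)) <
        q * m * (lt (zt y u) (fun i => algebraMap K F (t i)) U -
          (U.ord (hm (fun i => algebraMap K F (t i)) (hm u η 1 ^ q * lv u γ) δ) : ℝ) / q)

/-- **MNW**: a monomial in the generators of the small ring -/
def MNW : Prop := ∀ (d k ρ E q : ℕ) (ε : ℝ), 0 < ρ → 0 < q → 0 < ε → ∃ W m : ℕ, 2 ≤ m ∧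
  ∀ (K₁ K₀ : Type) [Field K₁] [Algebra ℂ K₁] [Field K₀] [Algebra ℂ K₀] [Algebra K₁ K₀]
    [IsScalarTower ℂ K₁ K₀] (N c : ℕ) (ι : Type) (y : Fin d → K₁) (u : Fin ρ → K₀) T D
    (s : Fin N → K₀) a (f : Fin c → _) η γ δ b (π : Pg ι K₁ k ρ) (s' : Fin E → K₁) a' Q,
    Ext K₁ d u → Wx W q ε y u T D s a f η γ δ b π s' a' Q →
    MN q m (zt y u) (fun j => algebraMap K₁ K₀ (s' j)) a' (hm u η 1 ^ q * lv u γ) δ Q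

/-- **CORR** -/
def CORR : Prop := WBP → PRM → UGG → GSS → POS → DPT → PDB → KLD → GDS → NTW → CORW

/-- **MNWR** -/
def MNWR : Prop := TOW → LIFG → GTS → CORW → MNW

end Vale.Agent.P283R.Wd
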