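import Vale.Agent.P283R.Wd.Gen70
import Vale.Agent.P283R.Wd.St
import Vale.Agent.P283R.Cx.Bas

/-!
# P283R, block WD: the sections are free over the small ring
-/

set_option linter.all false

open Set

noncomputable section

namespace Vale.Agent.P283R.Wd.G70

open Vale.Agent.P287D Vale.Agent.P297Z Vale.Agent.P283R.To Vale.Agent.P283R.Pq
open Cx (Sp dg lv)

variable {K K₁ : Type} [Field K] [Algebra ℂ K] [Field K₁] [Algebra ℂ K₁] [Algebra K₁ K]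
  [IsScalarTower ℂ K₁ K] {k N M c r ρ : ℕ} {ι : Type} {s : Fin c → K} {y : Fin (r + ρ) → K}
  {w : ι → Prop} {P : ι → Pl K}

/-- the decomposition into homogeneous components -/
theorem dec70 (fac : FAC) (s₁ : Fin c → K₁) (y₁ : Fin r → K₁)
    (hs : ∀ i, s i = algebraMap K₁ K (s₁ i))
    (hy : ∀ i, y (Fin.castAdd ρ i) = algebraMap K₁ K (y₁ i)) (h : Fm s y w P) {φ : K} (φ0 : φ ≠ 0)
    (hφ : ∀ E, w E → Tv s y (P E) → 0 ≤ (P E).ord φ) :
    ∃ (t : Finset (Fin (r + ρ) → ℤ)) (ζ : (Fin (r + ρ) → ℤ) → K₁),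
      φ = ∑ v ∈ t, Cx.hm (fun i => y (Fin.natAdd r i)) (ζ v) (fun i => v (Fin.natAdd r i)) ∧
      ∀ v ∈ t, ζ v ≠ 0 ∧ (∃ (β : ℂ) (n : Pq.Pg c →₀ ℤ) (m : Fin r → ℤ), β ≠ 0 ∧
        algebraMap K₁ K (ζ v) = β • hm s y n (Fin.append m 0)) ∧ ∀ E, w E →
        (Tv s y (P E) → (P E).ord (Cx.hm (fun i => y (Fin.natAdd r i)) (ζ v)
          fun i => v (Fin.natAdd r i)) = 0) ∧
        (¬ Tv s y (P E) → (P E).ord φ ≤ (P E).ord (Cx.hm (fun i => y (Fin.natAdd r i)) (ζ v)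
          fun i => v (Fin.natAdd r i))) := by
  obtain ⟨f1, -⟩ := fac c _ K s y h.rat
  obtain ⟨G, hG, rfl⟩ := h.lau _ φ0 hφ
  have cmp : ∀ v, G v ≠ 0 → ∃ ζ : K₁, G v = Cx.hm (fun i => y (Fin.natAdd r i)) ζ
      (fun i => v (Fin.natAdd r i)) ∧ ∃ (β : ℂ) (n : Pq.Pg c →₀ ℤ) (m : Fin r → ℤ), β ≠ 0 ∧
        algebraMap K₁ K ζ = β • hm s y n (Fin.append m 0) := fun v G0 => by
    obtain ⟨β, n, β0, eb⟩ := f1 v _ (hG v) G0
    have e : algebraMap K₁ K (β • hm s₁ y₁ n fun i => v (Fin.castAdd ρ i)) =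
        β • hm s y n (Fin.append (fun i => v (Fin.castAdd ρ i)) 0) := by
      refine (map_smul (IsScalarTower.toAlgHom ℂ K₁ K) _ _).trans (congrArg _ ?_)
      rw [hm_map]
      simp only [hm, mon, Fin.prod_univ_add, Fin.append_left, Fin.append_right, Pi.zero_apply,
        zpow_zero, Finset.prod_const_one, mul_one, hy, funext hs]
      rfl
    refine ⟨_, ?_, β, n, _, β0, e⟩
    rw [eb, Cx.hm, e, smul_mul_assoc]
    simp [hm, mon, Fin.prod_univ_add, mul_assoc]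
  choose! ζ e1 e2 using cmp
  refine ⟨G.support, ζ, Finset.sum_congr rfl fun v hv => e1 v (Finsupp.mem_support_iff.1 hv),
    fun v hv => ?_⟩
  have G0 := Finsupp.mem_support_iff.1 hv
  refine ⟨fun z => G0 (by rw [e1 v G0, z, Cx.hm_zero]), e2 v G0, fun E u => ?_⟩
  rw [← e1 v G0]
  exact ⟨fun t => t _ _ (hG v) G0, fun t => h.inv E u t G hG v G0⟩

omit [Algebra ℂ K] [Algebra ℂ K₁] [IsScalarTower ℂ K₁ K] in
theorem lv_sum {u : Fin ρ → K} {J : Type} (t : Finset J) (ζ : J → K₁) (d : J → Fin ρ → ℤ) :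
    lv u (∑ v ∈ t, Finsupp.single (d v) (ζ v)) = ∑ v ∈ t, Cx.hm u (ζ v) (d v) := by
  classical
  induction t using Finset.induction_on with
  | empty => exact Cx.lv_zero u
  | insert j t hj ih => rw [Finset.sum_insert hj, Finset.sum_insert hj, Cx.lv_add, ih, Cx.lv_single]

omit [Algebra ℂ K] [Algebra ℂ K₁] [IsScalarTower ℂ K₁ K] in
theorem hm_sum {u : Fin ρ → K} {J : Type} (t : Finset J) (ζ : J → K₁) (m : Fin ρ → ℤ) :
    Cx.hm u (∑ v ∈ t, ζ v) m = ∑ v ∈ t, Cx.hm u (ζ v) m := by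
  simp only [Cx.hm, map_sum, Finset.sum_mul]

/-- **the components of a section are sections** -/
theorem cmp70 (fac : FAC) (s₁ : Fin c → K₁) (y₁ : Fin r → K₁)
    (hs : ∀ i, s i = algebraMap K₁ K (s₁ i))
    (hy : ∀ i, y (Fin.castAdd ρ i) = algebraMap K₁ K (y₁ i)) (h : Fm s y w P) (D : ι → ℤ)
    (tv : ∀ E, w E → Tv s y (P E) → D E = 0) (A : Submodule ℂ K)
    (hA : ∀ φ, φ ≠ 0 → (φ ∈ A ↔ ∀ E, w E → 0 ≤ (P E).ord φ + D E)) {φ : K} (hφ : φ ∈ A) :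
    ∃ ψ : (Fin ρ → ℤ) →₀ K₁, lv (fun i => y (Fin.natAdd r i)) ψ = φ ∧
      ∀ m, Cx.hm (fun i => y (Fin.natAdd r i)) (ψ m) m ∈ A := by
  classical
  rcases eq_or_ne φ 0 with rfl | φ0
  · exact ⟨0, Cx.lv_zero _, fun m => by rw [Finsupp.zero_apply, Cx.hm_zero]; exact hφ⟩
  have q := (hA φ φ0).1 hφ
  obtain ⟨t, ζ, e, ht⟩ := dec70 fac s₁ y₁ hs hy h φ0 fun E u v => by
    have := q E u
    rwa [tv E u v, add_zero] at this
  have y0 : ∀ i, y (Fin.natAdd r i) ≠ 0 := fun i => by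
    have := h.rat.ind.ne_zero (Fin.natAdd c (Fin.natAdd r i))
    rwa [fr, Fin.append_right] at this
  refine ⟨_, (lv_sum t ζ _).trans e.symm, fun m => ?_⟩
  rw [Finsupp.finset_sum_apply, hm_sum]
  refine sum_mem fun v hv => ?_
  rw [Finsupp.single_apply]
  split_ifs with z
  · subst z
    refine (hA _ (Cx.hm_ne y0 (ht v hv).1 _)).2 fun E u => ?_
    by_cases b : Tv s y (P E)
    · rw [((ht v hv).2.2 E u).1 b, tv E u b, add_zero]
    · exact (q E u).trans (add_le_add_left (((ht v hv).2.2 E u).2 b) _)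
  · rw [Cx.hm_zero]
    exact zero_mem _

/-- **the primes over one page induce the same order on the small field** -/
theorem same70 (fac : FAC) (s₁ : Fin c → K₁) (y₁ : Fin r → K₁)
    (hs : ∀ i, s i = algebraMap K₁ K (s₁ i))
    (hy : ∀ i, y (Fin.castAdd ρ i) = algebraMap K₁ K (y₁ i))
    (ind : AlgebraicIndependent K₁ fun i => y (Fin.natAdd r i)) (h : Fm s y w P) {E E' : ι}
    {p : Option (Pq.Pg c)} (u : w E) (a : At s (P E) p) (a' : At s (P E') p)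
    (em : mu s (P E) p = mu s (P E') p)
    (eo : ∀ i, (P E).ord (y (Fin.castAdd ρ i)) = (P E').ord (y (Fin.castAdd ρ i))) {z : K₁}
    (z0 : z ≠ 0) (hz : ∀ E, w E → Tv s y (P E) → 0 ≤ (P E).ord (algebraMap K₁ K z)) :
    (P E).ord (algebraMap K₁ K z) ≤ (P E').ord (algebraMap K₁ K z) := by
  classical
  obtain ⟨-, -, -, -, f5, f6, -⟩ := fac c _ K s y h.rat
  have z0' : algebraMap K₁ K z ≠ 0 := (map_ne_zero _).2 z0
  obtain ⟨t, ζ, e, ht⟩ := dec70 fac s₁ y₁ hs hy h z0' hz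
  have e3 : ∑ v ∈ t, Finsupp.single (fun i => v (Fin.natAdd r i)) (ζ v) - Finsupp.single 0 z = 0 :=
    Cx.lv_inj ind (by
      rw [sub_eq_add_neg, ← Finsupp.single_neg, Cx.lv_add, lv_sum, ← e, Cx.lv_single, Cx.hm_deg0,
        map_neg, add_neg_cancel])
  have e4 := DFunLike.congr_fun (sub_eq_zero.1 e3) 0
  rw [Finsupp.single_eq_same, Finsupp.finset_sum_apply] at e4
  have := C3.G41.sec_span (pl := P) (T := {E'}) (fun _ => -(P E).ord (algebraMap K₁ K z))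
    (S := {x | (P E).ord (algebraMap K₁ K z) ≤ (P E').ord x})
    (fun x hx i hi => by rw [show i = E' from hi]; exact sub_nonneg.2 hx)
    (φ := algebraMap K₁ K z) (by
      nth_rewrite 2 [← e4]
      rw [map_sum]
      refine sum_mem fun v hv => ?_
      rw [Finsupp.single_apply]
      split_ifs with b
      · obtain ⟨-, ⟨β, n, m, β0, eb⟩, k⟩ := ht v hv
        have k1 := (k E u).2 (f5 _ _ a).1
        rw [b, Cx.hm_deg0, eb, Pl.ord_smul _ β0, f6 _ _ _ _ a] at k1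
        refine Submodule.subset_span (k1.trans (le_of_eq ?_))
        rw [eb, Pl.ord_smul _ β0, f6 _ _ _ _ a', em]
        simp [Fin.sum_univ_add, eo]
      · rw [map_zero]
        exact zero_mem _) z0' E' rfl
  omega

/-- **the structure `Wv`** -/
theorem wv70 (fac : FAC) (cz : CZ) (s₁ : Fin c → K₁) (y₁ : Fin r → K₁)
    (hs : ∀ i, s i = algebraMap K₁ K (s₁ i))
    (hy : ∀ i, y (Fin.castAdd ρ i) = algebraMap K₁ K (y₁ i))
    (ind : AlgebraicIndependent K₁ fun i => y (Fin.natAdd r i))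
    (h : Fm s y w P) (J : Finset (Pq.Pg c)) (κ : Fin k → ι) (D : ι → Fin k → ℤ)
    (a : Pq.Pg c → Fin r → ℤ)
    (h1 : ∀ i, w (κ i) ∧ D (κ i) = Pi.single i 1 ∧ ¬ Tv s y (P (κ i)) ∧
      ∀ p ∉ J, ¬ At s (P (κ i)) (some p))
    (h2 : ∀ E, w E → (∃ i, κ i = E) ∨ D E = 0 ∧ (Tv s y (P E) ∨ ∃ p ∉ J, At s (P E) (some p)))
    (h3 : ∀ E p, w E → p ∉ J → At s (P E) (some p) →
      mu s (P E) (some p) = 1 ∧ ∀ i, (P E).ord (y (Fin.castAdd ρ i)) = a p i)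
    {σ : Fin N → K} {b : Fin N → Fin k → ℤ}
    (sec : ∀ e φ, φ ≠ 0 → (φ ∈ Sp σ b e ↔ ∀ E, w E → 0 ≤ (P E).ord φ + e ⬝ᵥ D E))
    {I : Type} (π : Wd.Pg I K₁ k ρ)
    (l0 : ∀ p ∈ π.I, π.l p ≠ 0 ∧
      ∀ E, w E → 0 ≤ (P E).ord (algebraMap K₁ K (π.l p)) + π.β p ⬝ᵥ D E)
    (k1 : ∀ m i, (P (κ i)).ord (Cx.hm (fun i => y (Fin.natAdd r i)) (π.cc m) m) + π.al m i = 0)
    (k2 : ∀ m E, w E → Tv s y (P E) →
      (P E).ord (Cx.hm (fun i => y (Fin.natAdd r i)) (π.cc m) m) = 0)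
    (k3 : ∀ m E p, w E → p ∉ J → At s (P E) (some p) →
      0 ≤ (P E).ord (Cx.hm (fun i => y (Fin.natAdd r i)) (π.cc m) m) ∧ ∃ E', w E' ∧
        At s (P E') (some p) ∧ (P E').ord (Cx.hm (fun i => y (Fin.natAdd r i)) (π.cc m) m) = 0) :
    ∃ (s' : Fin (k + (J.card + r + 2) + c) → K₁) (a' : Fin (k + (J.card + r + 2) + c) → Fin k → ℤ),
      Wv π (fun i => y (Fin.natAdd r i)) σ b s' a' ∧ ∀ e z, z ≠ 0 →
        (z ∈ Sp s' a' e ↔ ∀ E, w E → 0 ≤ (P E).ord (algebraMap K₁ K z) + e ⬝ᵥ D E) := by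
  obtain ⟨s', a', s0, hs'⟩ := gen70 fac cz s₁ y₁ hs hy ind h J κ D a h1 h2 h3
  have tv : ∀ E, w E → Tv s y (P E) → D E = 0 := fun E u v =>
    (h2 E u).elim (fun ⟨i, t⟩ => ((h1 i).2.2.1 (t ▸ v)).elim) And.left
  have nk : ∀ E p, w E → p ∉ J → At s (P E) (some p) → D E = 0 := fun E p u t z =>
    (h2 E u).elim (fun ⟨i, t''⟩ => ((h1 i).2.2.2 p t (t'' ▸ z)).elim) And.left
  refine ⟨s', a', ⟨s0, fun p hp => ⟨(l0 p hp).1, (hs' _ _ (l0 p hp).1).2 (l0 p hp).2⟩,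
    fun e φ hφ => cmp70 fac s₁ y₁ hs hy h (fun E => e ⬝ᵥ D E)
      (fun E u v => by rw [tv E u v, dotProduct_zero]) _ (sec e) hφ, fun e m z => ?_⟩, hs'⟩
  rcases eq_or_ne z 0 with rfl | z0
  · rw [Cx.hm_zero, zero_div]
    exact iff_of_true (zero_mem _) (zero_mem _)
  have c0 : π.cc m ≠ 0 := Finset.prod_ne_zero_iff.2 fun p hp => zpow_ne_zero _ (l0 p hp).1
  have z1 : z / π.cc m ≠ 0 := div_ne_zero z0 c0
  have eo : ∀ E, (P E).ord (Cx.hm (fun i => y (Fin.natAdd r i)) z m) =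
      (P E).ord (algebraMap K₁ K (z / π.cc m)) +
        (P E).ord (Cx.hm (fun i => y (Fin.natAdd r i)) (π.cc m) m) := fun E => by
    rw [← Pl.ord_mul _ ((map_ne_zero _).2 z1) (Cx.hm_ne ind.ne_zero c0 _), Cx.hm, Cx.hm,
      ← mul_assoc, ← map_mul, div_mul_cancel₀ _ c0]
  rw [sec _ _ (Cx.hm_ne ind.ne_zero z0 _), hs' _ _ z1]
  simp only [eo]
  refine ⟨fun q E u => ?_, fun q E u => ?_⟩
  · rcases h2 E u with ⟨i, rfl⟩ | ⟨v, v' | ⟨p, t, z⟩⟩
    · have a1 := q _ u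
      have a2 := k1 m i
      rw [(h1 i).2.1, dotProduct_single_one] at a1 ⊢
      rw [Pi.sub_apply]
      omega
    · have a1 := q _ u
      rw [v, dotProduct_zero, k2 m E u v', add_zero] at a1
      rwa [v, dotProduct_zero]
    · obtain ⟨E', u', z', o⟩ := (k3 m E p u t z).2
      have a1 := q _ u'
      rw [nk E' p u' t z', dotProduct_zero, o, add_zero, add_zero] at a1
      rw [v, dotProduct_zero, add_zero]
      refine a1.trans (same70 fac s₁ y₁ hs hy ind h u' z' z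
        ((h3 E' p u' t z').1.trans (h3 E p u t z).1.symm)
        (fun i => ((h3 E' p u' t z').2 i).trans ((h3 E p u t z).2 i).symm) z1 fun E u v => ?_)
      have a2 := q _ u
      rwa [tv E u v, dotProduct_zero, k2 m E u v, add_zero, add_zero] at a2
  · have a1 := q _ u
    rcases h2 E u with ⟨i, rfl⟩ | ⟨v, v' | ⟨p, t, z⟩⟩
    · have a2 := k1 m i
      rw [(h1 i).2.1, dotProduct_single_one] at a1 ⊢
      rw [Pi.sub_apply] at a1
      omega
    · rw [v, dotProduct_zero] at a1 ⊢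
      rwa [k2 m E u v', add_zero]
    · rw [v, dotProduct_zero, add_zero] at a1 ⊢
      exact add_nonneg a1 (k3 m E p u t z).1

end Vale.Agent.P283R.Wd.G70
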