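import Vale.Agent.P283R.Wr.St
import Vale.Agent.P283R.To.Bas
import Vale.Agent.P283R.Cx.Lif

/-!
# P283R, block WD: a basis adapted to a saturated lattice, the tower `K = K₁(u)`
-/

open Set Matrix
open Vale.Agent.P287D Vale.Agent.P283R.To Vale.Agent.P283R.Cx

noncomputable section

namespace Vale.Agent.P283R.Wd

/-- **a basis adapted to a saturated lattice** -/
theorem lat {r : ℕ} (L : Submodule ℤ (Fin r → ℤ)) (sat : ∀ (n : ℤ) m, n ≠ 0 → n • m ∈ L → m ∈ L) :
    ∃ (r₁ ρ : ℕ) (h : r₁ + ρ = r) (A B : Matrix (Fin r) (Fin r) ℤ), A * B = 1 ∧ B * A = 1 ∧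
      ∀ m, m ∈ L ↔ ∀ j : Fin ρ, (m ᵥ* B) (Fin.cast h (Fin.natAdd r₁ j)) = 0 := by
  classical
  obtain ⟨n, snf⟩ := L.smithNormalForm (Pi.basisFun ℤ (Fin r))
  let e₀ : Fin n ⊕ Fin (Fintype.card {x // x ∉ range snf.f}) ≃ Fin r :=
    (Equiv.sumCongr (Equiv.ofInjective _ snf.f.injective) (Fintype.equivFin _).symm).trans
      (Equiv.sumCompl (· ∈ range snf.f))
  have h : n + Fintype.card {x // x ∉ range snf.f} = r := by
    simpa using Fintype.card_congr e₀
  let σ : Fin r ≃ Fin r := (finCongr h.symm).trans (finSumFinEquiv.symm.trans e₀)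
  have s2 : ∀ j, σ (Fin.cast h (Fin.natAdd n j)) = ((Fintype.equivFin {x // x ∉ range snf.f}).symm j : Fin r) :=
    fun j => by simp [σ, e₀]
  let b := snf.bM.reindex σ.symm
  let A : Matrix (Fin r) (Fin r) ℤ := Matrix.of fun i => b i
  let B : Matrix (Fin r) (Fin r) ℤ := Matrix.of fun j i => b.repr (Pi.single j 1) i
  have hBA : B * A = 1 := by
    ext j k
    have := congrFun (b.sum_repr (Pi.single j 1)) k
    rw [Finset.sum_apply] at this
    rw [Matrix.mul_apply, Matrix.one_eq_pi_single, ← this]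
    rfl
  have hB : ∀ m i, (m ᵥ* B) i = snf.bM.repr m (σ i) := fun m i => by
    have e : m = ∑ j, m j • (Pi.single j 1 : Fin r → ℤ) := by
      ext k
      simp [Finset.sum_apply, Pi.single_apply]
    have : b.repr m i = snf.bM.repr m (σ i) := by simp [b]
    rw [← this]
    conv_rhs => rw [e]
    simp only [map_sum, map_smul, Finsupp.coe_finsetSum, Finset.sum_apply, Finsupp.smul_apply,
      smul_eq_mul]
    rfl
  refine ⟨n, _, h, A, B, mul_eq_one_comm.1 hBA, hBA, fun m => ⟨fun hm j => ?_, fun hm => ?_⟩⟩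
  · rw [hB, s2]
    exact snf.repr_eq_zero_of_notMem_range ⟨m, hm⟩ ((Fintype.equivFin _).symm j).2
  · rw [← snf.bM.sum_repr m]
    refine L.sum_mem fun i _ => ?_
    by_cases c : i ∈ range snf.f
    · obtain ⟨i, rfl⟩ := c
      refine L.smul_mem _ (sat (snf.a i) _ (fun z => snf.bN.ne_zero i (Subtype.ext ?_)) ?_)
      · rw [snf.snf i, z, zero_smul]
        rfl
      · rw [← snf.snf i]
        exact (snf.bN i).2
    · have := hm (Fintype.equivFin _ ⟨i, c⟩)
      rw [hB, s2, Equiv.symm_apply_apply] at this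
      rw [this, zero_smul]
      exact L.zero_mem

variable {K : Type} [Field K] [Algebra ℂ K] {n ρ r : ℕ}

/-- the subfield -/
abbrev Sb (z : Fin n → K) : IntermediateField ℂ K := IntermediateField.adjoin ℂ (range z)

/-- the frame of the subfield -/
def sb (z : Fin n → K) (i : Fin n) : Sb z := ⟨z i, IntermediateField.subset_adjoin _ _ ⟨i, rfl⟩⟩

theorem sb_rat {z : Fin n → K} (h : AlgebraicIndependent ℂ z) : D.Rat (sb z) := by
  refine ⟨AlgebraicIndependent.of_comp (Sb z).val h, fun x => ?_⟩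
  have := IntermediateField.adjoin_map ℂ (range (sb z)) (Sb z).val
  rw [← range_comp] at this
  have a : (x : K) ∈ (IntermediateField.adjoin ℂ (range (sb z))).map (Sb z).val := by
    rw [this]
    exact x.2
  obtain ⟨y, hy, e⟩ := a
  exact (Subtype.ext e : y = x) ▸ hy

theorem zt_sb (z : Fin n → K) (u : Fin ρ → K) : zt (sb z) u = Fin.append z u := rfl

/-- **the tower** -/
theorem tower {z : Fin n → K} {u : Fin ρ → K} (h : D.Rat (Fin.append z u)) :
    D.Rat (sb z) ∧ Ext (Sb z) n u := by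
  have i1 : AlgebraicIndependent ℂ (Sum.elim u z) := by
    have := h.ind.comp _ ((Equiv.sumComm (Fin ρ) (Fin n)).trans finSumFinEquiv).injective
    refine (congrArg (fun w => AlgebraicIndependent ℂ w) (funext ?_)).mp this
    rintro (i | i) <;> simp
  obtain ⟨i2, i3⟩ := AlgebraicIndependent.sumElim_iff.1 i1
  have r1 := sb_rat i2
  refine ⟨r1, r1.ff, h.ff, IntermediateField.algebraicIndependent_adjoin_iff.2 i3, ?_⟩
  refine eq_top_iff.2 fun x _ => ?_
  have : IntermediateField.adjoin ℂ (range (Fin.append z u)) ≤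
      (IntermediateField.adjoin (Sb z) (range u)).restrictScalars ℂ := by
    refine IntermediateField.adjoin_le_iff.2 ?_
    rintro _ ⟨i, rfl⟩
    refine Fin.addCases (fun i => ?_) (fun i => ?_) i
    · rw [Fin.append_left, SetLike.mem_coe, IntermediateField.mem_restrictScalars]
      exact (IntermediateField.adjoin (Sb z) (range u)).algebraMap_mem (sb z i)
    · rw [Fin.append_right, SetLike.mem_coe, IntermediateField.mem_restrictScalars]
      exact IntermediateField.subset_adjoin (Sb z) (range u) ⟨i, rfl⟩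
  exact this (h.gen x)

omit [Field K] [Algebra ℂ K] in
theorem cons_app (s : K) (y : Fin n → K) (u : Fin ρ → K) :
    Fin.append (Wr.fr s y) u =
      fun i => Wr.fr s (Fin.append y u) (Fin.cast (Nat.add_right_comm n 1 ρ) i) := by
  rw [Wr.fr, Fin.append_cons]
  rfl

theorem kap_cs {a b : ℕ} (h : a = b) (y : Fin b → K) : kap (fun k => y (Fin.cast h k)) = kap y := by
  subst h
  rfl

/-- the tower for the frames of complexity one -/
theorem tower1 {s : K} {y : Fin n → K} {u : Fin ρ → K} (h : D.Rat (Wr.fr s (Fin.append y u))) :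
    D.Rat (sb (Wr.fr s y)) ∧ Ext (Sb (Wr.fr s y)) (n + 1) u ∧
      ∀ P, lt (sb (Wr.fr s y)) u P =
        1 + kap (Wr.fr s (Fin.append y u)) P - ∑ i, (P.ord (u i) : ℝ) := by
  have a : D.Rat (Fin.append (Wr.fr s y) u) := by
    rw [cons_app]
    refine ⟨h.ind.comp _ (Fin.cast_injective _), fun x => ?_⟩
    have : (range fun i => Wr.fr s (Fin.append y u) (Fin.cast (Nat.add_right_comm n 1 ρ) i)) =
        range (Wr.fr s (Fin.append y u)) :=
      (finCongr (Nat.add_right_comm n 1 ρ)).surjective.range_comp _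
    rw [this]
    exact h.gen x
  refine ⟨(tower a).1, (tower a).2, fun P => ?_⟩
  rw [lt, zt_sb, cons_app, kap_cs]

/-- **change of the basis of the lattice** -/
theorem bas1 {s : K} {y : Fin r → K} (h : D.Rat (Wr.fr s y)) {A B : Matrix (Fin r) (Fin r) ℤ}
    (hB : B * A = 1) : D.Rat (Wr.fr s fun i => mon y (A i)) ∧
      (∀ m, mon (fun i => mon y (A i)) (m ᵥ* B) = mon y m) ∧
      (∀ m, Wr.Hm s (fun i => mon y (A i)) (m ᵥ* B) = Wr.Hm s y m) ∧
      (∀ P : Pl K, ∀ i, P.ord (mon y (A i)) = ∑ j, A i j * P.ord (y j)) ∧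
      (∀ P, kap (Wr.fr s fun i => mon y (A i)) P - ∑ i, (P.ord (mon y (A i)) : ℝ) =
        kap (Wr.fr s y) P - ∑ j, (P.ord (y j) : ℝ)) ∧
      ∀ P, Wr.cz s (fun i => mon y (A i)) P = Wr.cz s y P := by
  have y0 : ∀ j, y j ≠ 0 := fun j => h.ind.ne_zero j.succ
  let A' : Matrix (Fin (r + 1)) (Fin (r + 1)) ℤ :=
    Matrix.of (Fin.cons (Pi.single 0 1) fun i => Fin.cons 0 (A i))
  let B' : Matrix (Fin (r + 1)) (Fin (r + 1)) ℤ :=
    Matrix.of (Fin.cons (Pi.single 0 1) fun i => Fin.cons 0 (B i))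
  have hB' : B' * A' = 1 := by
    ext i j
    rw [Matrix.mul_apply, Fin.sum_univ_succ]
    refine Fin.cases ?_ (fun i => ?_) i <;> refine Fin.cases ?_ (fun j => ?_) j
    · simp [A', B']
    · simp [A', B', Matrix.one_apply_ne (Fin.succ_ne_zero j).symm]
    · simp [A', B', Matrix.one_apply_ne (Fin.succ_ne_zero i)]
    · have := congrFun (congrFun hB i) j
      rw [Matrix.mul_apply] at this
      simp [A', B', this, Matrix.one_apply]
  have e : (Wr.fr s fun i => mon y (A i)) = fun i => mon (Wr.fr s y) (A' i) := funext fun i => by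
    rw [mon, Fin.prod_univ_succ]
    refine Fin.cases ?_ (fun i => ?_) i <;> simp [A', Wr.fr, mon]
  have m1 : ∀ m, mon (fun i => mon y (A i)) (m ᵥ* B) = mon y m := fun m => by
    rw [mon_vec y0, Matrix.vecMul_vecMul, hB, Matrix.vecMul_one]
  have k1 : ∀ P, kap (Wr.fr s fun i => mon y (A i)) P - ∑ i, (P.ord (mon y (A i)) : ℝ) =
      kap (Wr.fr s y) P - ∑ j, (P.ord (y j) : ℝ) := fun P => by
    have := la_mon h.ff h.ind (det_ne hB') P
    rw [← e, la, la, Fin.sum_univ_succ, Fin.sum_univ_succ] at this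
    simp only [Wr.fr, Fin.cons_zero, Fin.cons_succ] at this
    simp only [Wr.fr]
    linarith
  refine ⟨e ▸ rat_bas h hB', m1, fun m => by rw [Wr.Hm, m1, Wr.Hm], fun P i => ord_mon P y0 _, k1,
    fun P => ?_⟩
  have := k1 P
  obtain ⟨a, ha⟩ := Cb.kap_int (Wr.fr s fun i => mon y (A i)) P
  obtain ⟨b, hb⟩ := Cb.kap_int (Wr.fr s y) P
  rw [Wr.cz, Wr.cz, ha, hb, Int.floor_intCast, Int.floor_intCast]
  rw [ha, hb] at this
  exact_mod_cast this

end Vale.Agent.P283R.Wd
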