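import Vale.Agent.P283R.Wd.Spt70
import Vale.Agent.P283R.Pq.Sums85
import Vale.Agent.P283R.C3.Gen41

/-!
# P283R, block WD: the generators of the small ring
-/

set_option linter.all false

open Set

noncomputable section

namespace Vale.Agent.P283R.Wd.G70

open Vale.Agent.P287D Vale.Agent.P297Z Vale.Agent.P283R.To Vale.Agent.P283R.Pq
open Cx (Sp dg)

variable {K : Type} [Field K] [Algebra ℂ K] {k N M : ℕ} {ι : Type}

omit [Algebra ℂ K] in
theorem hom_mon {G : Type} [AddCommGroup G] (H : G → K) (h0 : ∀ a, H a ≠ 0)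
    (ha : ∀ a b, H (a + b) = H a * H b) {J : Type} [Fintype J] (g : J → G) (z : J → ℤ) :
    H (∑ j, z j • g j) = mon (fun j => H (g j)) z := by
  let f : Multiplicative G →* Kˣ :=
    MonoidHom.mk' (fun a => Units.mk0 (H a.toAdd) (h0 _)) fun a b => Units.ext (ha _ _)
  have e : ∀ a, H a = (f (Multiplicative.ofAdd a) : K) := fun _ => rfl
  rw [e, ofAdd_sum, map_prod, Units.coe_prod, mon]
  exact Finset.prod_congr rfl fun j _ => by
    rw [ofAdd_zsmul, map_zpow, Units.val_zpow_eq_zpow_val, ← e]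

theorem sp_app (s : Fin N → K) (a : Fin N → Fin k → ℤ) (x : Fin M → K) (b : Fin M → Fin k → ℤ)
    {e : Fin k → ℤ} {ψ : K} (h : ψ ∈ Sp s a e) (n : Fin M → ℕ) :
    ψ * ∏ j, x j ^ n j ∈ Sp (Fin.append s x) (Fin.append a b) (e + dg b n) := by
  induction h using Submodule.span_induction with
  | mem _ h =>
    obtain ⟨c, rfl, rfl⟩ := h
    refine Submodule.subset_span ⟨Fin.append c n, funext fun i => ?_, ?_⟩
    · simp [dg, Fin.sum_univ_add]
    · simp [Fin.prod_univ_add]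
  | zero => rw [zero_mul]; exact zero_mem _
  | add _ _ _ _ u v => rw [add_mul]; exact add_mem u v
  | smul _ _ _ u => rw [smul_mul_assoc]; exact Submodule.smul_mem _ _ u

theorem sp_gen (s : Fin N → K) (a : Fin N → Fin k → ℤ) (j : Fin N) : s j ∈ Sp s a (a j) := by
  refine Submodule.subset_span ⟨Pi.single j 1, funext fun i => ?_, ?_⟩
  · simp [dg, Pi.single_apply]
  · simp [Pi.single_apply, pow_ite]

theorem sp_sec {pl : ι → Pl K} {w : ι → Prop} (D : ι → Fin k → ℤ) {s : Fin N → K}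
    {a : Fin N → Fin k → ℤ} (s0 : ∀ j, s j ≠ 0)
    (h : ∀ j E, w E → 0 ≤ (pl E).ord (s j) + a j ⬝ᵥ D E) {e : Fin k → ℤ} {φ : K}
    (hφ : φ ∈ Sp s a e) (φ0 : φ ≠ 0) : ∀ E, w E → 0 ≤ (pl E).ord φ + e ⬝ᵥ D E := by
  refine C3.G41.sec_span (T := {E | w E}) (fun E => e ⬝ᵥ D E) ?_ hφ φ0
  rintro _ ⟨c, rfl, rfl⟩ E hE
  have e : dg a c ⬝ᵥ D E = ∑ j, (c j : ℤ) * (a j ⬝ᵥ D E) := by
    simp only [dg, dotProduct, Finset.sum_mul, Finset.mul_sum, mul_assoc]
    exact Finset.sum_comm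
  show 0 ≤ (pl E).ord (∏ j, s j ^ c j) + _
  rw [← mon_nat, ord_mon _ s0, e, ← Finset.sum_add_distrib]
  exact Finset.sum_nonneg fun j _ => by
    rw [← mul_add]
    exact mul_nonneg (Int.natCast_nonneg _) (h j E hE)

theorem sp_map {K₁ : Type} [Field K₁] [Algebra ℂ K₁] (φ : K₁ →ₐ[ℂ] K) (s : Fin N → K₁)
    (a : Fin N → Fin k → ℤ) (e : Fin k → ℤ) :
    Sp (fun j => φ (s j)) a e = (Sp s a e).map φ.toLinearMap := by
  rw [Cx.Sp, Cx.Sp, Submodule.map_span, image_image]
  simp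

theorem mem_map {K₁ : Type} [Field K₁] [Algebra ℂ K₁] (φ : K₁ →ₐ[ℂ] K) (s : Fin N → K₁)
    (a : Fin N → Fin k → ℤ) (e : Fin k → ℤ) (z : K₁) :
    φ z ∈ Sp (fun j => φ (s j)) a e ↔ z ∈ Sp s a e := by
  rw [sp_map]
  exact ⟨fun ⟨x, hx, q⟩ => φ.injective q ▸ hx, fun hz => ⟨z, hz, rfl⟩⟩

theorem hm_map {K₁ : Type} [Field K₁] [Algebra ℂ K₁] (φ : K₁ →ₐ[ℂ] K) {c r : ℕ} (s : Fin c → K₁)
    (y : Fin r → K₁) (n : Pg c →₀ ℤ) (m : Fin r → ℤ) :
    φ (hm s y n m) = hm (fun i => φ (s i)) (fun i => φ (y i)) n m := by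
  simp only [hm, mon, Finsupp.prod, map_mul, map_prod, map_zpow₀, lam,
    MvPolynomial.comp_aeval_apply]

/-- **the generators of the small ring** -/
theorem gen70 {K₁ : Type} [Field K₁] [Algebra ℂ K₁] [Algebra K₁ K] [IsScalarTower ℂ K₁ K]
    {c r ρ : ℕ} (fac : FAC) (cz : CZ) (s₁ : Fin c → K₁) (y₁ : Fin r → K₁) {s : Fin c → K}
    {y : Fin (r + ρ) → K} (hs : ∀ i, s i = algebraMap K₁ K (s₁ i))
    (hy : ∀ i, y (Fin.castAdd ρ i) = algebraMap K₁ K (y₁ i))
    (ind : AlgebraicIndependent K₁ fun i => y (Fin.natAdd r i)) {w : ι → Prop} {P : ι → Pl K}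
    (h : Fm s y w P) (J : Finset (Pg c)) (κ : Fin k → ι) (D : ι → Fin k → ℤ)
    (a : Pg c → Fin r → ℤ)
    (h1 : ∀ i, w (κ i) ∧ D (κ i) = Pi.single i 1 ∧ ¬ Tv s y (P (κ i)) ∧
      ∀ p ∉ J, ¬ At s (P (κ i)) (some p))
    (h2 : ∀ E, w E → (∃ i, κ i = E) ∨ D E = 0 ∧ (Tv s y (P E) ∨ ∃ p ∉ J, At s (P E) (some p)))
    (h3 : ∀ E p, w E → p ∉ J → At s (P E) (some p) →
      mu s (P E) (some p) = 1 ∧ ∀ i, (P E).ord (y (Fin.castAdd ρ i)) = a p i) :
    ∃ (s' : Fin (k + (J.card + r + 2) + c) → K₁) (a' : Fin (k + (J.card + r + 2) + c) → Fin k → ℤ),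
      (∀ j, s' j ≠ 0) ∧ ∀ e z, z ≠ 0 →
        (z ∈ Sp s' a' e ↔ ∀ E, w E → 0 ≤ (P E).ord (algebraMap K₁ K z) + e ⬝ᵥ D E) := by
  classical
  obtain ⟨f1, f2, f3, f4, f5, f6, f7, -, f9, -, f11⟩ := fac c _ K s y h.rat
  obtain ⟨-, -, -, c4, c5, -⟩ := cz c _ K s y h.rat
  let φ := IsScalarTower.toAlgHom ℂ K₁ K
  have s0 : ∀ i, s i ≠ 0 := fun i => by
    have := h.rat.ind.ne_zero (Fin.castAdd _ i)
    rwa [fr, Fin.append_left] at this
  obtain ⟨A, hA⟩ : ∃ A : Fin r → Pg c →₀ ℤ, ∀ i p, A i p =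
      if p ∉ J ∧ ∃ E, w E ∧ At s (P E) (some p) then a p i else 0 := by
    refine ⟨fun i => Finsupp.ofSupportFinite _ ?_, fun i p => rfl⟩
    refine ((h.fin (y (Fin.castAdd ρ i))).biUnion (t := fun E => {p | At s (P E) (some p)})
      fun E _ => Subsingleton.finite fun p u p' v => Option.some.inj (f4 _ _ _ u v)).subset
      fun p hp => ?_
    by_cases q : p ∉ J ∧ ∃ E, w E ∧ At s (P E) (some p)
    · obtain ⟨q1, E, q2, q3⟩ := id q
      refine mem_biUnion (x := E) ⟨q2, ?_⟩ q3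
      rw [(h3 E p q2 q1 q3).2]
      exact fun z => hp ((if_pos q).trans z)
    · exact (hp (if_neg q)).elim
  obtain ⟨F, hF⟩ : ∃ F : Pg c →₀ ℤ, ∀ p, F p =
      if p ∉ J ∧ ¬ ∃ E, w E ∧ At s (P E) (some p) then 1 else 0 :=
    ⟨Finsupp.ofSupportFinite _ (h.mis.subset fun p hp => by
      by_contra q
      exact hp (if_neg fun z => q z.2)), fun p => rfl⟩
  let g : J ⊕ Fin r ⊕ Unit → (Pg c →₀ ℤ) × (Fin r → ℤ) := Sum.elim
    (fun p => (Finsupp.single p.1 1, 0)) (Sum.elim (fun i => (-A i, Pi.single i 1)) fun _ => (F, 0))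
  let H : (Pg c →₀ ℤ) × (Fin r → ℤ) → K := fun q => hm s y q.1 (Fin.append q.2 0)
  have H0 : ∀ q, H q ≠ 0 := fun q => (f2 _ _).1
  have Ha : ∀ q q', H (q + q') = H q * H q' := fun q q' => by
    rw [← f3]
    refine congrArg (hm s y _) (funext fun j => ?_)
    refine Fin.addCases (fun i => ?_) (fun i => ?_) j <;> simp
  have Hφ : ∀ q, φ (hm s₁ y₁ q.1 q.2) = H q := fun q => by
    rw [hm_map]
    simp only [H, hm, mon, Fin.prod_univ_add, Fin.append_left, Fin.append_right, Pi.zero_apply,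
      zpow_zero, Finset.prod_const_one, mul_one, hy, funext hs]
    rfl
  have Ho : ∀ E p, w E → p ∉ J → At s (P E) (some p) → ∀ q,
      (P E).ord (H q) = ∑ i, q.2 i * a p i + q.1 p := fun E p u v z q => by
    rw [f6 _ _ _ _ z, (h3 E p u v z).1, Fin.sum_univ_add]
    simp [(h3 E p u v z).2, od]
  have Hn : ∀ E, w E → (Tv s y (P E) ∨ ∃ p ∉ J, At s (P E) (some p)) → ∀ j,
      (P E).ord (H (g j)) = 0 := by
    rintro E u (v | ⟨p, v, z⟩) j
    · exact v _ _ (f2 _ _).2 (H0 _)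
    rw [Ho E p u v z]
    rcases j with p' | i | _
    · have : p ≠ p'.1 := fun e => v (e ▸ p'.2)
      simp [g, Finsupp.single_eq_of_ne this]
    · simp [g, hA, Pi.single_apply, v, show ∃ E, w E ∧ At s (P E) (some p) from ⟨E, u, z⟩]
    · simp only [g, Sum.elim_inr, hF, Pi.zero_apply, zero_mul, Finset.sum_const_zero, zero_add]
      exact if_neg fun q => q.2 ⟨E, u, z⟩
  have x0 : ∀ j, hm s₁ y₁ (g j).1 (g j).2 ≠ 0 := fun j e => H0 (g j) (by rw [← Hφ, e, map_zero])
  have key := S70.sp_tor x0 fun i j => (P (κ i)).ord (H (g j))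
  rw [show Fintype.card (J ⊕ Fin r ⊕ Unit) + 1 = J.card + r + 2 by simp; omega] at key
  obtain ⟨s', a', s0', key⟩ := key
  have kS : ∀ m, Sp (fun j => φ (s' j)) a' m = Submodule.span ℂ (mon (fun j => H (g j)) ''
      {n | ∀ i, 0 ≤ ∑ j, n j * (P (κ i)).ord (H (g j)) + m i}) := fun m => by
    rw [sp_map, key, Submodule.map_span, image_image]
    simp only [mon, AlgHom.toLinearMap_apply, map_prod, map_zpow₀, Hφ]
    rfl
  let b : Fin c → Fin k → ℤ := fun l i => -(P (κ i)).ord (s l)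
  have eT : (fun j => φ (Fin.append s' s₁ j)) = Fin.append (fun j => φ (s' j)) s :=
    funext fun j => by refine Fin.addCases (fun i => ?_) (fun i => ?_) j <;> simp [hs, φ]
  have T0 : ∀ j, Fin.append s' s₁ j ≠ 0 := fun j => by
    refine Fin.addCases (fun i => ?_) (fun i => ?_) j
    · rw [Fin.append_left]
      exact s0' i
    · rw [Fin.append_right]
      exact fun e => s0 i (by rw [hs, e, map_zero])
  refine ⟨Fin.append s' s₁, Fin.append a' b, T0, fun e z z0 => ?_⟩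
  have z0' : φ z ≠ 0 := (map_ne_zero φ).2 z0
  rw [← mem_map φ]
  refine ⟨fun q => sp_sec D (fun j => (map_ne_zero φ).2 (T0 j)) (fun j => ?_) q z0', fun q => ?_⟩
  · refine Fin.addCases (fun i => ?_) (fun l E u => ?_) j
    · rw [Fin.append_left, Fin.append_left]
      refine C3.G41.sec_span (T := {E | w E}) (fun E => a' i ⬝ᵥ D E) ?_
        (kS _ ▸ sp_gen (fun j => φ (s' j)) a' i) ((map_ne_zero φ).2 (s0' i))
      rintro _ ⟨n, hn, rfl⟩ E u
      rw [ord_mon _ fun j => H0 _]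
      rcases h2 E u with ⟨i', rfl⟩ | ⟨v, v'⟩
      · rw [(h1 i').2.1, dotProduct_single_one]
        exact hn i'
      · simp [v, Hn E u v']
    · rw [Fin.append_right, Fin.append_right, show φ (s₁ l) = s l from (hs l).symm]
      rcases h2 E u with ⟨i', rfl⟩ | ⟨v, v'⟩
      · rw [(h1 i').2.1, dotProduct_single_one]
        exact (add_neg_cancel _).ge
      · rw [v, dotProduct_zero, add_zero]
        exact c5 _ (v'.imp (fun t => ((f9 _).1 t).1) fun ⟨p, _, t⟩ => ⟨p, t⟩) l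
  have tv : ∀ E, w E → Tv s y (P E) → D E = 0 := fun E u v =>
    (h2 E u).elim (fun ⟨i, t⟩ => ((h1 i).2.2.1 (t ▸ v)).elim) And.left
  obtain ⟨G, hG, eG⟩ := h.lau _ z0' fun E u v => by
    have := q E u
    rwa [tv E u v, dotProduct_zero, add_zero] at this
  have cmp : ∀ v, ∃ ζ : K₁, G v = ζ • mon (fun i => y (Fin.natAdd r i)) (fun i => v (Fin.natAdd r i))
      ∧ ((fun i => v (Fin.natAdd r i)) = 0 → φ ζ ∈ Sp (Fin.append (fun j => φ (s' j)) s)
        (Fin.append a' b) e) := fun v => by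
    rcases eq_or_ne (G v) 0 with G0 | G0
    · exact ⟨0, by rw [G0, zero_smul], fun _ => by rw [map_zero]; exact zero_mem _⟩
    obtain ⟨β, n, β0, eb⟩ := f1 v _ (hG v) G0
    let m : Fin r → ℤ := fun i => v (Fin.castAdd ρ i)
    have e1 : hm s y n v = H (n, m) * mon (fun i => y (Fin.natAdd r i))
        fun i => v (Fin.natAdd r i) := by
      simp [H, hm, mon, Fin.prod_univ_add, m, mul_assoc]
    refine ⟨β • hm s₁ y₁ n m, ?_, fun v0 => ?_⟩
    · rw [eb, e1, smul_assoc, Algebra.smul_def (hm s₁ y₁ n m), ← Hφ]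
      rfl
    rw [map_smul, Hφ (n, m)]
    refine Submodule.smul_mem _ _ ?_
    have sc : ∀ E, w E → 0 ≤ (P E).ord (H (n, m)) + e ⬝ᵥ D E := fun E u => by
      have e2 : (P E).ord (G v) = (P E).ord (H (n, m)) := by
        rw [eb, Pl.ord_smul _ β0, e1, v0]
        simp [mon]
      by_cases t : Tv s y (P E)
      · rw [← e2, t _ _ (hG v) G0, tv E u t, dotProduct_zero]
        exact le_rfl
      · have a1 := h.inv E u t G hG v G0
        have a2 := q E u
        rw [← eG, e2] at a1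
        exact a2.trans (add_le_add_left a1 _)
    obtain ⟨N₀, hN⟩ : ∃ N₀ : ℕ, ∀ p, 0 ≤ n p + N₀ := by
      refine ⟨∑ p ∈ n.support, (n p).natAbs, fun p => ?_⟩
      by_cases t : p ∈ n.support
      · have := Finset.single_le_sum (f := fun p => (n p).natAbs) (fun _ _ => Nat.zero_le _) t
        omega
      · rw [Finsupp.notMem_support_iff.1 t, zero_add]
        exact Int.natCast_nonneg _
    let ξ : J ⊕ Fin r ⊕ Unit → ℤ := Sum.elim (fun p => n p.1) (Sum.elim m fun _ => -N₀)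
    obtain ⟨n', hn', en⟩ : ∃ n' : Pg c →₀ ℤ, (∀ p, n' p = n p - (if p ∈ J then n p else 0) +
        ∑ i, m i * A i p + N₀ * F p) ∧ (n, m) = ∑ j, ξ j • g j + (n', 0) := by
      refine ⟨n - (∑ j, ξ j • g j).1, fun p => ?_, Prod.ext (add_sub_cancel _ _).symm ?_⟩
      · have t : ∑ x : J, n x.1 * (Finsupp.single x.1 (1 : ℤ)) p = if p ∈ J then n p else 0 := by
          rw [Finset.sum_coe_sort J fun x => n x * (Finsupp.single x (1 : ℤ)) p]
          simp [Finsupp.single_apply]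
        simp only [Prod.fst_sum, Fintype.sum_sum_type, ξ, g, Sum.elim_inl, Sum.elim_inr,
          Prod.smul_fst, Prod.fst_add, Finsupp.sub_apply, Finsupp.add_apply,
          Finsupp.finset_sum_apply, Finsupp.smul_apply, smul_eq_mul, Finsupp.neg_apply, t,
          mul_neg, Finset.sum_neg_distrib, Finset.univ_unique, Finset.sum_singleton]
        ring
      · funext i
        simp [Prod.snd_sum, Fintype.sum_sum_type, ξ, g, Finset.sum_apply, Pi.single_apply]
    have nJ : ∀ p ∈ J, n' p = 0 := fun p t => by simp [hn', hA, hF, t]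
    have n0 : 0 ≤ n' := fun p => by
      show 0 ≤ n' p
      by_cases t : p ∈ J
      · exact (nJ p t).ge
      by_cases t' : ∃ E, w E ∧ At s (P E) (some p)
      · obtain ⟨E, u, z⟩ := id t'
        have a1 := sc E u
        have a2 : D E = 0 :=
          (h2 E u).elim (fun ⟨i, t''⟩ => ((h1 i).2.2.2 p t (t'' ▸ z)).elim) And.left
        rw [a2, dotProduct_zero, add_zero, Ho E p u t z] at a1
        simp only [hn', hA, hF, t, t', not_false_eq_true, and_self, if_true, not_true, and_false,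
          if_false]
        linarith
      · have := hN p
        simp only [hn', hA, hF, t, t', not_false_eq_true, and_self, if_true, and_false, if_false]
        simpa using this
    have d0 : 0 ≤ -od n' none := by
      rw [od, neg_neg]
      exact Finset.sum_nonneg fun p _ => mul_nonneg (n0 p) (Int.natCast_nonneg _)
    have e0 : H (n', 0) = hm s y n' 0 := congrArg (hm s y n') (funext fun j => by
      refine Fin.addCases (fun i => ?_) (fun i => ?_) j <;> simp)
    have e3 : H (n, m) = mon (fun j => H (g j)) ξ * hm s y n' 0 := by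
      rw [en, Ha, hom_mon H H0 Ha, e0]
    have sp := f11 n' (-od n' none).toNat n0 (Int.self_le_toNat _)
    rw [e3]
    refine Submodule.span_le.2 (?_ : _ ⊆ ((Sp (Fin.append (fun j => φ (s' j)) s) (Fin.append a' b)
      e).comap (LinearMap.mulLeft ℂ (mon (fun j => H (g j)) ξ)) : Set K)) sp
    rintro _ ⟨t, ht, rfl⟩
    suffices mm : mon (fun j => H (g j)) ξ ∈ Sp (fun j => φ (s' j)) a' (e - dg b t) by
      have := sp_app (fun j => φ (s' j)) a' s b mm t
      rwa [sub_add_cancel] at this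
    rw [kS]
    refine Submodule.subset_span ⟨ξ, fun i => ?_, rfl⟩
    have a1 := sc _ (h1 i).1
    rw [(h1 i).2.1, dotProduct_single_one, e3, Pl.ord_mul _ (mon_ne (fun j => H0 _) _) (f2 _ _).1,
      ord_mon _ fun j => H0 _] at a1
    have a2 : (P (κ i)).ord (hm s y n' 0) ≤ ∑ l, (t l : ℤ) * (P (κ i)).ord (s l) := by
      have pos : (Hz s (P (κ i)) ∨ ∃ p, At s (P (κ i)) (some p)) →
          0 ≤ ∑ l, (t l : ℤ) * (P (κ i)).ord (s l) := fun z =>
        Finset.sum_nonneg fun l _ => mul_nonneg (Int.natCast_nonneg _) (c5 _ z l)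
      rcases h.pg _ (h1 i).1 with z | ⟨_ | p, z⟩
      · rw [f7 _ _ _ z]
        simpa using pos (.inl z)
      · have a3 : ((∑ l, t l : ℕ) : ℤ) ≤ -od n' none := by omega
        rw [f6 _ _ _ _ z]
        simp only [Pi.zero_apply, zero_mul, Finset.sum_const_zero, zero_add, c4 _ z,
          ← Finset.sum_mul, ← Nat.cast_sum]
        nlinarith [z.1]
      · rw [f6 _ _ _ _ z, od, nJ p (not_not.1 fun t => (h1 i).2.2.2 p t z)]
        simpa using pos (.inr ⟨p, z⟩)
    simp only [Pi.sub_apply, dg, b, mul_neg, Finset.sum_neg_distrib]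
    linarith
  choose ζ e1 e2 using cmp
  have e3 : ∑ v ∈ G.support, Finsupp.single (fun i => v (Fin.natAdd r i)) (ζ v) =
      Finsupp.single 0 z := Sm85.li_mon ind (by
    rw [map_sum, Finsupp.linearCombination_single,
      show mon (fun i => y (Fin.natAdd r i)) (0 : Fin ρ → ℤ) = 1 by simp [mon],
      ← Algebra.algebraMap_eq_smul_one]
    refine (Finset.sum_congr rfl fun v _ => ?_).trans eG.symm
    rw [Finsupp.linearCombination_single, e1])
  have e4 := DFunLike.congr_fun e3 0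
  rw [Finsupp.single_eq_same, Finsupp.finset_sum_apply] at e4
  rw [eT, ← e4, map_sum]
  refine sum_mem fun v _ => ?_
  rw [Finsupp.single_apply]
  split_ifs with t
  · exact e2 v t
  · rw [map_zero]
    exact zero_mem _

end Vale.Agent.P283R.Wd.G70
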