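import Mathlib

/-!
# P283R, block WD: a sum of many lattice polytopes contains a deep lattice point
-/

open Finset Matrix

noncomputable section

namespace Vale.Agent.P283R.Wd

namespace F31

variable {ι : Type} {ρ : ℕ} {I : Finset ι} {V : ι → Set (Fin ρ → ℤ)} {k : ι → (Fin ρ → ℤ) → ℤ}
  {m : ι → ℝ} {μ : ℝ} {W : ℕ}

/-- the points of depth `δ` in the sum of the polytopes of the pages `U` -/
def Dp (k : ι → (Fin ρ → ℤ) → ℤ) (m : ι → ℝ) (U : Finset ι) (δ : ℝ) (y : Fin ρ → ℝ) : Prop :=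
  ∀ ν : Fin ρ → ℤ, ν ≠ 0 → δ ≤ ∑ l, y l * ν l + ∑ i ∈ U, m i * k i ν

theorem Dp.add [DecidableEq ι] {U U' : Finset ι} {δ δ' : ℝ} {y y' : Fin ρ → ℝ}
    (h : Dp k m U δ y) (h' : Dp k m U' δ' y') (d : Disjoint U U') :
    Dp k m (U ∪ U') (δ + δ') (y + y') := fun ν n0 => by
  have a := h ν n0
  have b := h' ν n0
  simp only [sum_union d, Pi.add_apply, add_mul, sum_add_distrib]
  linarith

open Classical in
/-- the data -/
structure Dt (I : Finset ι) (V : ι → Set (Fin ρ → ℤ)) (k : ι → (Fin ρ → ℤ) → ℤ) (m : ι → ℝ)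
    (μ : ℝ) (W : ℕ) : Prop where
  ne : ∀ i ∈ I, (V i).Nonempty
  hk : ∀ i ∈ I, ∀ v ∈ V i, ∀ ν, 0 ≤ v ⬝ᵥ ν + k i ν
  pos : 0 < μ
  le : ∀ i ∈ I, μ ≤ m i
  wide : ∀ ν : Fin ρ → ℤ, ν ≠ 0 →
    W ≤ (I.filter fun i => ∃ v ∈ V i, ∃ v' ∈ V i, v ⬝ᵥ ν ≠ v' ⬝ᵥ ν).card

theorem Dt.base (X : Dt I V k m μ W) {U : Finset ι} (h : U ⊆ I) : ∃ y, Dp k m U 0 y := by
  choose! v hv using X.ne
  refine ⟨fun l => ∑ i ∈ U, m i * v i l, fun ν _ => ?_⟩
  simp only [sum_mul]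
  rw [sum_comm, ← sum_add_distrib]
  refine sum_nonneg fun i hi => ?_
  have a : (0 : ℝ) ≤ (v i ⬝ᵥ ν + k i ν : ℤ) := by
    exact_mod_cast X.hk i (h hi) _ (hv i (h hi)) ν
  have := mul_nonneg (X.pos.le.trans (X.le i (h hi))) a
  simpa [dotProduct, mul_add, mul_sum, mul_assoc] using this

theorem Dt.grp [DecidableEq ι] (X : Dt I V k m μ W) {U : Finset ι} (h : U.card + ρ ≤ W) (r : ℕ)
    (hr : r ≤ ρ) : ∃ (b : Fin r → ι) (v v' : Fin r → Fin ρ → ℤ), Function.Injective b ∧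
      (∀ j, b j ∈ I ∧ b j ∉ U ∧ v j ∈ V (b j) ∧ v' j ∈ V (b j)) ∧
      ∀ c : Fin r → ℤ, ∑ j, c j • (v' j - v j) = 0 → c = 0 := by
  classical
  induction r with
  | zero => exact ⟨Fin.elim0, Fin.elim0, Fin.elim0, fun a => a.elim0, fun a => a.elim0,
      fun c _ => Subsingleton.elim _ _⟩
  | succ r ih =>
    obtain ⟨b, v, v', inj, mem, ind⟩ := ih (by omega)
    obtain ⟨ν, n1, n0⟩ : ∃ ν : Fin ρ → ℤ, (Matrix.of fun j => v' j - v j).mulVecLin ν = 0 ∧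
        ν ≠ 0 := by
      by_contra! c
      have := LinearMap.finrank_le_finrank_of_injective
        (LinearMap.ker_eq_bot.1 (LinearMap.ker_eq_bot'.2 c))
      simp at this
      omega
    obtain ⟨i, hi, hn⟩ := exists_mem_notMem_of_card_lt_card (s := U ∪ univ.image b)
      (lt_of_lt_of_le (by
        have := card_union_le U (univ.image b)
        have := card_image_le (s := univ) (f := b)
        simp only [card_univ, Fintype.card_fin] at this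
        omega) (X.wide ν n0))
    obtain ⟨hi, w, hw, w', hw', ne⟩ := mem_filter.1 hi
    rw [mem_union, not_or] at hn
    refine ⟨Fin.cons i b, Fin.cons w v, Fin.cons w' v', Fin.cons_injective_iff.2
      ⟨fun ⟨j, e⟩ => hn.2 (mem_image.2 ⟨j, mem_univ _, e⟩), inj⟩,
      fun j => Fin.cases ⟨hi, hn.1, hw, hw'⟩ mem j, fun c hc => ?_⟩
    rw [Fin.sum_univ_succ] at hc
    simp only [Fin.cons_zero, Fin.cons_succ] at hc
    have z : ∀ j, (v' j - v j) ⬝ᵥ ν = 0 := fun j => congrFun n1 j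
    have c0 : c 0 = 0 := by
      have := congrArg (· ⬝ᵥ ν) hc
      simp only [add_dotProduct, smul_dotProduct, sum_dotProduct, z, mul_zero, sum_const_zero,
        add_zero, zero_dotProduct, smul_eq_mul, sub_dotProduct] at this
      exact (mul_eq_zero.1 this).resolve_right (sub_ne_zero.2 ne.symm)
    rw [c0, zero_smul, zero_add] at hc
    exact funext fun j => Fin.cases c0 (congrFun (ind _ hc)) j

theorem Dt.step [DecidableEq ι] (X : Dt I V k m μ W) {U : Finset ι} (h : U.card + ρ ≤ W) :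
    ∃ U' ⊆ I, Disjoint U U' ∧ U'.card ≤ ρ ∧ ∃ (y : Fin ρ → ℝ) (e : Fin ρ → Fin ρ → ℤ),
      (∀ α : Fin ρ → ℝ, (∀ j, 0 ≤ α j ∧ α j ≤ μ) →
        Dp k m U' 0 (y + fun l => ∑ j, α j * e j l)) ∧ (∃ y', Dp k m U' (μ / 2) y') ∧
      ∀ z : Fin ρ → ℝ, ∃ (α : Fin ρ → ℝ) (p : Fin ρ → ℤ), (∀ j, 0 ≤ α j ∧ α j ≤ 1) ∧
        ∀ l, z l = ∑ j, α j * e j l + (∑ j, p j * e j l : ℤ) := by
  obtain ⟨b, v, v', inj, mem, ind⟩ := X.grp h ρ le_rfl
  let M : Matrix (Fin ρ) (Fin ρ) ℤ := Matrix.of fun j => v' j - v j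
  have d0 : M.det ≠ 0 := fun e => by
    obtain ⟨c, c0, hc⟩ := Matrix.exists_vecMul_eq_zero_iff.2 e
    exact c0 (ind c (by rw [← hc]; ext l; simp [M, vecMul, dotProduct]))
  have key : ∀ (α : Fin ρ → ℝ) (ν : Fin ρ → ℤ),
      ∑ l, ((fun l => ∑ j, m (b j) * v j l) + fun l => ∑ j, α j * (v' j - v j) l) l * ν l +
        ∑ i ∈ univ.image b, m i * k i ν = ∑ j, ((m (b j) - α j) * (v j ⬝ᵥ ν + k (b j) ν : ℤ) +
          α j * (v' j ⬝ᵥ ν + k (b j) ν : ℤ)) := fun α ν => by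
    rw [sum_image fun a _ c _ e => inj e]
    have e1 : ∀ l, ((fun l => ∑ j, m (b j) * v j l) + fun l => ∑ j, α j * (v' j - v j) l) l *
        (ν l : ℝ) = ∑ j, (m (b j) * v j l + α j * (v' j - v j) l) * ν l := fun l => by
      rw [Pi.add_apply, ← sum_add_distrib, sum_mul]
    rw [sum_congr rfl fun l _ => e1 l, sum_comm, ← sum_add_distrib]
    refine sum_congr rfl fun j _ => ?_
    simp only [dotProduct, Pi.sub_apply]
    push_cast
    simp only [mul_add, mul_sum, add_mul, sub_mul, mul_sub, sum_add_distrib, sum_sub_distrib,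
      mul_assoc]
    ring
  have nn : ∀ j ν, (0 : ℝ) ≤ (v j ⬝ᵥ ν + k (b j) ν : ℤ) ∧ (0 : ℝ) ≤ (v' j ⬝ᵥ ν + k (b j) ν : ℤ) :=
    fun j ν => ⟨by exact_mod_cast X.hk _ (mem j).1 _ (mem j).2.2.1 ν,
      by exact_mod_cast X.hk _ (mem j).1 _ (mem j).2.2.2 ν⟩
  have p0 := X.pos
  refine ⟨univ.image b, fun i hi => ?_, disjoint_right.2 fun i hi => ?_,
    card_image_le.trans (by simp), fun l => ∑ j, m (b j) * v j l, fun j => v' j - v j, fun α hα ν _ => ?_,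
    ⟨_, fun ν n0 => le_of_le_of_eq ?_ (key (fun _ => μ / 2) ν).symm⟩, fun z => ?_⟩
  · obtain ⟨j, -, rfl⟩ := mem_image.1 hi
    exact (mem j).1
  · obtain ⟨j, -, rfl⟩ := mem_image.1 hi
    exact (mem j).2.1
  · rw [key]
    exact sum_nonneg fun j _ => add_nonneg (mul_nonneg
      (sub_nonneg.2 ((hα j).2.trans (X.le _ (mem j).1))) (nn j ν).1) (mul_nonneg (hα j).1 (nn j ν).2)
  · obtain ⟨j, hj⟩ : ∃ j, v' j ⬝ᵥ ν ≠ v j ⬝ᵥ ν := by
      by_contra! c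
      refine d0 (Matrix.exists_mulVec_eq_zero_iff.1 ⟨ν, n0, funext fun j => ?_⟩)
      change (v' j - v j) ⬝ᵥ ν = 0
      rw [sub_dotProduct, c j, sub_self]
    refine le_trans ?_ (single_le_sum (fun j _ => add_nonneg (mul_nonneg
      (by linarith [X.le _ (mem j).1]) (nn j ν).1) (mul_nonneg (by linarith) (nn j ν).2))
      (mem_univ j))
    have a : (1 : ℝ) ≤ (v j ⬝ᵥ ν + k (b j) ν : ℤ) + (v' j ⬝ᵥ ν + k (b j) ν : ℤ) := by
      have := X.hk _ (mem j).1 _ (mem j).2.2.1 ν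
      have := X.hk _ (mem j).1 _ (mem j).2.2.2 ν
      exact_mod_cast (by omega : 1 ≤ v j ⬝ᵥ ν + k (b j) ν + (v' j ⬝ᵥ ν + k (b j) ν))
    nlinarith [X.le _ (mem j).1, (nn j ν).1, (nn j ν).2]
  · have d1 : IsUnit (M.map (Int.castRingHom ℝ)).det := by
      rw [← RingHom.mapMatrix_apply, ← RingHom.map_det]
      exact Ne.isUnit (Int.cast_ne_zero.2 d0)
    obtain ⟨c, hc⟩ := Matrix.vecMul_surjective_iff_isUnit.2
      ((Matrix.isUnit_iff_isUnit_det _).2 d1) z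
    refine ⟨fun j => Int.fract (c j), fun j => ⌊c j⌋,
      fun j => ⟨Int.fract_nonneg _, (Int.fract_lt_one _).le⟩, fun l => ?_⟩
    rw [← hc]
    push_cast
    rw [← sum_add_distrib]
    simp only [← add_mul, Int.fract_add_floor]
    simp [M, vecMul, dotProduct]

theorem Dt.deep [DecidableEq ι] (X : Dt I V k m μ W) (g : ℕ) (h : g * ρ ≤ W) :
    ∃ U ⊆ I, U.card ≤ g * ρ ∧ ∃ y, Dp k m U (g * (μ / 2)) y := by
  induction g with
  | zero => exact ⟨∅, empty_subset _, by simp, by simpa using X.base (empty_subset _)⟩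
  | succ g ih =>
    rw [add_mul, one_mul] at h
    obtain ⟨U, a, c, y, d⟩ := ih (by omega)
    obtain ⟨U', a', dj, c', -, -, -, ⟨y', d'⟩, -⟩ := X.step (U := U) (by omega)
    refine ⟨U ∪ U', union_subset a a', ?_, y + y', ?_⟩
    · have := card_union_le U U'
      rw [add_mul, one_mul]
      omega
    · rw [Nat.cast_succ, add_mul, one_mul]
      exact d.add d' dj

/-- the residues of the points of depth `δ` -/
def Rs (k : ι → (Fin ρ → ℤ) → ℤ) (m : ι → ℝ) (J : ℕ) (U : Finset ι) (δ : ℝ) (y : Fin ρ → ℝ) :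
    Set (Fin ρ → ZMod J) :=
  {g | ∃ n : Fin ρ → ℤ, Dp k m U δ (y + fun l => (n l : ℝ) / J) ∧ g = fun l => (n l : ZMod J)}

theorem Dt.grow [DecidableEq ι] (X : Dt I V k m μ W) {J : ℕ} [NeZero J] (hJ : 1 ≤ J * μ)
    {U₀ : Finset ι} (a₀ : U₀ ⊆ I) {δ : ℝ} {y₀ : Fin ρ → ℝ} (d₀ : Dp k m U₀ δ y₀) (g : ℕ)
    (h : U₀.card + g * ρ ≤ W) : ∃ U ⊆ I, U.card ≤ U₀.card + g * ρ ∧ ∃ y,
      Rs k m J U δ y = Set.univ ∨ g + 1 ≤ (Rs k m J U δ y).ncard := by
  have J0 : (0 : ℝ) < J := Nat.cast_pos.2 (NeZero.pos J)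
  induction g with
  | zero =>
    refine ⟨U₀, a₀, by simp, y₀, .inr ((Set.ncard_pos (Set.toFinite _)).2 ⟨_, 0, ?_, rfl⟩)⟩
    exact (show y₀ = y₀ + fun l => ((0 : Fin ρ → ℤ) l : ℝ) / J by ext; simp) ▸ d₀
  | succ g ih =>
    rw [add_mul, one_mul] at h
    obtain ⟨U, a, c, y, d⟩ := ih (by omega)
    obtain ⟨U', a', dj, c', y', e, b1, -, b2⟩ := X.step (U := U) (by omega)
    refine ⟨U ∪ U', union_subset a a', ?_, y + y', ?_⟩
    · have := card_union_le U U'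
      rw [add_mul, one_mul]
      omega
    have st : ∀ s ∈ Rs k m J U δ y, ∀ (α : Fin ρ → ℝ) (t : Fin ρ → ℤ), (∀ j, 0 ≤ α j ∧ α j ≤ 1) →
        (∀ l, (t l : ℝ) = ∑ j, α j * e j l) →
        (fun l => s l + t l) ∈ Rs k m J (U ∪ U') δ (y + y') := by
      rintro _ ⟨n, hn, rfl⟩ α t hα ht
      refine ⟨n + t, ?_, by ext l; simp⟩
      have := hn.add (b1 (fun j => α j / J) fun j => ⟨div_nonneg (hα j).1 J0.le, by
        rw [div_le_iff₀ J0]; linarith [(hα j).2]⟩) dj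
      rw [add_zero] at this
      refine Eq.mp (congrArg _ (funext fun l => ?_)) this
      simp only [Pi.add_apply, Int.cast_add, ht, add_div, sum_div, div_mul_eq_mul_div]
      ring
    have sub : Rs k m J U δ y ⊆ Rs k m J (U ∪ U') δ (y + y') := fun s hs => by
      simpa using st s hs 0 0 (by simp) (by simp)
    rcases d with d | d
    · exact .inl (Set.eq_univ_of_univ_subset (d ▸ sub))
    by_cases q : Rs k m J (U ∪ U') δ (y + y') ⊆ Rs k m J U δ y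
    swap
    · have := Set.ncard_lt_ncard ⟨sub, q⟩ (Set.toFinite _)
      exact .inr (by omega)
    refine .inl (Set.eq_univ_of_forall fun s => sub ?_)
    obtain ⟨s₀, h₀⟩ : (Rs k m J U δ y).Nonempty := (Set.ncard_pos (Set.toFinite _)).1 (by omega)
    let H : AddSubmonoid (Fin ρ → ZMod J) :=
      { carrier := {t | ∀ s ∈ Rs k m J U δ y, s + t ∈ Rs k m J U δ y}
        zero_mem' := fun s hs => by rwa [add_zero]
        add_mem' := fun h1 h2 s hs => by rw [← add_assoc]; exact h2 _ (h1 s hs) }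
    obtain ⟨α, p, hα, k1⟩ := b2 fun l => (((s l - s₀ l).val : ℤ) : ℝ)
    have s1 : (fun l => (((s l - s₀ l).val - ∑ j, p j * e j l : ℤ) : ZMod J)) ∈ H :=
      fun u hu => q (st u hu α _ hα fun l => by rw [Int.cast_sub, k1 l]; ring)
    have s2 : ∀ j, (fun l => (e j l : ZMod J)) ∈ H := fun j u hu =>
      q (st u hu (Pi.single j 1) (e j) (fun i => by
        by_cases c : i = j <;> simp [c]) fun l => by simp [Pi.single_apply])
    have s3 := H.add_mem s1 (H.sum_mem (t := univ) fun j _ =>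
      H.nsmul_mem (s2 j) (p j : ZMod J).val) s₀ h₀
    refine Eq.mp (congrArg (· ∈ Rs k m J U δ y) (funext fun l => ?_)) s3
    simp only [Pi.add_apply, Finset.sum_apply, Pi.smul_apply]
    simp

end F31

open F31 Classical in
/-- **FLAT**: many pages in every direction give a deep lattice point -/
theorem flat (ρ J G : ℕ) : ∃ W : ℕ, ∀ (ι : Type) (I : Finset ι) (V : ι → Set (Fin ρ → ℤ))
    (k : ι → (Fin ρ → ℤ) → ℤ) (m : ι → ℝ) (μ : ℝ), (∀ i ∈ I, (V i).Nonempty) →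
    (∀ i ∈ I, ∀ v ∈ V i, ∀ ν, 0 ≤ v ⬝ᵥ ν + k i ν) → 1 ≤ J * μ → (∀ i ∈ I, μ ≤ m i) →
    (∀ ν : Fin ρ → ℤ, ν ≠ 0 →
      W ≤ (I.filter fun i => ∃ v ∈ V i, ∃ v' ∈ V i, v ⬝ᵥ ν ≠ v' ⬝ᵥ ν).card) →
    ∀ x : Fin ρ → ℝ, ∃ n : Fin ρ → ℤ, ∀ ν : Fin ρ → ℤ, ν ≠ 0 →
      G * μ ≤ ∑ l, (n l - x l) * ν l + ∑ i ∈ I, m i * k i ν := by
  refine ⟨2 * G * ρ + J ^ ρ * ρ + ρ, fun ι I V k m μ h1 h2 hJ h3 h4 x => ?_⟩
  have J1 : J ≠ 0 := by rintro rfl; norm_num at hJ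
  have : NeZero J := ⟨J1⟩
  have J0 : (0 : ℝ) < J := Nat.cast_pos.2 (NeZero.pos J)
  have X : Dt I V k m μ _ := ⟨h1, h2, by by_contra! c; nlinarith, h3, h4⟩
  obtain ⟨U₀, a₀, c₀, y₀, d₀⟩ := X.deep (2 * G) (by omega)
  obtain ⟨U, a, c, y, d⟩ := X.grow hJ a₀ d₀ (J ^ ρ) (by omega)
  have u : Rs k m J U (((2 * G : ℕ) : ℝ) * (μ / 2)) y = Set.univ := d.resolve_right fun d => by
    have := Set.ncard_le_card (Rs k m J U (((2 * G : ℕ) : ℝ) * (μ / 2)) y)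
    rw [Nat.card_eq_fintype_card, Fintype.card_fun, ZMod.card, Fintype.card_fin] at this
    omega
  obtain ⟨U', a', dj, -, y', e, b1, -, b2⟩ := X.step (U := U) (by omega)
  obtain ⟨y'', d''⟩ := X.base (sdiff_subset (s := I) (t := U ∪ U'))
  obtain ⟨α, p, hα, k1⟩ := b2 fun l => J * (-x l - y l - y' l - y'' l)
  obtain ⟨n, hn, e1⟩ : (fun l => ((∑ j, p j * e j l : ℤ) : ZMod J)) ∈
    Rs k m J U (((2 * G : ℕ) : ℝ) * (μ / 2)) y := u ▸ trivial
  choose c hc using fun l => (ZMod.intCast_eq_intCast_iff_dvd_sub _ _ _).1 (congrFun e1 l)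
  have := (hn.add (b1 (fun j => α j / J) fun j => ⟨div_nonneg (hα j).1 J0.le, by
    rw [div_le_iff₀ J0]; linarith [(hα j).2]⟩) dj).add d'' disjoint_sdiff
  rw [union_sdiff_of_subset (union_subset a a')] at this
  refine ⟨c, fun ν n0 => le_of_eq_of_le (by push_cast; ring) ((this ν n0).trans_eq ?_)⟩
  congr 1
  refine sum_congr rfl fun l _ => ?_
  congr 1
  have a2 : ((n l - ∑ j, p j * e j l : ℤ) : ℝ) = ((J * c l : ℤ) : ℝ) := congrArg _ (hc l)
  have a1 := k1 l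
  simp only [Pi.add_apply, div_mul_eq_mul_div, ← sum_div]
  rw [Int.cast_sub, Int.cast_mul, Int.cast_natCast] at a2
  field_simp
  linarith

end Vale.Agent.P283R.Wd
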