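import Vale.Agent.P283R.Wd.S42
import Vale.Agent.P283R.Wd.Flt31

/-!
# P283R, block WD: deep integral lifts from the pages
-/

open Finset

noncomputable section

namespace Vale.Agent.P283R.Wd

open Vale.Agent.P287D Vale.Agent.P297Z
open Vale.Agent.P283R.To (mon mon_ne ord_mon)

open Classical in
/-- a nonzero deep lattice point -/
theorem flat' {ρ : ℕ} (h : 0 < ρ) (J G : ℕ) : ∃ W : ℕ, ∀ (ι : Type) (I : Finset ι)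
    (V : ι → Set (Fin ρ → ℤ)) (k : ι → (Fin ρ → ℤ) → ℤ) (m : ι → ℝ) (μ : ℝ),
    (∀ i ∈ I, (V i).Nonempty) → (∀ i ∈ I, ∀ v ∈ V i, ∀ ν, 0 ≤ v ⬝ᵥ ν + k i ν) → 1 ≤ J * μ →
    (∀ i ∈ I, μ ≤ m i) → (∀ ν : Fin ρ → ℤ, ν ≠ 0 →
      W ≤ (I.filter fun i => ∃ v ∈ V i, ∃ v' ∈ V i, v ⬝ᵥ ν ≠ v' ⬝ᵥ ν).card) →
    ∀ x : Fin ρ → ℝ, ∃ n : Fin ρ → ℤ, n ≠ 0 ∧ ∀ ν : Fin ρ → ℤ, ν ≠ 0 →
      G * μ ≤ ∑ l, (n l - x l) * ν l + ∑ i ∈ I, m i * k i ν := by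
  obtain ⟨W, H⟩ := flat ρ (2 * J) G
  refine ⟨W, fun ι I V k m μ h1 h2 h3 h4 h5 x => ?_⟩
  obtain ⟨n, hn⟩ := H ι I V k (fun i => m i / 2) (μ / 2) h1 h2 (by push_cast; linarith)
    (fun i hi => by linarith [h4 i hi]) h5 fun l => (x l - 1) / 2
  refine ⟨fun l => 2 * n l + 1, fun e => ?_, fun ν n0 => ?_⟩
  · have := congrFun e ⟨0, h⟩
    simp only [Pi.zero_apply] at this
    omega
  · have := hn ν n0
    have e1 : ∑ l, (((2 * n l + 1 : ℤ) : ℝ) - x l) * ν l =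
        2 * ∑ l, ((n l : ℝ) - (x l - 1) / 2) * ν l := by
      rw [mul_sum]
      exact sum_congr rfl fun l _ => by push_cast; ring
    have e2 : ∑ i ∈ I, m i * k i ν = 2 * ∑ i ∈ I, m i / 2 * k i ν := by
      rw [mul_sum]
      exact sum_congr rfl fun l _ => by ring
    rw [e1, e2]
    linarith

open Classical in
/-- **DPF**: many pages in every direction give deep integral lifts -/
theorem dpf {ρ : ℕ} (h : 0 < ρ) (W : ℕ) : ∃ W' : ℕ, ∀ (K : Type) [Field K] [Algebra ℂ K]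
    (ι : Type) (I : Finset ι) (V : ι → Set (Fin ρ → ℤ)) (k : ι → (Fin ρ → ℤ) → ℤ) (l : ι → K)
    (β : Fin ρ → K) (c : (Fin ρ → ℤ) → K) (S₁ : Subalgebra ℂ K) (p₁ : Ideal S₁),
    (∀ i ∈ I, (V i).Nonempty) → (∀ i ∈ I, ∀ v ∈ V i, ∀ ν, 0 ≤ v ⬝ᵥ ν + k i ν) →
    (∀ ν : Fin ρ → ℤ, ν ≠ 0 →
      W' ≤ (I.filter fun i => ∃ v ∈ V i, ∃ v' ∈ V i, v ⬝ᵥ ν ≠ v' ⬝ᵥ ν).card) →
    (∀ i ∈ I, l i ≠ 0 ∧ ∃ s ∈ p₁, (s : K) = l i) → (∀ j, β j ≠ 0) →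
    (∀ m, m ≠ 0 → c m = mon β m * ∏ i ∈ I, l i ^ k i m) → Dp W c S₁ p₁ := by
  obtain ⟨W', H⟩ := flat' h W W
  refine ⟨W', fun K _ _ ι I V k l β c S₁ p₁ h1 h2 h3 h4 h5 h6 P _ a μ _ h7 h8 => ?_⟩
  obtain ⟨n, n0, hn⟩ := H ι I V k (fun i => a * P.ord (l i)) μ h1 h2 h7 (fun i hi => by
    obtain ⟨l0, s, hs, e⟩ := h4 i hi
    exact e ▸ h8 s hs (e ▸ l0)) h3 fun j => -(a * P.ord (β j))
  refine ⟨n, n0, fun m m0 _ => (hn m m0).trans_eq ?_⟩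
  rw [h6 m m0, Pl.ord_mul _ (mon_ne h5 _) (prod_ne_zero_iff.2 fun i hi =>
    zpow_ne_zero _ (h4 i hi).1), ord_mon P h5,
    P.ord_prod _ fun i hi => zpow_ne_zero _ (h4 i hi).1]
  simp only [Pl.ord_zpow, dotProduct]
  push_cast
  simp only [mul_add, mul_sum, sub_neg_eq_add, add_mul, sum_add_distrib]
  have e1 : ∑ j, (n j : ℝ) * m j = ∑ j, (m j : ℝ) * n j := sum_congr rfl fun _ _ => mul_comm _ _
  have e2 : ∑ j, a * P.ord (β j) * m j = ∑ j, a * ((m j : ℝ) * P.ord (β j)) :=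
    sum_congr rfl fun _ _ => by ring
  have e3 : ∑ i ∈ I, a * P.ord (l i) * k i m = ∑ i ∈ I, a * ((k i m : ℝ) * P.ord (l i)) :=
    sum_congr rfl fun _ _ => by ring
  rw [e1, e2, e3]
  ring

end Vale.Agent.P283R.Wd
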