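import Vale.Agent.P283R.Wd.St
import Vale.Agent.P283R.Wd.Dpf31

/-!
# P283R, block WD: depth
-/

open Finset

noncomputable section

namespace Vale.Agent.P283R.Wd

open Vale.Agent.P287D Vale.Agent.P297Z Cx
open Vale.Agent.P283R.To (mon mon_ne mon_add ord_mon)

namespace D31

variable {K₁ K : Type} [Field K₁] [Field K] [Algebra K₁ K] {k ρ : ℕ} {ι : Type} {t : Fin k → K}

theorem mon_sum (ht : ∀ i, t i ≠ 0) (s : Finset ι) (c : ι → ℤ) (e : ι → Fin k → ℤ) :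
    mon t (∑ i ∈ s, c i • e i) = ∏ i ∈ s, mon t (e i) ^ c i := by
  classical
  induction s using Finset.induction_on with
  | empty => simp [mon]
  | insert j s hj ih =>
    rw [sum_insert hj, prod_insert hj, mon_add ht, ih]
    congr 1
    simp only [mon, Pi.smul_apply, smul_eq_mul, ← prod_zpow, ← zpow_mul, mul_comm]

theorem cK_eq (ht : ∀ i, t i ≠ 0) (π : Pg ι K₁ k ρ) (m : Fin ρ → ℤ) : π.cK t m =
    mon (fun i => mon t (π.α i)) m * ∏ p ∈ π.I, hm t (π.l p) (π.β p) ^ π.κ p m := by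
  simp only [Pg.cK, Pg.cc, Pg.al, hm, mon_add ht, mon_sum ht, map_prod, map_zpow₀, mul_zpow,
    prod_mul_distrib]
  rw [mul_left_comm]
  rfl

end D31

open D31 Classical in
theorem dpt : DPT := fun ρ W' h => by
  obtain ⟨W, H⟩ := dpf h W'
  refine ⟨W, fun K₁ K _ _ _ _ _ _ d k y t x _ ι π S₁ p₁ w hl => ?_⟩
  have ht := x.ind.ne_zero
  have l0 : ∀ p ∈ π.I, hm t (π.l p) (π.β p) ≠ 0 := fun p hp =>
    mul_ne_zero ((map_ne_zero _).2 (hl p hp).1) (mon_ne ht _)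
  refine ⟨H K ι π.I π.V π.κ (fun p => hm t (π.l p) (π.β p)) (fun i => mon t (π.α i)) _ S₁ p₁
    w.vn w.vk (fun ν n0 => (w.wid ν n0).trans_eq ?_) (fun p hp => ⟨l0 p hp, (hl p hp).2⟩)
    (fun _ => mon_ne ht _) fun m _ => cK_eq ht π m, fun P hP => ?_⟩
  · rw [← Set.ncard_coe_finset, coe_filter]
  choose! v hv using w.vn
  refine ⟨fun j => ∑ p ∈ π.I, P.ord (hm t (π.l p) (π.β p)) * v p j - P.ord (mon t (π.α j)),
    fun m => ?_⟩
  rw [cK_eq ht, Pl.ord_mul _ (mon_ne (fun _ => mon_ne ht _) _) (prod_ne_zero_iff.2 fun p hp =>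
    zpow_ne_zero _ (l0 p hp)), ord_mon P fun _ => mon_ne ht _,
    P.ord_prod _ fun p hp => zpow_ne_zero _ (l0 p hp)]
  have : 0 ≤ ∑ p ∈ π.I, P.ord (hm t (π.l p) (π.β p)) * (v p ⬝ᵥ m + π.κ p m) :=
    sum_nonneg fun p hp => mul_nonneg (by
      obtain ⟨b, -, e⟩ := (hl p hp).2
      exact e ▸ Pl.ord_nonneg_of_mem _ (hP _ b.2)) (w.vk p hp _ (hv p hp) m)
  refine this.trans_eq ?_
  simp only [Pl.ord_zpow, dotProduct, mul_sub, sum_sub_distrib, mul_add, sum_add_distrib, mul_sum]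
  rw [sum_comm]
  have e1 : ∑ j, ∑ p ∈ π.I, P.ord (hm t (π.l p) (π.β p)) * (v p j * m j) =
      ∑ j, ∑ p ∈ π.I, m j * (P.ord (hm t (π.l p) (π.β p)) * v p j) :=
    sum_congr rfl fun _ _ => sum_congr rfl fun _ _ => by ring
  have e2 : ∑ p ∈ π.I, P.ord (hm t (π.l p) (π.β p)) * π.κ p m =
      ∑ p ∈ π.I, π.κ p m * P.ord (hm t (π.l p) (π.β p)) := sum_congr rfl fun _ _ => mul_comm _ _
  rw [e1, e2]
  ring

end Vale.Agent.P283R.Wd
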