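import Vale.Agent.P283R.Wd.St
import Vale.Agent.P283R.Cx.Bas

/-!
# P283R, block WD: the row GDS
-/

open Set

noncomputable section

namespace Vale.Agent.P283R.Wd

open Vale.Agent.P287D Cx

variable {K F : Type} [Field K] [Algebra ℂ K] [Field F] [Algebra ℂ F] [Algebra K F] {ρ : ℕ}
  {u : Fin ρ → F} {c : (Fin ρ → ℤ) → K} {S₁ : Subalgebra ℂ K} {S : Subalgebra ℂ F}

theorem G14.hm_mem (g : Gs u c S₁ S) {m : Fin ρ → ℤ} {a : K} (h : a / c m ∈ S₁) : hm u a m ∈ S :=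
  (g.mem _).2 ⟨.single m a, lv_single _ _ _, fun n => by
    by_cases e : m = n
    · subst e
      rwa [Finsupp.single_eq_same]
    · rw [Finsupp.single_eq_of_ne' e, zero_div]
      exact zero_mem _⟩

theorem G14.le (g : Gs u c S₁ S) {a : K} (h : a ∈ S₁) : algebraMap K F a ∈ S :=
  hm_deg0 u a ▸ G14.hm_mem g (m := 0) (by rwa [g.c0, div_one])

theorem G14.th_mem (g : Gs u c S₁ S) (m : Fin ρ → ℤ) : hm u (c m) m ∈ S :=
  G14.hm_mem g (by
    rw [div_self (g.ne m)]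
    exact one_mem _)

theorem gds : GDS := fun K F _ _ _ _ _ _ _ _ _ u _ _ c S₁ S p₁ p U P g l hU hP h => by
  refine ⟨fun a => G14.le g, fun a b e => ?_, fun m m0 =>
    ⟨⟨_, G14.th_mem g m⟩, (Hr.cen_iff hU _).2 (.inr (h m m0)), rfl⟩, fun b hb => ?_⟩
  · rw [Hr.cen_iff hU, Hr.cen_iff hP, ← e]
    exact or_congr (map_eq_zero _).symm (l.ord_pos_iff a).symm
  · obtain ⟨ψ, rfl, hψ⟩ := (g.mem b).1 hb
    refine sum_mem fun m _ => show hm u (ψ m) m ∈ _ from ?_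
    have e : hm u (ψ m) m = algebraMap K F (ψ m / c m) * hm u (c m) m := by
      rw [hm, hm, ← mul_assoc, ← map_mul, div_mul_cancel₀ _ (g.ne m)]
    rw [e]
    refine mul_mem (Algebra.subset_adjoin (.inl ⟨_, hψ m, rfl⟩)) ?_
    by_cases m0 : m = 0
    · rw [m0, g.c0, hm_one]
      exact one_mem _
    · exact Algebra.subset_adjoin (.inr ⟨m, m0, rfl⟩)

end Vale.Agent.P283R.Wd
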