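import Vale.Agent.P283R.Wd.St
import Vale.Agent.P283R.Cx.Aff
import Vale.Agent.P283R.Cx.Gav
import Vale.Agent.P283R.Cx.Lar

/-!
# P283R, block WD: the two rings of sections
-/

open Set

noncomputable section

namespace Vale.Agent.P283R.Wd

open Vale.Agent.P287D Cx

namespace G30

variable {K F : Type} [Field K] [Algebra ℂ K] [Field F] [Algebra ℂ F] [Algebra K F] {ρ n n' : ℕ}
  {u : Fin ρ → F} {c : (Fin ρ → ℤ) → K} {S₁ : Subalgebra ℂ K} {S : Subalgebra ℂ F}

omit [Algebra ℂ K] [Algebra ℂ F] in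
theorem lv_eq (hu : AlgebraicIndependent K u) {ψ ψ' : (Fin ρ → ℤ) →₀ K} (h : lv u ψ = lv u ψ') :
    ψ = ψ' := by
  have k := lv_add u (ψ - ψ') ψ'
  rw [sub_add_cancel, h] at k
  exact sub_eq_zero.1 (lv_inj hu (left_eq_add.1 (k.trans (add_comm _ _))))

omit [Algebra ℂ K] [Algebra ℂ F] in
theorem lv_sum {J : Type} (A : Finset J) (f : J → (Fin ρ → ℤ) →₀ K) :
    lv u (∑ j ∈ A, f j) = ∑ j ∈ A, lv u (f j) := by
  classical
  induction A using Finset.induction_on with
  | empty => exact lv_zero u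
  | insert j A h ih => rw [Finset.sum_insert h, Finset.sum_insert h, lv_add, ih]

omit [Algebra ℂ K] [Algebra ℂ F] in
theorem lv_mul (x : K) (ψ : (Fin ρ → ℤ) →₀ K) : lv u (x • ψ) = algebraMap K F x * lv u ψ := by
  rw [lv, Finsupp.sum_smul_index fun e => hm_zero u e, lv, Finsupp.mul_sum]
  exact Finsupp.sum_congr fun e _ => by rw [hm, hm, map_mul, mul_assoc]

/-- the small ring is the trace of the big ring -/
theorem cap (hu : AlgebraicIndependent K u) (g : Gs u c S₁ S) (x : K) :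
    algebraMap K F x ∈ S ↔ x ∈ S₁ := by
  classical
  rw [g.mem]
  refine ⟨fun ⟨ψ, a, b⟩ => ?_, fun h => ⟨.single 0 x, by rw [lv_single, hm_deg0], fun m => ?_⟩⟩
  · have := b 0
    rwa [lv_eq hu (a.trans (by rw [lv_single, hm_deg0]) : _ = lv u (.single 0 x)),
      Finsupp.single_eq_same, g.c0, div_one] at this
  · rw [Finsupp.single_apply]
    split_ifs with z
    · rwa [← z, g.c0, div_one]
    · rw [zero_div]
      exact zero_mem _

theorem fr (hu : AlgebraicIndependent K u) (g : Gs u c S₁ S) (a : Aff n S) (x : K) :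
    ∃ s t : S₁, x = s / t := by
  obtain ⟨b, e, h⟩ := a.fr (algebraMap K F x)
  rcases eq_or_ne x 0 with rfl | x0
  · exact ⟨0, 1, by simp⟩
  have e0 : (e : F) ≠ 0 := fun z => x0 ((map_eq_zero (algebraMap K F)).1 (by rw [h, z, div_zero]))
  obtain ⟨ψ, p1, p2⟩ := (g.mem _).1 b.2
  obtain ⟨χ, q1, q2⟩ := (g.mem _).1 e.2
  have k : x • χ = ψ := lv_eq hu (by rw [lv_mul, p1, q1, h, div_mul_cancel₀ _ e0])
  obtain ⟨m, hm⟩ : ∃ m, χ m ≠ 0 := by
    by_contra z
    exact e0 (by rw [← q1, show χ = 0 from Finsupp.ext fun m => not_not.1 fun w => z ⟨m, w⟩, lv_zero])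
  refine ⟨⟨_, p2 m⟩, ⟨_, q2 m⟩, ?_⟩
  have := g.ne m
  show x = ψ m / c m / (χ m / c m)
  rw [← k, Finsupp.smul_apply, smul_eq_mul]
  field_simp

theorem nor [IsScalarTower ℂ K F] (hu : AlgebraicIndependent K u) (g : Gs u c S₁ S) (a : Aff n S)
    (a₁ : Aff n' S₁) (h : IsIntegrallyClosed S) : IsIntegrallyClosed S₁ := by
  have := IsFractionRing.of_field S F a.fr
  have := IsFractionRing.of_field S₁ K a₁.fr
  refine (isIntegrallyClosed_iff K).2 fun {x} hx => ?_
  let φ : S₁ →+* S := ((algebraMap K F).comp S₁.val.toRingHom).codRestrict S fun b =>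
    (cap hu g b).2 b.2
  obtain ⟨b, hb⟩ := (isIntegrallyClosed_iff F).1 h (hx.map_of_comp_eq φ (algebraMap K F) rfl)
  exact ⟨⟨x, (cap hu g x).1 (hb ▸ b.2)⟩, rfl⟩

end G30

/-- **GSS** -/
theorem gss30 : GSS := by
  intro K₁ K₀ K F _ _ _ _ _ _ _ _ _ _ _ _ _ _ _ _ d k ρ y u t w hy N E ι π T D s a s' a' cx wv k0
  classical
  have t0 := w.x2.ind.ne_zero
  have t1 := w.x4.ind.ne_zero
  have hh : ∀ (φ : K₁) e m, hm (fun i => algebraMap K₀ F (u i)) (hm t φ e) m =
      hm (fun i => algebraMap K F (t i)) (hm u φ m) e := fun φ e m => by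
    simp only [hm, To.mon, map_mul, map_prod, map_zpow₀, w.com]
    ring
  have c0 : ∀ m, π.cc m ≠ 0 := fun m =>
    Finset.prod_ne_zero_iff.2 fun p hp => zpow_ne_zero _ (wv.l0 p hp).1
  have ad : ∀ {F' K' : Type} [Field F'] [Field K'] [Algebra K' F'] {r : ℕ} (v : Fin r → F')
      (e : Fin r → ℤ) {J : Type} (A : Finset J) (f : J → K'),
      hm v (∑ j ∈ A, f j) e = ∑ j ∈ A, hm v (f j) e := fun v e _ A f => by
    simp only [hm, map_sum, Finset.sum_mul]
  have g : Gs (fun i => algebraMap K₀ F (u i)) (π.cK t) (Rg s' a' t)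
      (Rg s a fun i => algebraMap K F (t i)) := by
    refine ⟨?_, fun m => hm_ne t0 (c0 m) _, fun b => ⟨fun hb => ?_, ?_⟩⟩
    · have e1 : π.cc 0 = 1 := Finset.prod_eq_one fun p hp => by rw [k0 p hp, zpow_zero]
      have e2 : π.al 0 = 0 := by
        rw [Pg.al, Finset.sum_eq_zero (s := π.I) fun p hp => by rw [k0 p hp, zero_smul]]
        simp
      rw [Pg.cK, e1, e2, hm_one]
    · obtain ⟨Φ, h1, rfl⟩ := (mem_Rg_iff t1).1 hb
      choose χ h2 h3 using fun e => wv.cmp e _ (h1 e)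
      refine ⟨∑ e ∈ Φ.support, (χ e).mapRange (fun z => hm t z e) (hm_zero t e), ?_, fun m => ?_⟩
      · refine (G30.lv_sum _ _).trans (Finset.sum_congr rfl fun e _ => ?_)
        have e1 : Φ e = ∑ m ∈ (χ e).support, hm u (χ e m) m := (h2 e).symm
        show _ = hm _ (Φ e) e
        rw [e1, ad, lv, Finsupp.sum_mapRange_index fun m => hm_zero _ m]
        exact Finset.sum_congr rfl fun m _ => hh _ _ _
      · rw [Finsupp.finsetSum_apply, Finset.sum_div]
        refine sum_mem fun e _ => ?_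
        have := mem_Rg t0 ((wv.fre e m _).1 (h3 e m))
        rwa [div_eq_mul_inv, sub_eq_add_neg, hm_mul t0, hm_inv t0, ← div_eq_mul_inv] at this
    · rintro ⟨ψ, rfl, h⟩
      refine sum_mem fun m _ => ?_
      obtain ⟨χ, h1, h2⟩ := (mem_Rg_iff t0).1 (h m)
      have e : ψ m = ∑ e ∈ χ.support, hm t (χ e * π.cc m) (e + π.al m) := by
        simp only [hm_mul t0]
        rw [← Finset.sum_mul]
        exact (div_eq_iff (hm_ne t0 (c0 m) _)).1 h2.symm
      show hm _ (ψ m) m ∈ _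
      rw [e, ad]
      refine sum_mem fun e _ => ?_
      rw [hh]
      refine mem_Rg t1 ((wv.fre _ m _).2 ?_)
      rw [mul_div_cancel_right₀ _ (c0 m), add_sub_cancel_right]
      exact h1 e
  have hz := zt_frm w.x1 hy
  have a0 := aff K₀ F (d + ρ) k _ _ w.x4 hz N T D s a cx
  have a1 : Aff (d + k) (Rg s' a' t) := ⟨w.x2.ff', Subalgebra.fg_def.2 ⟨_, finite_range _, rfl⟩,
    G30.fr w.x3.ind g a0⟩
  exact ⟨g, a1, G30.nor w.x3.ind g a0 a1 (nor_of gav K₀ F (d + ρ) k _ _ w.x4 hz N T D s a cx),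
    Nat.add_right_comm d ρ k ▸ a0⟩

end Vale.Agent.P283R.Wd
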