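import Vale.Agent.P283R.Wd.St
import Vale.Agent.P283R.Cx.Bas
import Vale.Agent.P283R.To.Mop

/-!
# P283R, block WD: the property of Goldman and Tucker for the small ring
-/

open Set

noncomputable section

namespace Vale.Agent.P283R.Wd

open Vale.Agent.P287D Vale.Agent.P283M Vale.Agent.P297Z Cx

namespace G85

variable {K F : Type} [Field K] [Algebra ℂ K] [Field F] [Algebra ℂ F] [Algebra K F]
  {d k N : ℕ} {t : Fin k → F} {s : Fin N → K} {a : Fin N → Fin k → ℤ} {U : Pl F}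

omit [Algebra ℂ K] in
theorem ord_mo (ht : ∀ i, t i ≠ 0) (s0 : ∀ j, s j ≠ 0) (c : Fin N → ℕ) :
    U.ord (hm t (∏ j, s j ^ c j) (dg a c)) = ∑ j, (c j : ℤ) * U.ord (hm t (s j) (a j)) := by
  rw [hm_prod ht, U.ord_prod _ fun j _ => pow_ne_zero _ (hm_ne ht (s0 j) _)]
  simp only [Pl.ord_pow]

omit [Algebra ℂ K] in
theorem dg_sum {ι : Type} (T : Finset ι) (c : ι → Fin N → ℕ) :
    dg a (∑ i ∈ T, c i) = ∑ i ∈ T, dg a (c i) := by
  classical
  induction T using Finset.induction_on with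
  | empty => simp [dg_zero]
  | insert i T h ih => rw [Finset.sum_insert h, Finset.sum_insert h, dg_add, ih]

omit [Algebra ℂ K] in
theorem mem1 {x : F} : x ∈ U.sub (-1) ↔ x = 0 ∨ 0 < U.ord x :=
  or_congr Iff.rfl ⟨fun h => by
    have : (0 : ℤ) ≤ U.ord x + -1 := by exact_mod_cast h
    omega, fun h => by exact_mod_cast (by omega : (0 : ℤ) ≤ U.ord x + -1)⟩

variable [IsScalarTower ℂ K F]

/-- a monomial of units -/
theorem pk (ht : ∀ i, t i ≠ 0) (s0 : ∀ j, s j ≠ 0) (nn : ∀ j, 0 ≤ U.ord (hm t (s j) (a j)))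
    {e : Fin k → ℤ} {φ : K} (h : φ ∈ Sp s a e) (n : hm t φ e ∉ U.sub (-1)) :
    ∃ c, dg a c = e ∧ ∀ j, 0 < c j → U.ord (hm t (s j) (a j)) = 0 := by
  by_contra z
  push Not at z
  refine n ?_
  clear n
  induction h using Submodule.span_induction with
  | mem x hx =>
    obtain ⟨c, hc, rfl⟩ := hx
    obtain ⟨j, j0, j1⟩ := z c hc
    refine mem1.2 (.inr ?_)
    beta_reduce
    rw [← show dg a c = e from hc, ord_mo ht s0]
    exact Finset.sum_pos' (fun i _ => mul_nonneg (Nat.cast_nonneg _) (nn i))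
      ⟨j, Finset.mem_univ _, mul_pos (Nat.cast_pos.2 j0) ((nn j).lt_of_ne' j1)⟩
  | zero => rw [hm_zero]; exact zero_mem _
  | add x y _ _ hx hy => rw [hm_add]; exact add_mem hx hy
  | smul r x _ hx => rw [hm_smul]; exact Submodule.smul_mem _ _ hx

variable {y : Fin d → K} {Q : Pl K} {u₀ : Fin N → ℕ}

/-- the inverse of a unit -/
theorem iv (ht : ∀ i, t i ≠ 0) (s0 : ∀ j, s j ≠ 0) (L : Lf y t s a Q U u₀)
    {e : Fin k → ℤ} {φ : K} (h : φ ∈ Sp s a e) (n : hm t φ e ∉ U.sub (-1)) :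
    ∃ φ' ∈ Sp s a (-e), φ' ≠ 0 ∧ U.ord (hm t φ' (-e)) = 0 := by
  obtain ⟨c, rfl, hc⟩ := pk ht s0 (fun j => (L.gt j).1) h n
  let c' : Fin N → ℕ := fun j => (∑ i, c i) * u₀ j - c j
  have e1 : c' + c = ∑ _i : Fin (∑ i, c i), u₀ := funext fun j => by
    have : c j ≤ (∑ i, c i) * u₀ j := by
      rcases Nat.eq_zero_or_pos (c j) with z | z
      · omega
      · exact (Finset.single_le_sum (fun _ _ => Nat.zero_le _) (Finset.mem_univ j)).trans
          (Nat.le_mul_of_pos_right _ ((L.gt j).2.2 (hc j z)))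
    simp only [c', Pi.add_apply, Finset.sum_apply, Finset.sum_const, Finset.card_univ,
      Fintype.card_fin, smul_eq_mul]
    omega
  have e2 : dg a c' = -dg a c := by
    rw [eq_neg_iff_add_eq_zero, ← dg_add, e1, dg_sum]
    simp only [L.dg, Finset.sum_const_zero]
  refine ⟨_, e2 ▸ mon_mem s a c', Finset.prod_ne_zero_iff.2 fun j _ => pow_ne_zero _ (s0 j), ?_⟩
  rw [← e2, ord_mo ht s0]
  refine Finset.sum_eq_zero fun j _ => ?_
  rcases Nat.eq_zero_or_pos (u₀ j) with z | z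
  · simp [c', z]
  · rw [(L.gt j).2.1 z, mul_zero]

theorem nn (ht : ∀ i, t i ≠ 0) (L : Lf y t s a Q U u₀) {e : Fin k → ℤ} {φ : K}
    (h : φ ∈ Sp s a e) (s0 : ∀ j, s j ≠ 0) : hm t φ e ∈ U.ring := by
  induction h using Submodule.span_induction with
  | mem x hx =>
    obtain ⟨c, rfl, rfl⟩ := hx
    beta_reduce
    rw [hm_prod ht]
    exact prod_mem fun j _ => pow_mem ((Pl.ord_nonneg_iff _ (hm_ne ht (s0 j) _)).1 (L.gt j).1) _
  | zero => rw [hm_zero]; exact zero_mem _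
  | add x y _ _ hx hy => rw [hm_add]; exact add_mem hx hy
  | smul r x _ hx => rw [hm_smul]; exact To.Mop.smul_mem _ _ hx

theorem pos (ht : ∀ i, t i ≠ 0) (s0 : ∀ j, s j ≠ 0) (L : Lf y t s a Q U u₀)
    {e : Fin k → ℤ} {φ : K} (h : φ ∈ Sp s a e) (φ0 : φ ≠ 0) (p : Pos s a Q φ e) :
    0 < U.ord (hm t φ e) := by
  by_contra n
  obtain ⟨φ', h', z, o⟩ := iv ht s0 L h fun c => n ((mem1.1 c).resolve_left (hm_ne ht φ0 _))
  have := (L.lies.ord_pos_iff _).2 (p φ' h' z)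
  rw [← hm_deg0 t, ← add_neg_cancel e, hm_mul ht, Pl.ord_mul _ (hm_ne ht φ0 _) (hm_ne ht z _),
    o, add_zero] at this
  exact n this

theorem sp_map {s : Fin N → K} {e : Fin k → ℤ} {φ : K} (h : φ ∈ Sp s a e) :
    algebraMap K F φ ∈ Sp (fun j => algebraMap K F (s j)) a e := by
  induction h using Submodule.span_induction with
  | mem x hx =>
    obtain ⟨c, rfl, rfl⟩ := hx
    simpa only [map_prod, map_pow] using mon_mem (fun j => algebraMap K F (s j)) a c
  | zero => rw [map_zero]; exact zero_mem _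
  | add x y _ _ hx hy => rw [map_add]; exact add_mem hx hy
  | smul r x _ hx =>
    rw [Algebra.smul_def, map_mul, ← IsScalarTower.algebraMap_apply, ← Algebra.smul_def]
    exact Submodule.smul_mem _ _ hx

end G85

open G85

/-- **GTS** -/
theorem gts : GTS := by
  classical
  intro K₁ K₀ K F _ _ _ _ _ _ _ _ _ _ _ _ _ _ _ _ d k ρ y u t x _ N E ι π s a s' a' Q U u₀ s0 wv
    k0 ps L
  set t' := fun i => algebraMap K F (t i)
  have ht : ∀ i, t' i ≠ 0 := x.x4.ind.ne_zero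
  have hu : ∀ i, u i ≠ 0 := x.x1.ind.ne_zero
  have c0 : π.cc 0 = 1 := Finset.prod_eq_one fun p h => by rw [k0 p h, zpow_zero]
  have a0 : π.al 0 = 0 := by
    rw [Pg.al, Finset.sum_eq_zero fun i _ => by rw [Pi.zero_apply, zero_smul],
      Finset.sum_eq_zero fun p h => by rw [k0 p h, zero_smul], add_zero]
  have cn : ∀ m, π.cc m ≠ 0 := fun m =>
    Finset.prod_ne_zero_iff.2 fun p h => zpow_ne_zero _ (wv.l0 p h).1
  have up : ∀ e z, algebraMap K₁ K₀ z ∈ Sp s a e ↔ z ∈ Sp s' a' e := fun e z => by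
    have := wv.fre e 0 z
    rwa [hm_deg0, c0, a0, div_one, sub_zero] at this
  have s1 : ∀ j, algebraMap K₁ K₀ (s' j) ≠ 0 := fun j => (map_ne_zero _).2 (wv.ne j)
  have gm : ∀ j, algebraMap K₁ K₀ (s' j) ∈ Sp s a (a' j) := fun j => (up _ _).2 (by
    have := mon_mem s' a' (Pi.single j 1)
    rwa [dg_single, Finset.prod_eq_single j (fun l _ h => by simp [h]) (by simp),
      Pi.single_eq_same, pow_one] at this)
  have n1 : ∀ j, 0 ≤ U.ord (hm t' (algebraMap K₁ K₀ (s' j)) (a' j)) := fun j =>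
    Pl.ord_nonneg_of_mem _ (nn ht L (gm j) s0)
  have key : ∀ j, ∃ c, dg a' c = 0 ∧
      (∀ l, 0 < c l → U.ord (hm t' (algebraMap K₁ K₀ (s' l)) (a' l)) = 0) ∧
      (U.ord (hm t' (algebraMap K₁ K₀ (s' j)) (a' j)) = 0 → 0 < c j) := fun j => by
    by_cases z : U.ord (hm t' (algebraMap K₁ K₀ (s' j)) (a' j)) = 0
    swap
    · exact ⟨0, dg_zero _, fun l h => (lt_irrefl _ h).elim, fun h => (z h).elim⟩
    obtain ⟨φ, h, φ0, o⟩ := iv ht s0 L (gm j) fun c =>
      ((mem1.1 c).resolve_left (hm_ne ht (s1 j) _)).ne' z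
    obtain ⟨ψ, rfl, hψ⟩ := wv.cmp _ _ h
    have n0 : hm t' (algebraMap K₁ K₀ (ψ 0)) (-a' j) ∉ U.sub (-1) := fun c => by
      have : hm t' (lv u ψ) (-a' j) ∈ U.sub (-1) := by
        rw [lv, Finsupp.sum, hm, map_sum, Finset.sum_mul]
        refine Submodule.sum_mem _ fun m hm' => ?_
        change hm t' (hm u (ψ m) m) (-a' j) ∈ _
        by_cases m0 : m = 0
        · rwa [m0, hm_deg0]
        have i1 : hm u (π.cc m) m ∈ Sp s a (π.al m) := (wv.fre _ _ _).2 (by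
          rw [div_self (cn m), sub_self]
          simpa [dg_zero] using mon_mem s' a' 0)
        have i2 := pos ht s0 L i1 (hm_ne hu (cn m) _) (ps.pt m m0)
        have i3 := (up _ _).2 ((wv.fre _ _ _).1 (hψ m))
        have z0 : algebraMap K₁ K₀ (ψ m / π.cc m) ≠ 0 :=
          (map_ne_zero _).2 (div_ne_zero (Finsupp.mem_support_iff.1 hm') (cn m))
        have e : hm u (ψ m) m = algebraMap K₁ K₀ (ψ m / π.cc m) * hm u (π.cc m) m := by
          rw [← hm_deg0 u, ← hm_mul hu, div_mul_cancel₀ _ (cn m), zero_add]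
        refine mem1.2 (.inr ?_)
        rw [e, ← sub_add_cancel (-a' j) (π.al m), hm_mul ht,
          Pl.ord_mul _ (hm_ne ht z0 _) (hm_ne ht (hm_ne hu (cn m) _) _)]
        linarith [Pl.ord_nonneg_of_mem _ (nn ht L i3 s0)]
      exact ((mem1.1 this).resolve_left (hm_ne ht φ0 _)).ne' o
    obtain ⟨c, c1, c2⟩ := pk ht s1 n1 (sp_map ((up _ _).1 (hm_deg0 u (ψ 0) ▸ hψ 0))) n0
    refine ⟨c + Pi.single j 1, by rw [dg_add, c1, dg_single, neg_add_cancel], fun l h => ?_,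
      fun _ => by simp⟩
    by_cases e : l = j
    · rwa [e]
    · exact c2 l (by simpa [e] using h)
  choose c c1 c2 c3 using key
  refine ⟨∑ j, c j, L.lies, L.lt, by rw [dg_sum]; exact Finset.sum_eq_zero fun j _ => c1 j,
    fun j => ⟨n1 j, fun h => ?_, fun h => ?_⟩, L.gm⟩
  · rw [Finset.sum_apply] at h
    obtain ⟨i, -, hi⟩ := Finset.exists_ne_zero_of_sum_ne_zero h.ne'
    exact c2 i j (Nat.pos_of_ne_zero hi)
  · rw [Finset.sum_apply]
    exact (c3 j h).trans_le (Finset.single_le_sum (f := fun i => c i j) (fun _ _ => Nat.zero_le _)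
      (Finset.mem_univ j))

end Vale.Agent.P283R.Wd
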