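import Vale.Agent.P283R.Wd.S42
import Vale.Agent.P283R.Cx.Gav
import Vale.Agent.P283R.Cx.Lar
import Vale.Agent.P283R.Cx.Bas
import Vale.Agent.P283R.Tp.Hrt

/-!
# P283R, block WD: effectivity descends along `K ⊆ K(u)`
-/

open Set
open Vale.Agent.P285N.Brep (jac Fr)

noncomputable section

namespace Vale.Agent.P283R.Wd

namespace K64

open Vale.Agent.P297Z Vale.Agent.P287D Vale.Agent.P287D.Cb Cx

/-- a frame inside the ring which is adapted to a prime divisor -/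
theorem pdfr {F : Type} [Field F] [Algebra ℂ F] {n : ℕ} {S : Subalgebra ℂ F} {q : Ideal S}
    {R : Pl F} (hF : FF F (n + 1)) (c : Cen S q R) (lo : ∀ a ∈ R.ring, a ∈ Lo S q) :
    ∃ t : Fin (n + 1) → F, (∀ l, t l ∈ S) ∧ AlgebraicIndependent ℂ t ∧ kap t R = 0 := by
  have al : Algebra.IsAlgebraic (Algebra.adjoin ℂ (range fun a : S => R.rd a)) R.κ := ⟨fun x => by
    obtain ⟨f, hf, rfl⟩ := rd_surj x
    obtain ⟨s, t, ht, rfl⟩ := lo f hf
    have t0 : R.rd t ≠ 0 := fun e => ht ((c t).2.2 e)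
    have e : R.rd (s / t : F) = R.rd s / R.rd t := by
      rw [eq_div_iff t0, ← rd_mul hf (c t).1, div_mul_cancel₀ _ (Hr.ne_of_notMem ht)]
    have m := fun s : S => IntermediateField.subset_adjoin ℂ (range fun a : S => R.rd a) ⟨s, rfl⟩
    rw [e]
    exact IntermediateField.isAlgebraic_adjoin_iff.1
      (isAlgebraic_algebraMap (⟨_, div_mem (m s) (m t)⟩ : IntermediateField.adjoin ℂ _))⟩
  obtain ⟨b, bs, hb⟩ := exists_isTranscendenceBasis_subset (R := ℂ) (range fun a : S => R.rd a)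
  have k := hb.cardinalMk_eq_trdeg
  rw [trdeg_κ hF, ← Cardinal.mk_fin, Cardinal.eq] at k
  obtain ⟨e⟩ := k
  choose u hu using fun i => bs (e.symm i).2
  obtain ⟨s, t, ht, e1⟩ := lo _ (t_mem R)
  have t0 := Hr.ne_of_notMem ht
  have o : R.ord (s : F) = 1 := by
    rw [← (div_mul_cancel₀ (s : F) t0), ← e1, Pl.ord_mul _ R.t_ne t0, R.ord_t, Hr.cen_ord c ht,
      add_zero]
  have a : Ada R (s : F) fun i => (u i : F) :=
    ⟨o, fun i => (c _).1, funext hu ▸ hb.1.comp _ e.symm.injective⟩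
  obtain ⟨D, hD⟩ := a.ad hF
  exact ⟨_, fun l => Fin.cases s.2 (fun i => (u i).2) l, Frm.ind ⟨D, hD.fr⟩, a.kap hF⟩

/-- effectivity from the regularity of the coefficients -/
theorem bd_of {K : Type} [Field K] [Algebra ℂ K] {d q : ℕ} {S : Subalgebra ℂ K} {p : Ideal S}
    {y : Fin d → K} {D : Fin d → Derivation ℂ K K} (hD : Fr y D) (hq : 0 < q) {h : K} (h0 : h ≠ 0)
    (H : ∀ t : Fin d → K, (∀ l, t l ∈ S) → AlgebraicIndependent ℂ t → jac D t ^ q * h ∈ Lo S p)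
    (R : Pl K) (hR : PDat S p R) : ld y q h R ≤ 1 := by
  rcases d with _ | d
  · exact (no_pl (ff_of hD) R).elim
  obtain ⟨r, le, c, lo⟩ := hR
  obtain ⟨t, t1, t2, t3⟩ := pdfr (ff_of hD) c lo
  have j0 := (jac_ne_iff hD t).2 t2
  obtain ⟨a, b, hb, e⟩ := H t t1 t2
  have k := Pl.ord_nonneg_of_mem R.toPlace (Hr.cen_lo c ⟨a, b, fun m => hb (le m), e⟩)
  rw [Pl.ord_mul _ (pow_ne_zero _ j0) h0, Pl.ord_pow] at k
  rw [kap_chg hD j0, Pi.add_apply, dv_apply] at t3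
  have q0 : (0 : ℝ) < q := Nat.cast_pos.2 hq
  have k' : (0 : ℝ) ≤ q * R.ord (jac D t) + R.ord h := by exact_mod_cast k
  have : -(R.ord (jac D t) : ℝ) ≤ R.ord h / q := by rw [le_div_iff₀ q0]; linarith
  rw [ld]
  linarith

variable {K F : Type} [Field K] [Algebra ℂ K] [Field F] [Algebra ℂ F] [Algebra K F]
  [IsScalarTower ℂ K F] {d k N q : ℕ} {y : Fin d → K} {D : Fin d → Derivation ℂ K K}
  {u : Fin k → F}

/-- change of the frame of `K` -/
theorem lt_chg (x : Ext K d u) (hD : Fr y D) {t : Fin d → K} (j0 : jac D t ≠ 0) (U : Pl F) :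
    lt t u U = lt y u U + U.ord (algebraMap K F (jac D t)) := by
  obtain ⟨E, hE⟩ := zt_frm x ⟨D, hD⟩
  have ex : ∀ i (φ : K), E i (algebraMap K F φ) =
      ∑ j, E i (algebraMap K F (y j)) * algebraMap K F (D j φ) := fun i φ =>
    expand ((dr_of (E i)).comp (algebraMap K F)) (fun c => by
      rw [← IsScalarTower.algebraMap_apply]; exact (E i).map_algebraMap c) hD φ
  have e1 : ∀ i j, E i (algebraMap K F (y j)) = if i = Fin.castAdd k j then 1 else 0 :=
    fun i j => by simpa [zt] using hE.dual i (Fin.castAdd k j)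
  have e2 : ∀ i j, E i (u j) = if i = Fin.natAdd d j then 1 else 0 :=
    fun i j => by simpa [zt] using hE.dual i (Fin.natAdd d j)
  have ne : ∀ (i : Fin d) (j : Fin k), Fin.castAdd k i ≠ Fin.natAdd d j := fun i j e => by
    have := congrArg Fin.val e
    simp only [Fin.val_castAdd, Fin.val_natAdd] at this
    omega
  have e : jac E (zt t u) = algebraMap K F (jac D t) := by
    rw [jac, jac, RingHom.map_det, ← Matrix.det_submatrix_equiv_self finSumFinEquiv,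
      ← mul_one (Matrix.det (RingHom.mapMatrix _ _)), ← Matrix.det_one (n := Fin k),
      ← Matrix.det_fromBlocks_zero₂₁ _ 0]
    have ex' : ∀ i j, E i (algebraMap K F (t j)) = ∑ l,
        (if i = Fin.castAdd k l then 1 else 0) * algebraMap K F (D l (t j)) := fun i j => by
      rw [ex]
      simp only [e1]
    congr 1
    ext i j
    rcases i with i | i <;> rcases j with j | j <;>
      simp [zt, ex', e2, ne, (ne _ _).symm, Matrix.one_apply]
  rw [lt, lt, kap_chg hE (z := zt t u) (e ▸ (map_ne_zero _).2 j0), Pi.add_apply, dv_apply, e]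
  ring

omit [IsScalarTower ℂ K F] in
/-- a Gauss place with non negative weights has a centre -/
theorem sub {c : (Fin k → ℤ) → K} {S₁ : Subalgebra ℂ K} {p₁ : Ideal S₁} {S : Subalgebra ℂ F}
    {p : Ideal S} (x : Ext K d u) (g : Gd u c S₁ p₁ S p) {P : Pl K} {n : Fin k → ℤ} {U : Pl F}
    (v : Gv y u P n U) (hP : ∀ a ∈ S₁, a ∈ P.ring)
    (hn : ∀ m, m ≠ 0 → c m ≠ 0 → 0 ≤ P.ord (c m) + m ⬝ᵥ n) : ∀ a ∈ S, a ∈ U.ring := fun a ha => by
  refine adj_mem ?_ (g.gen ha)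
  rintro _ (⟨b, hb, rfl⟩ | ⟨m, m0, rfl⟩)
  · by_cases e : b = 0
    · rw [e, map_zero]; exact zero_mem _
    · refine mem_ord ?_
      rw [← hm_deg0 u, v.ord _ _ e, zero_dotProduct, add_zero]
      exact Pl.ord_nonneg_of_mem _ (hP b hb)
  · by_cases e : c m = 0
    · rw [e, hm_zero]; exact zero_mem _
    · exact mem_ord (v.ord _ _ e ▸ hn m m0 e)

end K64

open K64 Cx Vale.Agent.P297Z Vale.Agent.P287D in
/-- **KLD**: the small ring is klt; `r K = div η` -/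
theorem kld {K F : Type} [Field K] [Algebra ℂ K] [Field F] [Algebra ℂ F] [Algebra K F]
    [IsScalarTower ℂ K F] {d k r : ℕ} {y : Fin d → K} {u : Fin k → F} {c : (Fin k → ℤ) → K}
    {S₁ : Subalgebra ℂ K} {p₁ : Ideal S₁} {S : Subalgebra ℂ F} {p : Ideal S} (x : Ext K d u)
    (hy : Frm y) (g : Gd u c S₁ p₁ S p) (hr : 0 < r) {η : K} (η0 : η ≠ 0)
    (bd : ∀ R, PDat S₁ p₁ R → ld y r η R ≤ 1)
    (pos : ∀ U : Pl F, (∀ a ∈ S, a ∈ U.ring) → (∃ P, Lies (algebraMap K F) U P) →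
      0 < lt y u U - (U.ord (algebraMap K F η) : ℝ) / r)
    (lift : ∀ P : Pl K, (∀ a ∈ S₁, a ∈ P.ring) →
      ∃ n : Fin k → ℤ, ∀ m, m ≠ 0 → c m ≠ 0 → 0 ≤ P.ord (c m) + m ⬝ᵥ n) :
    Bc.KL S₁ p₁ y := by
  refine ⟨r, η, hr, η0, bd, fun q _ P hP => ?_⟩
  have h1 : ∀ a ∈ S₁, a ∈ P.ring := fun a ha => (hP ⟨a, ha⟩).1
  obtain ⟨n, hn⟩ := lift P h1
  obtain ⟨U, v⟩ := gav K F d k y u x hy P n
  have o : ∀ φ : K, φ ≠ 0 → U.ord (algebraMap K F φ) = P.ord φ := fun φ e => by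
    rw [← hm_deg0 u, v.ord _ _ e, zero_dotProduct, add_zero]
  have := pos U (sub x g v h1 hn) ⟨P, fun a => by
    by_cases e : a = 0
    · simp [e]
    · rw [← Pl.ord_nonneg_iff _ e, ← Pl.ord_nonneg_iff _ ((map_ne_zero _).2 e), o a e]⟩
  rwa [v.lt, o η η0] at this

end Vale.Agent.P283R.Wd
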