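import Vale.Agent.P283R.Wd.St
import Vale.Agent.P283R.Wd.Kld64

/-!
# P283R, block WD: the row KLD
-/

open Set

noncomputable section

namespace Vale.Agent.P283R.Wd

open Vale.Agent.P297Z Vale.Agent.P287D Vale.Agent.P287D.Cb Cx

/-- **KLD** -/
theorem kld64 : KLD := by
  intro K F _ _ _ _ _ _ d k y u x hy q c g S₁ S _ g0 gs lift pos P hP
  obtain ⟨n, hn⟩ := lift P hP
  obtain ⟨U, v⟩ := gav K F d k y u x hy P n
  have := pos U fun b hb => by
    obtain ⟨ψ, rfl, h⟩ := (gs.mem b).1 hb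
    refine sum_mem fun m hm' => mem_ord ?_
    have e : ψ m ≠ 0 := Finsupp.mem_support_iff.1 hm'
    have e2 : ψ m = ψ m / c m * c m := (div_mul_cancel₀ _ (gs.ne m)).symm
    have o := Pl.ord_nonneg_of_mem P.toPlace (hP _ (h m))
    have := hn m
    rw [v.ord _ _ e, e2, Pl.ord_mul P.toPlace (div_ne_zero e (gs.ne m)) (gs.ne m)]
    omega
  rwa [lw, Cx.lv_single, v.ord _ _ g0, zero_dotProduct, add_zero, v.lt] at this

end Vale.Agent.P283R.Wd
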