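import Vale.Agent.P283R.Wd.St
import Vale.Agent.P283R.Cx.Lif
import Vale.Agent.P283R.Wd.Gq95

/-!
# P283R, block WD: the lift of Goldman and Tucker is a Gauss place
-/

open Set

noncomputable section

namespace Vale.Agent.P283R.Wd

open Vale.Agent.P287D Vale.Agent.P283M Cx Cy
open Vale.Agent.P283R.To (mon)

/-- **LIFG** -/
theorem lifg : LIFG := by
  intro K F _ _ _ _ _ _ d k y t x hy N s a Q s0 h
  classical
  let L : AddSubgroup (Fin N → ℤ) :=
    { carrier := {u | ∀ i, ∑ j, u j * a j i = 0}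
      add_mem' := fun {u v} hu hv i => by
        simp only [Pi.add_apply, add_mul, Finset.sum_add_distrib, hu i, hv i, add_zero]
      zero_mem' := fun i => by simp
      neg_mem' := fun {u} hu i => by
        simp only [Pi.neg_apply, neg_mul, Finset.sum_neg_distrib, hu i, neg_zero] }
  let φ : L →+ ℤ :=
    { toFun := fun u => ∑ j, u.1 j * Q.ord (s j)
      map_zero' := by simp
      map_add' := fun u v => by
        simp only [AddSubgroup.coe_add, Pi.add_apply, add_mul, Finset.sum_add_distrib] }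
  obtain ⟨D, w, u₀, hD, hw, hu, hz⟩ := To.gt L φ fun u hu => by
    have e : ∀ j, ((u.1 j).toNat : ℤ) = u.1 j := fun j => Int.toNat_of_nonneg (hu j)
    have := h (fun j => (u.1 j).toNat) (funext fun i => by
      simp only [dg, e]
      exact u.2 i)
    have k := To.ord_mon Q s0 fun j => ((u.1 j).toNat : ℤ)
    simp only [mon, zpow_natCast] at k
    rw [k] at this
    simp only [e] at this
    exact this
  obtain ⟨ξ, hξ⟩ := Lif.fac a (fun j => w j - D * Q.ord (s j)) fun u hu => by
    have := hw ⟨u, hu⟩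
    change ∑ j, u j * w j = D * ∑ j, u j * Q.ord (s j) at this
    simp only [mul_sub, Finset.sum_sub_distrib, this, Finset.mul_sum]
    exact sub_eq_zero.2 (Finset.sum_congr rfl fun _ _ => by ring)
  let b : ℕ := ∏ i, (ξ i).den
  have b0 : 0 < b := Finset.prod_pos fun i _ => (ξ i).den_pos
  have : ∀ i, ∃ c : ℤ, (c : ℚ) = b * ξ i := fun i => by
    obtain ⟨c, hc⟩ : (ξ i).den ∣ b := Finset.dvd_prod_of_mem _ (Finset.mem_univ i)
    refine ⟨c * (ξ i).num, ?_⟩
    rw [hc]
    push_cast
    rw [← Rat.mul_den_eq_num]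
    ring
  choose c hc using this
  obtain ⟨U, g⟩ := gq x hy Q (Nat.mul_pos b0 hD) c
  have D0 : (0 : ℚ) < D := by exact_mod_cast hD
  have B0 : (0 : ℚ) < b := by exact_mod_cast b0
  have e0 : (0 : ℚ) < U.ord (algebraMap K F Q.t) := by exact_mod_cast g.e_pos
  refine ⟨U, u₀, g.lies, g.lt, funext fun i => hu i, fun j => ?_, g.min⟩
  have e : (U.ord (hm t (s j) (a j)) : ℚ) = U.ord (algebraMap K F Q.t) / D * w j := by
    have h1 := hξ j
    have h2 := congrArg (Int.cast (R := ℚ)) (g.ord _ (a j) (s0 j))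
    simp only [dotProduct] at h2
    push_cast at h1 h2
    simp only [hc] at h2
    have k : ∑ i, (a j i : ℚ) * (b * ξ i) = b * ∑ i, a j i * ξ i := by
      rw [Finset.mul_sum]
      exact Finset.sum_congr rfl fun _ _ => by ring
    rw [k, ← h1] at h2
    rw [div_mul_eq_mul_div, eq_div_iff D0.ne']
    refine mul_left_cancel₀ B0.ne' ?_
    linear_combination h2
  have p : (0 : ℚ) < U.ord (algebraMap K F Q.t) / D := div_pos e0 D0
  refine ⟨?_, (hz j).trans ?_⟩
  · have : (0 : ℚ) ≤ U.ord (hm t (s j) (a j)) := by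
      rw [e]
      positivity
    exact_mod_cast this
  · rw [← Int.cast_inj (α := ℚ), e]
    simp [p.ne']

end Vale.Agent.P283R.Wd
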