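import Vale.Agent.P283R.Wd.St

/-!
# P283R, block WD: from the finite groups to the monomial
-/

open Set

noncomputable section

namespace Vale.Agent.P283R.Wd

open Vale.Agent.P287D Vale.Agent.P283M Cx Cy

/-- **MNWR** -/
theorem mnwr : MNWR := by
  intro tow lifg gts cor d k ρ E q ε hρ hq hε
  obtain ⟨W, m, -, m2, H⟩ := cor d k ρ E q ε hρ hq hε
  refine ⟨W, m, m2, ?_⟩
  intro K₁ K₀ _ _ _ _ _ _ N c ι y u T D s a f η γ δ b π s' a' Q x X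
  obtain ⟨K, F, _, _, _, _, _, _, _, _, _, _, t, w⟩ := tow K₁ K₀ d k ρ u x
  obtain ⟨U, u₀, L⟩ := lifg K₀ F (d + ρ) k (zt y u) _ w.x4 X.dx.fr N s a Q X.dx.cox.ne X.ps.ov
  obtain ⟨u₁, L'⟩ := gts K₁ K₀ K F d k ρ y u t w X.fr N E ι π s a s' a' Q U u₀ X.dx.cox.ne X.wv
    X.wid.k0 X.ps L
  obtain ⟨c', c1, c2⟩ := Cx.fin _ k a' _ u₁ (-((m : ℤ) • δ)) _ L'.dg L'.gt fun r r0 =>
    (H K₁ K₀ K F N c ι y u t T D s a f η γ δ b π s' a' Q U u₀ r w X L r0).imp fun _ p =>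
      ⟨fun i => by simpa using p.1 i, p.2⟩
  exact ⟨c', c1, Tz.ld_pos w.x4.ind.ne_zero (fun j => (map_ne_zero _).2 (X.wv.ne j)) L.lies L.lt hq
    (by omega) X.dx.h0 c1 c2⟩

end Vale.Agent.P283R.Wd
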