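import Vale.Agent.P283R.Wd.St
import Vale.Agent.P283R.Cx.Cor
import Vale.Agent.P283R.Cx.Grp

/-!
# P283R, block WD: the norm, the trace, one monomial
-/

open Set

noncomputable section

namespace Vale.Agent.P283R.Wd

open Vale.Agent.P287D Vale.Agent.P297Z Cx

namespace N22

variable {K F : Type} [Field K] [Algebra ℂ K] [Field F] [Algebra ℂ F] [Algebra K F]
  {k r : ℕ} {t : Fin k → F} {σ : F ≃ₐ[ℂ] F} {P : Pl F}

theorem eg (hσ : σ ∈ Gr K t r) (r0 : 0 < r) (φ : K) (e : Fin k → ℤ) :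
    ∃ c : ℂ, c ≠ 0 ∧ σ (hm t φ e) = c • hm t φ e := by
  choose c c1 c2 using hσ.2
  refine ⟨∏ i, c i ^ e i, Finset.prod_ne_zero_iff.2 fun i _ => zpow_ne_zero _ fun z => ?_,
    Grp.map_hm hσ.1 c2 φ e⟩
  have := c1 i
  rw [z, zero_pow r0.ne'] at this
  exact zero_ne_one this

theorem ord_le (hσ : σ ∈ Gr K t r) (r0 : 0 < r) (gm : Gm (K := K) t P) (ψ : (Fin k → ℤ) →₀ K) :
    P.ord (lv t ψ) ≤ P.ord (σ (lv t ψ)) := by
  by_cases n0 : lv t ψ = 0
  · simp [n0]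
  have : σ (lv t ψ) ∈ P.sub (-(P.ord (lv t ψ) : ℝ)) := by
    rw [show σ (lv t ψ) = ∑ e ∈ ψ.support, σ (hm t (ψ e) e) from map_sum σ _ _]
    refine Submodule.sum_mem _ fun e he => ?_
    obtain ⟨c, -, hc⟩ := eg hσ r0 (ψ e) e
    rw [hc]
    refine Submodule.smul_mem _ _ (.inr ?_)
    have : (P.ord (lv t ψ) : ℝ) ≤ P.ord (hm t (ψ e) e) := by exact_mod_cast gm ψ e he
    linarith
  have := this.resolve_left ((map_ne_zero σ).2 n0)
  have : (P.ord (lv t ψ) : ℝ) ≤ P.ord (σ (lv t ψ)) := by linarith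
  exact_mod_cast this

end N22

open N22 in
theorem ntw22 : NTW := by
  classical
  intro K₁ K _ _ _ _ _ _ d k y t ex hy E J r n s' a' A B p P x h δ r0 hA s0 _ hP gm idx lo x0 h0 fx
  have ht := ex.ind.ne_zero
  obtain ⟨G, g0, g1, g2, -, g4⟩ := grp K₁ K d k y t ex hy r r0
  obtain rfl : A = G := SetLike.coe_injective (hA.trans g0.symm)
  have st := g2 _ s' a'
  have gr : ∀ σ ∈ A, σ ∈ Gr K₁ t r := fun σ hσ => hA ▸ hσ
  have o1 : ∀ σ ∈ A, ∀ f ∈ Rg s' a' t, P.ord f ≤ P.ord (σ f) := fun σ hσ f hf => by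
    obtain ⟨ψ, -, rfl⟩ := (mem_Rg_iff ht).1 hf
    exact ord_le (gr σ hσ) r0 gm ψ
  have o : ∀ σ ∈ A, ∀ f ∈ Rg s' a' t, P.ord (σ f) = P.ord f := fun σ hσ f hf =>
    le_antisymm ((o1 _ (A.inv_mem hσ) _ (st σ hσ f hf)).trans_eq
      (congrArg _ (σ.symm_apply_apply f))) (o1 σ hσ f hf)
  obtain ⟨s, u, hu, rfl⟩ := lo
  have u0 : (u : K) ≠ 0 := fun e => x0 (by rw [e, div_zero])
  have z0 : (s : K) ≠ 0 := fun e => x0 (by rw [e, zero_div])
  have nz : ∀ b : Rg s' a' t, (b : K) ≠ 0 → (b ∉ p ↔ P.ord (b : K) = 0) := fun b b0 => by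
    have := (Pl.ord_nonneg_iff P.toPlace b0).2 (hP b).1
    rw [Nt.cen_mx hP, Cb.mx_iff, not_or]
    exact ⟨fun a => by omega, fun a => ⟨b0, by omega⟩⟩
  have ou := (nz u u0).1 hu
  have H0 : hm t h δ ≠ 0 := hm_ne ht h0 δ
  have : Finite (Nt.inr st p) := Finite.of_injective
    (fun σ : Nt.inr st p => (⟨σ.1, σ.2.1⟩ : A)) fun a b e =>
      Subtype.ext (congrArg (fun z : A => z.1) e)
  set C := B.subgroupOf (Nt.inr st p) with hC
  have : Fintype (Nt.inr st p ⧸ C) := Fintype.ofFinite _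
  have : Fintype A := Fintype.ofFinite _
  have b0 : C.index ≠ 0 := Subgroup.index_ne_zero_of_finite
  obtain ⟨l, hl⟩ : C.index ∣ J.factorial :=
    Nat.dvd_factorial (Nat.pos_of_ne_zero b0) (Nt.index_le st idx)
  have cd : (Finset.univ : Finset (Nt.inr st p ⧸ C)).card = C.index := by
    rw [Subgroup.index_eq_card, Nat.card_eq_fintype_card, Finset.card_univ]
  choose c c0 hc using fun σ : A => eg (gr σ σ.2) r0 h δ
  let τ : Nt.inr st p ⧸ C → A := fun b => ⟨b.out.1, b.out.2.1⟩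
  have pm : ∀ b : Rg s' a' t, (∏ j, (τ j).1 b) ^ l ∈ Rg s' a' t := fun b =>
    pow_mem (prod_mem fun j _ => st _ (τ j).2 _ b.2) l
  have p0 : ∀ b : K, b ≠ 0 → (∏ j, (τ j).1 b) ^ l ≠ 0 := fun b b0 =>
    pow_ne_zero _ (Finset.prod_ne_zero_iff.2 fun j _ => (map_ne_zero _).2 b0)
  have po : ∀ b : Rg s' a' t, (b : K) ≠ 0 →
      P.ord ((∏ j, (τ j).1 b) ^ l) = J.factorial * P.ord (b : K) := fun b b0 => by
    rw [Pl.ord_pow, P.ord_prod _ fun j _ => (map_ne_zero _).2 b0,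
      Finset.sum_congr rfl fun j _ => o _ (τ j).2 _ b.2, Finset.sum_const, cd, hl]
    simp only [nsmul_eq_mul]
    push_cast
    ring
  set W := Gr.nrm (Nt.inr st p).subtype 1 C (s / u * hm t h δ ^ n) ^ l with hW
  have eW : W = ((∏ j, c (τ j) ^ n) ^ l) • ((∏ j, (τ j).1 s) ^ l / (∏ j, (τ j).1 u) ^ l *
      hm t h δ ^ (n * J.factorial)) := by
    have : ∀ j : Nt.inr st p ⧸ C, (Nt.inr st p).subtype j.out (s / u * hm t h δ ^ n) =
        algebraMap ℂ K (c (τ j) ^ n) * ((τ j).1 s / (τ j).1 u * hm t h δ ^ n) := fun j => by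
      change (τ j).1 _ = _
      rw [map_mul, map_div₀, map_pow, hc, Algebra.smul_def, map_pow]
      ring
    simp only [hW, Gr.nrm, MonoidHom.one_apply, one_mul, this, Finset.prod_mul_distrib,
      Finset.prod_div_distrib, Finset.prod_const, cd, hl, Algebra.smul_def, map_pow, map_prod]
    ring
  have cc : (∏ j, c (τ j) ^ n) ^ l ≠ 0 :=
    pow_ne_zero _ (Finset.prod_ne_zero_iff.2 fun j _ => pow_ne_zero _ (c0 _))
  have W0 : W ≠ 0 := pow_ne_zero _ (Gr.nrm_ne (mul_ne_zero x0 (pow_ne_zero _ H0)))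
  have HN := pow_ne_zero (n * J.factorial) H0
  obtain ⟨a, ha, ρ0, ρ1⟩ := Nt.trace_pl st hP W0 (fun σ hσ => by
      have := Gr.nrm_semi (α := (Nt.inr st p).subtype) (χ := 1) (A := C)
        (x := s / u * hm t h δ ^ n) (by simp) (fun a ha => by simpa using fx a ha) ⟨σ, hσ⟩
      rw [hW, map_pow]
      simpa using congrArg (· ^ l) this)
    (t := ⟨_, pm u⟩) ((nz _ (p0 _ u0)).2 (by rw [po u u0, ou, mul_zero]))
  set ρ := Gr.rey A.subtype 1 (a * (∏ j, (τ j).1 u) ^ l * W) with hρ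
  have mem : ρ / hm t h δ ^ (n * J.factorial) ∈ Rg s' a' t := by
    rw [hρ, Gr.rey, Finset.sum_div]
    refine sum_mem fun σ _ => ?_
    have e : a * (∏ j, (τ j).1 u) ^ l * W = (((∏ j, c (τ j) ^ n) ^ l) • (a * (∏ j, (τ j).1 s) ^ l)) *
        hm t h δ ^ (n * J.factorial) := by
      have := p0 _ u0
      rw [eW, Algebra.smul_def, Algebra.smul_def]
      field_simp
    rw [MonoidHom.one_apply, one_mul, e, map_mul, map_pow _ (hm t h δ)]
    erw [hc σ]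
    rw [smul_pow, mul_smul_comm, smul_div_assoc, mul_div_cancel_right₀ _ HN]
    exact Subalgebra.smul_mem _ (st _ σ.2 _ (Subalgebra.smul_mem _ (mul_mem ha (pm s)) _)) _
  obtain ⟨ψ, ψ1, ψ2⟩ := (mem_Rg_iff ht).1 mem
  obtain ⟨e, he, m, rfl, hm'⟩ := Cr.pick ht s0 ψ1 (ψ2 ▸ div_ne_zero ρ0 HN) P
  obtain ⟨ψ', k1, k2⟩ := lv_shift ht ψ (h ^ (n * J.factorial)) (((n * J.factorial : ℕ) : ℤ) • δ)
  refine ⟨m, fun i => ?_, hm'.trans ?_⟩
  · exact g4 ψ' (by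
      rw [k2, ψ2, hm_pow ht, div_mul_cancel₀ _ HN]
      exact fun σ hσ => by
        simpa using Gr.rey_semi (α := A.subtype) (χ := 1) (by simp) _ ⟨σ, hσ⟩) _
      (Finsupp.mem_support_iff.2 ((k1 (dg a' m)).trans_ne
        (mul_ne_zero (Finsupp.mem_support_iff.1 he) (pow_ne_zero _ h0)))) i
  · have := ρ1
    rw [eW, Pl.ord_smul _ cc, Pl.ord_mul _ (div_ne_zero (p0 _ z0) (p0 _ u0)) HN,
      Pl.ord_div _ (p0 _ z0) (p0 _ u0), po s z0, po u u0] at this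
    rw [ψ2, Pl.ord_div _ ρ0 HN, Pl.ord_div _ z0 u0]
    exact_mod_cast (by linarith : P.ord ρ - P.ord (hm t h δ ^ (n * J.factorial)) ≤
      J.factorial * (P.ord (s : K) - P.ord (u : K)))

end Vale.Agent.P283R.Wd
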