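import Vale.Agent.P283R.Wd.St

/-!
# P283R, block WD: positivity at the lift
-/

open Set
open Vale.Agent.P297Z

noncomputable section

namespace Vale.Agent.P283R.Wd

open Vale.Agent.P287D Cx

namespace P73

variable {K F : Type} [Field K] [Algebra ℂ K] [Field F] [Algebra ℂ F] [Algebra K F]
  [IsScalarTower ℂ K F] {k N : ℕ} {t : Fin k → F} {s : Fin N → K} {a : Fin N → Fin k → ℤ}

/-- a monomial of smaller order -/
theorem pick1 (ht : ∀ i, t i ≠ 0) (s0 : ∀ j, s j ≠ 0) {e : Fin k → ℤ} {φ : K} (h : φ ∈ Sp s a e)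
    (φ0 : φ ≠ 0) (U : Pl F) : ∃ c, dg a c = e ∧
      ∑ j, (c j : ℤ) * U.ord (hm t (s j) (a j)) ≤ U.ord (hm t φ e) := by
  classical
  obtain ⟨e', he, c, hc, le⟩ := Cr.pick (a := a) ht s0 (ψ := Finsupp.single e φ) (fun e' => by
    rw [Finsupp.single_apply]
    split_ifs with c
    · exact c ▸ h
    · exact zero_mem _) (by rw [An.lv_single]; exact hm_ne ht φ0 e) U
  rw [An.lv_single] at le
  exact ⟨c, hc.trans (Finset.mem_singleton.1 (Finsupp.support_single_subset he)),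
    by exact_mod_cast le⟩

theorem nn (ht : ∀ i, t i ≠ 0) (s0 : ∀ j, s j ≠ 0) {U : Pl F}
    (g : ∀ j, 0 ≤ U.ord (hm t (s j) (a j))) {e : Fin k → ℤ} {φ : K} (h : φ ∈ Sp s a e)
    (φ0 : φ ≠ 0) : 0 ≤ U.ord (hm t φ e) :=
  let ⟨_, _, le⟩ := pick1 ht s0 h φ0 U
  (Finset.sum_nonneg fun j _ => mul_nonneg (Nat.cast_nonneg _) (g j)).trans le

omit [Algebra ℂ K] [IsScalarTower ℂ K F] in
theorem ord_two (ht : ∀ i, t i ≠ 0) (U : Pl F) {φ φ' : K} (h : φ ≠ 0) (h' : φ' ≠ 0)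
    (e : Fin k → ℤ) :
    U.ord (algebraMap K F (φ * φ')) = U.ord (hm t φ e) + U.ord (hm t φ' (-e)) := by
  rw [← Pl.ord_mul _ (hm_ne ht h _) (hm_ne ht h' _), ← hm_mul ht, add_neg_cancel, hm_deg0]

end P73

open P73 in
theorem pos : POS := by
  intro K F _ _ _ _ _ _ d k y t x _ N s a Q U u₀ s0 L e φ h φ0
  have ht := x.ind.ne_zero
  have g := fun j => (L.gt j).1
  refine ⟨fun p φ' h' φ1 => ?_, fun p => ?_⟩
  · rw [← L.lies.ord_pos_iff, ord_two ht U φ0 φ1 e]
    exact add_pos_of_pos_of_nonneg p (nn ht s0 g h' φ1)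
  · by_contra n
    obtain ⟨c, hc, le⟩ := pick1 ht s0 h φ0 U
    have z : ∀ j, (c j : ℤ) * U.ord (hm t (s j) (a j)) = 0 := fun j =>
      (Finset.sum_eq_zero_iff_of_nonneg fun j _ => mul_nonneg (Nat.cast_nonneg _) (g j)).1
        (le_antisymm (le.trans (not_lt.1 n))
          (Finset.sum_nonneg fun j _ => mul_nonneg (Nat.cast_nonneg _) (g j))) j (Finset.mem_univ j)
    have cl : ∀ j, c j ≤ (∑ i, c i) * u₀ j := fun j => by
      rcases (c j).eq_zero_or_pos with c0 | c0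
      · omega
      · exact (Finset.single_le_sum (fun _ _ => Nat.zero_le _) (Finset.mem_univ j)).trans
          (Nat.le_mul_of_pos_right _ ((L.gt j).2.2
            ((mul_eq_zero.1 (z j)).resolve_left (Nat.cast_ne_zero.2 c0.ne'))))
    have hd : dg a (fun j => (∑ i, c i) * u₀ j - c j) = -e := funext fun i => by
      have h1 := congrFun hc i
      have h2 := congrFun L.dg i
      simp only [dg, Pi.zero_apply] at h1 h2
      simp only [dg, Nat.cast_sub (cl _), sub_mul, Finset.sum_sub_distrib, Nat.cast_mul, mul_assoc,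
        ← Finset.mul_sum, h1, h2, Pi.neg_apply]
      ring
    have m0 : ∏ j, s j ^ ((∑ i, c i) * u₀ j - c j) ≠ 0 :=
      Finset.prod_ne_zero_iff.2 fun j _ => pow_ne_zero _ (s0 j)
    have k1 := p _ (hd ▸ mon_mem s a _) m0
    rw [← L.lies.ord_pos_iff, ord_two ht U φ0 m0 e, ← hd, ord_hm ht U m0, ← Tz.ord_all ht s0,
      Finset.sum_eq_zero fun j _ => ?_, add_zero] at k1
    · exact n k1
    · rcases (u₀ j).eq_zero_or_pos with c0 | c0
      · simp [c0]
      · rw [(L.gt j).2.1 c0, mul_zero]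

end Vale.Agent.P283R.Wd
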