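import Vale.Agent.P283R.Wd.S42
import Vale.Agent.P283R.Cx.Grp
import Vale.Agent.P283R.Cx.Ext
import Vale.Agent.P283R.Cx.Gp

/-!
# P283R, block WD: the square of fields
-/

open Set IntermediateField

noncomputable section

namespace Vale.Agent.P283R.Wd

open Vale.Agent.P287D Cx

theorem kap_eqv {K : Type} [Field K] [Algebra ℂ K] {a b : ℕ} (hK : FF K b) (y : Fin b → K)
    (e : Fin a ≃ Fin b) : kap (fun i => y (e i)) = kap y := by
  obtain rfl : a = b := by simpa using Fintype.card_congr e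
  exact Cb.kap_perm hK y e

/-- the square `K₁ ⊆ K₀ = K₁(u)`, `F₁ = K₁(t)`, `F₀ = K₀(t) = F₁(u)` -/
structure Sq (K₁ K₀ F₁ F₀ : Type) [Field K₁] [Field K₀] [Field F₁] [Field F₀] [Algebra ℂ K₁]
    [Algebra ℂ K₀] [Algebra ℂ F₁] [Algebra ℂ F₀] [Algebra K₁ K₀] [Algebra K₁ F₁] [Algebra F₁ F₀]
    [Algebra K₀ F₀] (d : ℕ) {ρ k : ℕ} (u : Fin ρ → K₀) (t : Fin k → F₁) : Prop where
  xu : Ext K₁ d u
  xt : Ext K₁ d t
  yu : Ext F₁ (d + k) fun i => algebraMap K₀ F₀ (u i)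
  yt : Ext K₀ (d + ρ) fun i => algebraMap F₁ F₀ (t i)
  com : ∀ a : K₁, algebraMap F₁ F₀ (algebraMap K₁ F₁ a) = algebraMap K₀ F₀ (algebraMap K₁ K₀ a)

theorem sq {K₁ K₀ : Type} [Field K₁] [Field K₀] [Algebra ℂ K₁] [Algebra ℂ K₀] [Algebra K₁ K₀]
    [IsScalarTower ℂ K₁ K₀] {d ρ : ℕ} {u : Fin ρ → K₀} (x : Ext K₁ d u) (k : ℕ) :
    ∃ (F₁ F₀ : Type) (_ : Field F₁) (_ : Field F₀) (_ : Algebra ℂ F₁) (_ : Algebra ℂ F₀)
      (_ : Algebra K₁ F₁) (_ : Algebra F₁ F₀) (_ : Algebra K₀ F₀) (_ : IsScalarTower ℂ K₁ F₁)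
      (_ : IsScalarTower ℂ F₁ F₀) (_ : IsScalarTower ℂ K₀ F₀) (t : Fin k → F₁),
      Sq K₁ K₀ F₁ F₀ d u t := by
  obtain ⟨F₀, _, _, _, _, t₀, z⟩ := Cx.ext K₀ (d + ρ) k x.ff'
  let _ : Algebra K₁ F₀ := ((algebraMap K₀ F₀).comp (algebraMap K₁ K₀)).toAlgebra
  have : IsScalarTower K₁ K₀ F₀ := .of_algebraMap_eq fun _ => rfl
  have : IsScalarTower ℂ K₁ F₀ := .of_algebraMap_eq fun c => by
    rw [IsScalarTower.algebraMap_apply ℂ K₀ F₀, IsScalarTower.algebraMap_apply ℂ K₁ K₀]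
    rfl
  let F₁ := adjoin K₁ (range t₀)
  let t : Fin k → F₁ := fun i => ⟨t₀ i, subset_adjoin _ _ ⟨i, rfl⟩⟩
  have i1 : AlgebraicIndependent K₁ (Sum.elim (fun i => algebraMap K₀ F₀ (u i)) t₀) := by
    have := (x.ind.sumElim_comp z.ind).comp _ (Equiv.sumComm (Fin ρ) (Fin k)).injective
    refine (congrArg (fun w => AlgebraicIndependent K₁ w) (funext ?_)).mp this
    rintro (i | i) <;> rfl
  obtain ⟨i2, i3⟩ := AlgebraicIndependent.sumElim_iff.1 i1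
  have i4 : AlgebraicIndependent K₁ t := AlgebraicIndependent.of_comp F₁.val i2
  have g1 : adjoin K₁ (range t) = ⊤ := by
    refine lift_injective F₁ ?_
    rw [lift_adjoin, lift_top, ← range_comp]
    rfl
  have f1 : FF F₁ (d + k) := Gp.ff x.ff i4 g1
  refine ⟨F₁, F₀, inferInstance, inferInstance, inferInstance, inferInstance, inferInstance,
    inferInstance, inferInstance, inferInstance, .of_algebraMap_eq fun c => by
      rw [IsScalarTower.algebraMap_apply ℂ K₁ F₁, ← IsScalarTower.algebraMap_apply K₁ F₁ F₀,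
        ← IsScalarTower.algebraMap_apply], inferInstance, t, x,
    ⟨x.ff, f1, i4, g1⟩, ⟨f1, Nat.add_right_comm d ρ k ▸ z.ff',
      algebraicIndependent_adjoin_iff.2 i3, eq_top_iff.2 fun a _ => ?_⟩, z, fun _ => rfl⟩
  have : a ∈ adjoin K₀ (range t₀) := z.gen ▸ trivial
  induction this using adjoin_induction with
  | mem a ha =>
    obtain ⟨i, rfl⟩ := ha
    exact _root_.algebraMap_mem _ (t i)
  | algebraMap b =>
    have : b ∈ adjoin K₁ (range u) := x.gen ▸ trivial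
    induction this using adjoin_induction with
    | mem b hb =>
      obtain ⟨i, rfl⟩ := hb
      exact subset_adjoin _ _ ⟨i, rfl⟩
    | algebraMap c => exact _root_.algebraMap_mem _ (algebraMap K₁ F₁ c)
    | add b c _ _ v w => rw [map_add]; exact add_mem (v trivial) (w trivial)
    | inv b _ v => rw [map_inv₀]; exact inv_mem (v trivial)
    | mul b c _ _ v w => rw [map_mul]; exact mul_mem (v trivial) (w trivial)
  | add b c _ _ v w => exact add_mem (v trivial) (w trivial)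
  | inv b _ v => exact inv_mem (v trivial)
  | mul b c _ _ v w => exact mul_mem (v trivial) (w trivial)

namespace Sq

variable {K₁ K₀ F₁ F₀ : Type} [Field K₁] [Field K₀] [Field F₁] [Field F₀] [Algebra ℂ K₁]
  [Algebra ℂ K₀] [Algebra ℂ F₁] [Algebra ℂ F₀] [Algebra K₁ K₀] [Algebra K₁ F₁] [Algebra F₁ F₀]
  [Algebra K₀ F₀] {d ρ k : ℕ} {u : Fin ρ → K₀} {t : Fin k → F₁}

/-- the two frames -/
theorem kap_eq (h : Sq K₁ K₀ F₁ F₀ d u t) (y : Fin d → K₁) :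
    kap (zt (zt y t) fun i => algebraMap K₀ F₀ (u i)) =
      kap (zt (zt y u) fun i => algebraMap F₁ F₀ (t i)) := by
  let e : Fin (d + k + ρ) ≃ Fin (d + ρ + k) :=
    finSumFinEquiv.symm.trans <| (finSumFinEquiv.symm.sumCongr (Equiv.refl _)).trans <|
      (Equiv.sumAssoc _ _ _).trans <| ((Equiv.refl _).sumCongr (Equiv.sumComm _ _)).trans <|
        (Equiv.sumAssoc _ _ _).symm.trans <| (finSumFinEquiv.sumCongr (Equiv.refl _)).trans
          finSumFinEquiv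
  rw [← kap_eqv h.yt.ff' _ e]
  congr 1
  funext i
  refine Fin.addCases (fun i => Fin.addCases (fun i => ?_) (fun i => ?_) i) (fun i => ?_) i <;>
    simp [e, zt, h.com]

theorem hm_t (h : Sq K₁ K₀ F₁ F₀ d u t) (φ : K₁) (e : Fin k → ℤ) : algebraMap F₁ F₀ (hm t φ e) =
    hm (fun i => algebraMap F₁ F₀ (t i)) (algebraMap K₁ K₀ φ) e := by
  simp only [hm, To.mon, map_mul, map_prod, map_zpow₀, h.com]

theorem hm_u (h : Sq K₁ K₀ F₁ F₀ d u t) (φ : K₁) (m : Fin ρ → ℤ) : algebraMap K₀ F₀ (hm u φ m) =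
    hm (fun i => algebraMap K₀ F₀ (u i)) (algebraMap K₁ F₁ φ) m := by
  simp only [hm, To.mon, map_mul, map_prod, map_zpow₀, h.com]

/-- bihomogeneous elements -/
theorem hm_hm (h : Sq K₁ K₀ F₁ F₀ d u t) (φ : K₁) (e : Fin k → ℤ) (m : Fin ρ → ℤ) :
    hm (fun i => algebraMap K₀ F₀ (u i)) (hm t φ e) m =
      hm (fun i => algebraMap F₁ F₀ (t i)) (hm u φ m) e := by
  simp only [hm, To.mon, map_mul, map_prod, map_zpow₀, h.com]
  ring

variable [IsScalarTower ℂ K₁ F₁] [IsScalarTower ℂ F₁ F₀] [IsScalarTower ℂ K₀ F₀]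

omit [IsScalarTower ℂ K₁ F₁] [IsScalarTower ℂ K₀ F₀] in
theorem res (h : Sq K₁ K₀ F₁ F₀ d u t) {σ : F₀ ≃ₐ[ℂ] F₀} {τ : F₁ ≃ₐ[ℂ] F₁} {c : Fin k → ℂ}
    (s1 : ∀ φ : K₀, σ (algebraMap K₀ F₀ φ) = algebraMap K₀ F₀ φ)
    (s2 : ∀ i, σ (algebraMap F₁ F₀ (t i)) = c i • algebraMap F₁ F₀ (t i))
    (t1 : ∀ φ : K₁, τ (algebraMap K₁ F₁ φ) = algebraMap K₁ F₁ φ) (t2 : ∀ i, τ (t i) = c i • t i)
    (a : F₁) : σ (algebraMap F₁ F₀ a) = algebraMap F₁ F₀ (τ a) := by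
  have : a ∈ adjoin K₁ (range t) := h.xt.gen ▸ trivial
  induction this using adjoin_induction with
  | mem a ha =>
    obtain ⟨i, rfl⟩ := ha
    rw [s2, t2, Algebra.smul_def, Algebra.smul_def, map_mul, ← IsScalarTower.algebraMap_apply]
  | algebraMap b => rw [t1, h.com, s1]
  | add b c _ _ v w => simp only [map_add, v, w]
  | inv b _ v => simp only [map_inv₀, v]
  | mul b c _ _ v w => simp only [map_mul, v, w]

/-- the torsion groups -/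
theorem ug (h : Sq K₁ K₀ F₁ F₀ d u t) {r : ℕ} (r0 : 0 < r) {A : Subgroup (F₁ ≃ₐ[ℂ] F₁)}
    {G : Subgroup (F₀ ≃ₐ[ℂ] F₀)} (hA : (A : Set _) = Gr K₁ t r)
    (hG : (G : Set _) = Gr K₀ (fun i => algebraMap F₁ F₀ (t i)) r) (fin : Finite G) :
    Ug (fun i => algebraMap K₀ F₀ (u i)) A G := by
  have mA : ∀ σ, σ ∈ A ↔ σ ∈ Gr K₁ t r := fun σ => by rw [← hA]; rfl
  have mG : ∀ σ, σ ∈ G ↔ σ ∈ Gr K₀ (fun i => algebraMap F₁ F₀ (t i)) r := fun σ => by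
    rw [← hG]; rfl
  have c0 : ∀ c : ℂ, c ^ r = 1 → c ≠ 0 := fun c e z => by simp [z, r0.ne'] at e
  refine ⟨fin, fun j σ hσ => ((mG σ).1 hσ).1 _, fun σ hσ => ?_, fun τ hτ => ?_⟩
  · obtain ⟨s1, s2⟩ := (mG σ).1 hσ
    choose c c1 c2 using s2
    obtain ⟨τ, t1, t2⟩ := Grp.aut h.xt fun i => c0 _ (c1 i)
    exact ⟨τ, (mA τ).2 ⟨t1, fun i => ⟨_, c1 i, t2 i⟩⟩, h.res s1 c2 t1 t2⟩
  · obtain ⟨t1, t2⟩ := (mA τ).1 hτ
    choose c c1 c2 using t2
    obtain ⟨σ, s1, s2⟩ := Grp.aut h.yt fun i => c0 _ (c1 i)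
    exact ⟨σ, (mG σ).2 ⟨s1, fun i => ⟨_, c1 i, s2 i⟩⟩, h.res s1 s2 t1 c2⟩

end Sq

end Vale.Agent.P283R.Wd
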