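import Vale.Agent.P283R.Wd.St
import Vale.Agent.P283R.Wd.Sq36
import Vale.Agent.P283R.Cx.Lar

/-!
# P283R, block WD: the two descriptions of the big field
-/

open Set

noncomputable section

namespace Vale.Agent.P283R.Wd

open Vale.Agent.P287D Cx

/-- **PRM** -/
theorem prm90 : PRM := fun K₁ K₀ K F _ _ _ _ _ _ _ _ _ _ _ _ _ _ _ _ d k ρ y u t h hy => by
  classical
  have s : Sq K₁ K₀ K F d u t := ⟨h.x1, h.x2, h.x3, h.x4, h.com⟩
  refine ⟨fun z m e => s.hm_hm z e m, fun γ ψ η e hψ => ?_, fun r r0 U => ?_,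
    fun U P l g ψ e he => ?_⟩
  · have e1 : lv (fun i => algebraMap K₀ F (u i)) ψ = ∑ m ∈ ψ.support ∪ γ.support,
        hm (fun i => algebraMap K₀ F (u i)) (ψ m) m :=
      Finsupp.sum_of_support_subset _ Finset.subset_union_left _ fun _ _ => by simp [hm]
    have e2 : lv u γ = ∑ m ∈ ψ.support ∪ γ.support, hm u (γ m) m :=
      Finsupp.sum_of_support_subset _ Finset.subset_union_right _ fun _ _ => by simp [hm]
    rw [e1, e2, Finset.mul_sum, hm, map_sum, Finset.sum_mul]
    refine Finset.sum_congr rfl fun m _ => ?_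
    rw [hψ, s.hm_hm]
    simp only [hm, map_mul, mul_assoc]
  · have a := (lar K₀ F (d + ρ) k (zt y u) _ h.x4 (zt_frm h.x1 hy) r r0).2 U
    let e : Fin (d + k + ρ) ≃ Fin (d + ρ + k) :=
      finSumFinEquiv.symm.trans <| (finSumFinEquiv.symm.sumCongr (Equiv.refl _)).trans <|
        (Equiv.sumAssoc _ _ _).trans <| ((Equiv.refl _).sumCongr (Equiv.sumComm _ _)).trans <|
          (Equiv.sumAssoc _ _ _).symm.trans <| (finSumFinEquiv.sumCongr (Equiv.refl _)).trans
            finSumFinEquiv
    have b : kap (zt (zt y fun i => t i ^ r) fun i => algebraMap K₀ F (u i)) =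
        kap (zt (zt y u) fun i => algebraMap K F (t i) ^ r) := by
      rw [← kap_eqv h.x4.ff' _ e]
      congr 1
      funext i
      refine Fin.addCases (fun i => Fin.addCases (fun i => ?_) (fun i => ?_) i) (fun i => ?_) i <;>
        simp [e, zt, h.com]
    rw [lt, b]
    linarith
  · have a := g (ψ.mapRange (algebraMap K₁ K₀) (map_zero _)) e (by
      simpa using he)
    have b : lv (fun i => algebraMap K F (t i)) (ψ.mapRange (algebraMap K₁ K₀) (map_zero _)) =
        algebraMap K F (lv t ψ) := by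
      rw [lv, Finsupp.sum_mapRange_index fun _ => by simp [hm], lv, map_finsuppSum]
      exact Finsupp.sum_congr fun _ _ => (s.hm_t _ _).symm
    rw [b, Finsupp.mapRange_apply, ← s.hm_t, l.ord, l.ord (hm t (ψ e) e)] at a
    exact le_of_mul_le_mul_left a l.e_pos

end Vale.Agent.P283R.Wd
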