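import Vale.Agent.P283R.Wd.St
import Vale.Agent.P283R.Wd.Sq36

/-!
# P283R, block WD: the square of the fields exists
-/

noncomputable section

namespace Vale.Agent.P283R.Wd

/-- **TOW** -/
theorem tow : TOW := fun _ _ _ _ _ _ _ _ _ k _ _ x => by
  obtain ⟨K, F, _, _, _, _, _, _, _, _, _, _, t, h⟩ := sq x k
  exact ⟨K, F, _, _, _, _, _, _, _, ‹_›, ‹_›, ‹_›, t, h.com, h.xu, h.xt, h.yu, h.yt⟩

end Vale.Agent.P283R.Wd
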