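import Vale.Agent.P283R.Wd.St
import Vale.Agent.P283R.Wd.Sq36

/-!
# P283R, block WD: the torsion groups
-/

namespace Vale.Agent.P283R.Wd

/-- **UGG** -/
theorem ugg30 : UGG := fun _ _ _ _ _ _ _ _ _ _ _ _ _ _ _ _ _ _ _ _ _ _ _ _ _ _ w _ _ _ _ r hA hG f =>
  Sq.ug ⟨w.x1, w.x2, w.x3, w.x4, w.com⟩ r hA hG f

end Vale.Agent.P283R.Wd
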