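import Vale.Agent.P283R.Wd.St
import Vale.Agent.P283R.Wd.Kld64
import Vale.Agent.P283R.Cx.Dwn

/-!
# P283R, block WD: the boundary stays effective
-/

open Set

noncomputable section

namespace Vale.Agent.P283R.Wd

open Vale.Agent.P287D Cx Vale.Agent.P297Z
open Vale.Agent.P285N.Brep (jac Fr)

section

variable {K F : Type} [Field K] [Algebra ℂ K] [Field F] [Algebra ℂ F] [Algebra K F] {d ρ : ℕ}
  {u : Fin ρ → F} {c : (Fin ρ → ℤ) → K} {S₁ : Subalgebra ℂ K} {S : Subalgebra ℂ F}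

theorem Gs.hm79 (g : Gs u c S₁ S) (m : Fin ρ → ℤ) {a : K} (ha : a ∈ S₁) : hm u (a * c m) m ∈ S :=
  (g.mem _).2 ⟨.single m (a * c m), lv_single _ _ _, fun e => by
    by_cases h : e = m
    · rwa [h, Finsupp.single_eq_same, mul_div_cancel_right₀ _ (g.ne m)]
    · rw [Finsupp.single_eq_of_ne h, zero_div]
      exact zero_mem _⟩

theorem Gs.le79 (g : Gs u c S₁ S) {a : K} (ha : a ∈ S₁) : algebraMap K F a ∈ S := by
  simpa [g.c0, hm_deg0] using g.hm79 0 ha

theorem Gs.cmp79 (g : Gs u c S₁ S) (x : AlgebraicIndependent K u) {ψ : (Fin ρ → ℤ) →₀ K}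
    (h : lv u ψ ∈ S) (m : Fin ρ → ℤ) : ψ m / c m ∈ S₁ := by
  obtain ⟨ψ', e, k⟩ := (g.mem _).1 h
  have : ψ - ψ' = 0 := lv_inj x (by
    have a := lv_add u (ψ - ψ') ψ'
    rw [sub_add_cancel, e] at a
    exact left_eq_add.1 (a.trans (add_comm _ _)))
  exact sub_eq_zero.1 this ▸ k m

variable [IsScalarTower ℂ K F]

/-- forms which are regular on the small ring -/
theorem Gs.one_le79 (g : Gs u c S₁ S) (x : Ext K d u) {t : Fin d → K} (ht : Frm t)
    (tS : ∀ l, t l ∈ S₁) {U : Pl F} (r : ∀ a ∈ S, a ∈ U.ring) : 1 ≤ lt t u U := by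
  rcases dwn K F d ρ t u x ht U with ⟨a, -⟩ | ⟨Q, l, e⟩
  · have u0 := x.ind.ne_zero
    have o : ∀ m : Fin ρ → ℤ, 0 ≤ ∑ i, m i * U.ord (u i) := fun m => by
      have k := Pl.ord_nonneg_of_mem _ (r _ (g.hm79 m (one_mem _)))
      rwa [one_mul, ord_hm u0 U (g.ne m), Trv.ord a, zero_add] at k
    have z : ∀ i, U.ord (u i) = 0 := fun i => by
      have a1 := o (Pi.single i 1)
      have a2 := o (Pi.single i (-1))
      simp [Pi.single_apply] at a1 a2
      omega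
    have k := Cb.kap_nonneg x.ff' (P := U) (y := zt t u) fun i => by
      refine Fin.addCases (fun i => ?_) (fun i => ?_) i
      · simpa [zt] using a (t i)
      · simpa [zt] using (Pl.ord_nonneg_iff _ (u0 i)).1 (z i).ge
    simpa [lt, z] using k
  · have k := Cb.kap_nonneg x.ff (P := Q) (y := t) fun i => (l _).2 (r _ (g.le79 (tS i)))
    have e1 : (1 : ℝ) ≤ U.ord (algebraMap K F Q.t) := by exact_mod_cast l.e_pos
    nlinarith

end

/-- **PDB** -/
theorem pdb79 : PDB := by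
  intro K F _ _ _ _ _ _ d ρ y u x ⟨D, hD⟩ q c ψ S₁ S q0 g A₁ _ A N bd m hm R ⟨p, cp, lo⟩
  have u0 := x.ind.ne_zero
  have q1 : (0 : ℝ) < q := by exact_mod_cast q0
  have m0 := Finsupp.mem_support_iff.1 hm
  have l0 : lv u ψ ≠ 0 := fun e => m0 (by simp [lv_inj x.ind e])
  refine K64.bd_of hD q0 (div_ne_zero m0 (g.ne m)) (fun t tS ht => ?_) R ⟨p, le_rfl, cp, lo⟩
  have j0 := (Cb.jac_ne_iff hD t).2 ht
  obtain ⟨ψ', e1, e2⟩ := lv_shift u0 ψ (jac D t ^ q) 0
  have j1 : algebraMap K F (jac D t) ≠ 0 := (map_ne_zero _).2 j0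
  rw [hm_deg0, map_pow] at e2
  have mem : lv u ψ' ∈ S := Hr.mem_of A N fun U hU => by
    have a := bd U hU
    obtain ⟨_, cU, -⟩ := hU
    have b := g.one_le79 x (Cb.fr_of x.ff ht) tS (U := U) fun s hs => (cU ⟨s, hs⟩).1
    rw [K64.lt_chg x hD j0] at b
    have k : (0 : ℝ) ≤ U.ord (lv u ψ) + q * U.ord (algebraMap K F (jac D t)) := by
      have := (le_div_iff₀ q1).1 (show -(U.ord (algebraMap K F (jac D t)) : ℝ) ≤
        U.ord (lv u ψ) / q by unfold lw at a; linarith)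
      linarith
    rw [e2]
    refine (Pl.ord_nonneg_iff _ (mul_ne_zero l0 (pow_ne_zero q j1))).1 ?_
    rw [Pl.ord_mul _ l0 (pow_ne_zero q j1), Pl.ord_pow]
    exact_mod_cast k
  have k := g.cmp79 x.ind mem m
  refine ⟨⟨_, k⟩, 1, (Ideal.ne_top_iff_one p).1 (Hr.cen_prime cp).ne_top, ?_⟩
  have e3 := e1 m
  rw [add_zero] at e3
  simp only [e3, OneMemClass.coe_one]
  ring

end Vale.Agent.P283R.Wd
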