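import Vale.Agent.P283R.Wd.Bcorr45
import Vale.Agent.P283R.Wd.Bprm90
import Vale.Agent.P283R.Wd.Bugg30
import Vale.Agent.P283R.Wd.Bgss30
import Vale.Agent.P283R.Wd.Bpos73
import Vale.Agent.P283R.Wd.Bdpt31
import Vale.Agent.P283R.Wd.Pdb79
import Vale.Agent.P283R.Wd.Bkld64
import Vale.Agent.P283R.Wd.Bgds14
import Vale.Agent.P283R.Wd.Btow1
import Vale.Agent.P283R.Wd.Blifg13
import Vale.Agent.P283R.Wd.Bgts85
import Vale.Agent.P283R.Wd.Bmnw95
import Vale.Agent.P283R.Wd.Ncl26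
import Vale.Agent.P283R.Wd.Bntw22

/-!
# P283R, block WD: the second layer
-/

namespace Vale.Agent.P283R.Wd

/-- **CORW** -/
theorem corw45 : CORW := corr N26.wbp prm90 ugg30 gss30 pos dpt pdb79 kld64 gds ntw22

/-- **MNW** -/
theorem mnw45 : MNW := mnwr tow lifg gts corw45

end Vale.Agent.P283R.Wd
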