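import Vale.Agent.P283R.Pq.Hw45
import Vale.Agent.P283R.Cx.Sch
import Vale.Agent.P283R.C3.On

/-!
# P283R, block WD: the statement on the tier and the scheme side
-/

open Set CategoryTheory AlgebraicGeometry

noncomputable section

namespace Vale.Agent.P283R.Wd

open Vale.Agent.P287D Vale.Agent.P283M Vale.Agent.P283M.Br Vale.Agent.P283R.Gl Pq Pq.H45

/-- **WT**: the theorem on the tier -/
def WT : Prop := ∀ (n q : ℕ) (ε : ℝ), 0 < q → 0 < ε → ∃ M : ℕ, 1 ≤ M ∧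
  ∀ (c ρ : ℕ) (K : Type) [Field K] [Algebra ℂ K] (ι : Type) (u : Finset K) (Λ Γ Γ' : BD K)
    (s : Fin c → K) (y : Fin ρ → K) (w : ι → Prop) (P : ι → Pl K), c + ρ = n + 1 →
    Dat n u Λ Γ Γ' → Fm s y w P → Function.Injective P →
    (∀ R, R ∈ Cx.Tt n u Λ ↔ ∃ E, w E ∧ P E = R) →
    (∀ R ∈ Cx.Tt n u Λ, dsc (n + 1) Γ R ≤ 0 ∧ ∃ m : ℤ, q * dsc (n + 1) Γ R = m) →
    (∀ R, Ov u R → ε ≤ 1 + dsc (n + 1) Γ R) → NefO n K u (-Γ) → Cpl n M u Λ Γ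

/-- the inequality on the tier -/
theorem hw_tier (sums : SUMS) (cz' : CZ) (conv : C3.CONV) {n q c ρ : ℕ} {ε : ℝ} {K : Type}
    [Field K] [Algebra ℂ K] {ι : Type} {u : Finset K} {Λ Γ Γ' : BD K} {s : Fin c → K}
    {y : Fin ρ → K} {w : ι → Prop} {P : ι → Pl K} (hq : 0 < q) (hn : c + ρ = n + 1)
    (a : Dat n u Λ Γ Γ') (fm : Fm s y w P) (inj : Function.Injective P)
    (oo : ∀ E, w E → P E ∈ Cx.Tt n u Λ) (lc : ∀ R, Ov u R → ε ≤ 1 + dsc (n + 1) Γ R)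
    (nf : NefO n K u (-Γ)) {g : K} {κ : ι → ℤ}
    (hκ : ∀ E, w E → (κ E : ℝ) = q * cz s y (P E) - q * dsc (n + 1) Γ (P E) - (P E).ord g)
    (κ0 : ∀ E, w E → Tv s y (P E) → κ E = 0) : Pq.Hw ε q s y w P g κ := by
  classical
  intro Q ξ ξ0 hξ hQ
  obtain ⟨-, -, -, -, -, h, -, ec⟩ := cz' _ _ _ s y fm.rat
  rw [hn] at ec
  have q0 : (0 : ℝ) < q := Nat.cast_pos.2 hq
  have fi : ∀ b : K, (Function.support fun E => ξ E * ((P E).ord b : ℝ)).Finite := fun b =>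
    (fm.fin b).subset fun E c => ⟨(hξ E (left_ne_zero_of_mul c)).1,
      Int.cast_ne_zero.1 (right_ne_zero_of_mul c)⟩
  have eψ : ∀ E, w E → (dv h + (q : ℝ)⁻¹ • dv g - Γ) (P E) = -(q : ℝ)⁻¹ * κ E := fun E c => by
    have x' := hκ E c
    have x'' := ec (P E)
    simp only [dsc, Pi.sub_apply, Pi.add_apply, Pi.smul_apply, smul_eq_mul, dv_apply] at x' ⊢
    rw [x', x'']
    field_simp
    ring
  obtain ⟨o, k⟩ := conv n K u Λ Γ Γ' (fun R => ∃ E, (w E ∧ Tv s y (P E)) ∧ P E = R)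
    (Function.extend P ξ 0) Q a (by rintro _ ⟨E, c, rfl⟩; exact oo E c.1)
    (fun R => by
      by_cases c : ∃ E, P E = R
      · obtain ⟨E, rfl⟩ := c
        rw [inj.extend_apply]
        exact ξ0 E
      · rw [Function.extend_apply' _ _ _ c])
    (fun R r => by
      obtain ⟨E, rfl⟩ : ∃ E, P E = R := by_contra fun c => r (Function.extend_apply' _ _ _ c)
      rw [inj.extend_apply] at r
      exact oo E (hξ E r).1)
    (fun c hc => by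
      obtain ⟨φ, φ0, e⟩ := fm.eqn (fun E => if w E ∧ Tv s y (P E) then c (P E) else 0)
        ((hc.preimage inj.injOn).subset fun E r => by
          have m : w E ∧ Tv s y (P E) := by_contra fun m => r (if_neg m)
          exact ⟨⟨E, m, rfl⟩, (if_pos m).symm.trans_ne r⟩)
      exact ⟨φ, φ0, by rintro _ ⟨E, m, rfl⟩; exact (e E m.1 m.2).trans (if_pos m)⟩)
    fun b b0 hb => by
      obtain ⟨G, hG, rfl⟩ := fm.lau b b0 fun E c t => hb _ ⟨E, ⟨c, t⟩, rfl⟩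
      obtain ⟨v, v0, e⟩ := (sums _ _ _ s y fm.rat).2.1 G Q b0
      rw [fs_ext inj]
      refine le_trans (finsum_le_finsum' (fi _) (fi (G v)) fun E => ?_)
        ((hQ v _ (hG v) v0).trans (Int.cast_le.2 e))
      by_cases c : ξ E = 0
      · simp [c]
      · exact mul_le_mul_of_nonneg_left
          (Int.cast_le.2 (fm.inv E (hξ E c).1 (hξ E c).2 G hG v v0)) (ξ0 E)
  replace k := k (dv h + (q : ℝ)⁻¹ • dv g - Γ)
    (sub_mem (add_mem (dv_mem_Car _) (Submodule.smul_mem _ _ (dv_mem_Car _))) a.dn.car) (-Γ')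
    (neg_mem a.dn'.car) (fun δ e => by
      obtain ⟨γ, s, f⟩ := Br.klr a a.dn.neg nf e
      refine ⟨dv h + (q : ℝ)⁻¹ • dv g + γ,
        ((smp_dv h).add ((smp_dv _).smul (inv_pos.2 q0).le)).add s, fun P o => ?_⟩
      have := f P o
      simp only [Pi.add_apply, Pi.sub_apply, Pi.smul_apply, Pi.neg_apply, smul_eq_mul] at this ⊢
      linarith)
    (by
      rintro _ ⟨E, c, rfl⟩
      rw [eψ E c.1, κ0 E c.1 c.2, Int.cast_zero, mul_zero])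
  have e : ∑ᶠ E, ξ E * (dv h + (q : ℝ)⁻¹ • dv g - Γ) (P E) = -(q : ℝ)⁻¹ * ∑ᶠ E, ξ E * κ E := by
    rw [mul_finsum]
    refine finsum_congr fun E => ?_
    by_cases c : ξ E = 0
    · simp [c]
    · rw [eψ E (hξ E c).1, mul_left_comm]
  rw [fs_ext inj, e] at k
  have l := lc Q o
  have x := ec Q
  simp only [dsc, Pi.sub_apply, Pi.add_apply, Pi.smul_apply, smul_eq_mul, dv_apply] at k l
  have k' := mul_le_mul_of_nonneg_left k q0.le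
  rw [neg_mul, mul_neg, mul_inv_cancel_left₀ q0.ne', mul_sub, mul_add,
    mul_inv_cancel_left₀ q0.ne'] at k'
  nlinarith [mul_le_mul_of_nonneg_left l q0.le]

open Vale.Agent.P289 (Pt DForm dimension) in
open Stm Stm.Var in
/-- the scheme side -/
theorem schT {n q M c ρ : ℕ} {ε : ℝ} (M1 : 1 ≤ M)
    (H : ∀ (c ρ : ℕ) (K : Type) [Field K] [Algebra ℂ K] (ι : Type) (u : Finset K) (Λ Γ Γ' : BD K)
      (s : Fin c → K) (y : Fin ρ → K) (w : ι → Prop) (P : ι → Pl K), c + ρ = n + 1 →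
      Dat n u Λ Γ Γ' → Fm s y w P → Function.Injective P →
      (∀ R, R ∈ Cx.Tt n u Λ ↔ ∃ E, w E ∧ P E = R) →
      (∀ R ∈ Cx.Tt n u Λ, dsc (n + 1) Γ R ≤ 0 ∧ ∃ m : ℤ, q * dsc (n + 1) Γ R = m) →
      (∀ R, Ov u R → ε ≤ 1 + dsc (n + 1) Γ R) → NefO n K u (-Γ) → Cpl n M u Λ Γ)
    {X Z : Var} {f : X.X ⟶ Z.X} {z : Pt Z.X} {V : Z.X.Opens} {ω : DForm ℂ X.K (n + 1)}
    {B : X.QDiv} (hdim : dimension X.str = (n + 1 : ℕ)) (hω : ω.Nonzero)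
    (hB : Pair (ε ≤ ·) ⊤ ω B) (hq : ∀ E, ∃ m : ℤ, q * B E = m) (hf : Contraction f)
    (hF : FanoType f ω) (hn : NefOver f (-logCan ω B)) (hz : IsClosed ({z} : Set (Pt Z.X)))
    (hV : IsAffineOpen V) (zV : z ∈ V) {s : Fin c → X.K} {y : Fin ρ → X.K}
    (fm : Fm s y (fun E : X.PrimeDiv => E.1 ∈ f ⁻¹ᵁ V) pq) : HasKltComplement f ω B M z := by
  obtain ⟨u, bs⟩ := Sch.basV hf hz hV zV
  have hK := ffd X _ hdim
  obtain ⟨Λ, Γ, Γ', a, on, lc, cf, nf, e⟩ := Cox.dataW hK hω hB hf hF bs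
  have T : ∀ R, R ∈ Cx.Tt n u Λ ↔ ∃ E : X.PrimeDiv, E.1 ∈ f ⁻¹ᵁ V ∧ pq E = R := fun R => by
    refine ⟨fun t => ?_, ?_⟩
    · obtain ⟨x, hx, dm⟩ := bs.ctr R.ring R.con t.1
      obtain ⟨E, rfl⟩ : ∃ E : X.PrimeDiv, E.1 = x := ⟨⟨x, (on R x hx dm).1 t.2⟩, rfl⟩
      exact ⟨E, hx, Pl.ext' (congrArg _ (P297Z.Pl.eq_of_le' (v := (pq E).toPlace)
        (w := R.toPlace) fun g hg => (dm g ((pq_is E g).1 hg)).1))⟩
    · rintro ⟨E, c, rfl⟩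
      exact ⟨fun b hb => ((pq_is E).dom b (bs.reg b hb _ c)).1, (on _ _ c (pq_is E).dom).2 E.2⟩
  refine e M M1 (H c ρ X.K _ u Λ Γ Γ' s y _ pq
    (Nat.cast_injective (fm.rat.ff.trdeg.symm.trans hK.trdeg)) a fm pq_inj T (fun R t => ?_) lc
    (nf hn))
  obtain ⟨E, c, rfl⟩ := (T R).1 t
  obtain ⟨m, hm⟩ := hq E
  rw [cf _ E c (pq_is E).dom]
  refine ⟨neg_nonpos.2 (Rat.cast_nonneg.2 (hB.1 E trivial)), -m, ?_⟩
  have := congrArg (Rat.cast : ℚ → ℝ) hm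
  push_cast at this ⊢
  linarith

open Sl Sl.Var in
theorem on_wd_of (t : TXT) (h : WT) : On fun _ _ Z f ω B z => FanoType f ω ∧
    NefOver f (-logCan ω B) ∧ ∃ V : Z.X.Opens, IsAffineOpen V ∧ z.In V ∧
      (ProjectiveQuotient (pre f V) ∨ ∃ r, ComplexityOne (pre f V) r) := by
  intro d hd ε hε R hR
  obtain ⟨n, rfl⟩ : ∃ n, d = n + 1 := ⟨d - 1, by omega⟩
  obtain ⟨M, M1, H⟩ := h n (∏ r ∈ R, r.den) ε (Finset.prod_pos fun r _ => r.den_pos) hε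
  refine ⟨M, M1, fun X Z f ω B z a b c e s u ⟨u1, u2, V, hV, zV, w⟩ => (has_iff f ω B M z).2 ?_⟩
  obtain ⟨x, hx⟩ := s.2.2.1.surj z
  obtain ⟨c', ρ, s', y, fm⟩ := t X _ x (show f x ∈ V from hx ▸ zV) w
  exact schT (X := X.o) (Z := Z.o) M1 H a b ((pair_iff _ _ ω B).1 c) (C3.den e) s
    ((fanoType_iff f ω).1 u1) ((nefOver_iff f _).1 u2) u hV zV fm

end Vale.Agent.P283R.Wd
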