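import Vale.Agent.P283R.Wd.S42
import Vale.Agent.P283R.Wd.Gq95

/-!
# P283R, block WD: the hypothesis (H) at the fat places of the small ring
-/

open Set
open Vale.Agent.P297Z

noncomputable section

namespace Vale.Agent.P283R.Wd

open Vale.Agent.P287D Cx

/-- **HYFR** -/
theorem hyfr30 : HYFR := by
  intro glf cen secb dvg q ω ε q0 ε0
  refine ⟨⌈q * ω⌉₊, fun W hW K F _ _ _ _ _ _ d ρ y u x hy A G c ψ S₁ p₁ S p aff nor pr ug gd tm dp
    hw P hP a b μ a0 b0 m0 hd hm' hb t tS ti hk => ?_⟩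
  have a1 : (0 : ℝ) < a := by exact_mod_cast a0
  have b1 : (0 : ℝ) < b := by exact_mod_cast b0
  have q1 : (1 : ℝ) ≤ q := by exact_mod_cast q0
  have o0 : 0 < ω := (mul_pos_iff_of_pos_right (by positivity)).1 (b1.trans_le hb)
  have w1 : q * ω ≤ W := (Nat.le_ceil _).trans (by exact_mod_cast hW)
  have w2 : ω ≤ W := by nlinarith
  obtain ⟨n, n0, hn⟩ := dp P hP (a / b) (a / b * μ) (by positivity) (by
    rw [show (W : ℝ) * (a / b * μ) = W * (a * μ) / b by ring, le_div_iff₀ b1, one_mul]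
    exact hb.trans (mul_le_mul_of_nonneg_right w2 (by positivity)))
    fun s hs s0 => mul_le_mul_of_nonneg_left (hm' s hs s0) (by positivity)
  obtain ⟨U, g, e0, ho⟩ := glf K F d ρ y u x hy P a ((b : ℤ) • n) a0
  obtain ⟨e, he⟩ := Int.eq_ofNat_of_zero_le e0.le
  have e1 : 0 < e := by omega
  have e2 : (0 : ℝ) < e := by exact_mod_cast e1
  rw [he] at ho
  have or : ∀ (φ : K) m, φ ≠ 0 → (U.ord (hm u φ m) : ℝ) =
      e * (P.ord φ + b / a * (m ⬝ᵥ n : ℤ)) := fun φ m h => by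
    have k := ho φ m h
    rw [dotProduct_smul, smul_eq_mul] at k
    have k' : (a : ℝ) * U.ord (hm u φ m) = e * (a * P.ord φ + b * (m ⬝ᵥ n : ℤ)) := by
      exact_mod_cast k
    field_simp
    linarith
  have dq : ∀ m, m ≠ 0 → c m ≠ 0 → W * μ ≤ P.ord (c m) + b / a * ((m ⬝ᵥ n : ℤ) : ℝ) :=
    fun m h h' => by
      have k := mul_le_mul_of_nonneg_left (hn m h h') (by positivity : (0 : ℝ) ≤ b / a)
      have e3 : (b : ℝ) / a * (a / b) = 1 := by field_simp
      calc W * μ = b / a * (a / b) * (W * μ) := by rw [e3, one_mul]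
        _ = b / a * (W * (a / b * μ)) := by ring
        _ ≤ _ := k
        _ = b / a * (a / b) * P.ord (c m) + b / a * ((m ⬝ᵥ n : ℤ) : ℝ) := by ring
        _ = _ := by rw [e3, one_mul]
  have hU : Cen S p U := (cen K F d ρ y u x hy c S₁ p₁ S p gd).1 U P g.lies hP fun m h h' => by
    have k := or _ m h'
    have : (0 : ℝ) < U.ord (hm u (c m) m) := by
      rw [k]
      exact mul_pos e2 ((mul_pos (o0.trans_le w2) m0).trans_le (dq m h h'))
    exact_mod_cast this
  have nu : ∃ i, U.ord (u i) ≠ 0 := by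
    obtain ⟨i, hi⟩ := Function.ne_iff.1 n0
    refine ⟨i, fun z => ?_⟩
    have k := ho 1 (Pi.single i 1) one_ne_zero
    rw [hm_single, z, single_dotProduct] at k
    simp only [Pl.ord_one, mul_zero, zero_add, one_mul, Pi.smul_apply, smul_eq_mul] at k
    exact mul_ne_zero (by omega) (mul_ne_zero (by omega) hi) k.symm
  obtain ⟨e₀, e3, dv, e4⟩ := dv_of (U := U) (G := G) a0 (Nat.mul_pos b0 e1) fun f f0 hf => by
    obtain ⟨k, hk⟩ := dvg K F d ρ y u x hy A G P U (a / (b * e)) ug g (fun φ m h hA => by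
      obtain ⟨k, hk⟩ := hd φ h hA
      have k' : (a : ℝ) * P.ord φ = b * k := by exact_mod_cast hk
      refine ⟨k + m ⬝ᵥ n, ?_⟩
      rw [or φ m h, Int.cast_add]
      field_simp
      linarith) f f0 hf
    refine ⟨k, ?_⟩
    have : (a : ℝ) * U.ord f = (b * e) * k := by
      rw [← hk]
      field_simp
    exact_mod_cast this
  have h1 := hw U hU nu e₀ e3 dv
  have e5 : (b : ℝ) * e ≤ a * e₀ := by exact_mod_cast e4
  have e6 : (0 : ℝ) < e₀ := by exact_mod_cast e3
  have l0 : lv u ψ ≠ 0 := fun z => tm.h0 (by rw [lv_inj x.ind z]; rfl)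
  obtain ⟨m, ms, -, hm2⟩ := ord_sum_ge ψ.support (fun m => hm u (ψ m) m) l0 U
  have hm3 : (U.ord (hm u (ψ m) m) : ℝ) ≤ U.ord (lv u ψ) := by exact_mod_cast hm2
  have s0 := Finsupp.mem_support_iff.1 ms
  have h2 : lw y u q ψ U ≤ e * (1 + kap y P - (P.ord (ψ m) + b / a * (m ⬝ᵥ n : ℤ)) / q) := by
    have k := div_le_div_of_nonneg_right hm3 (by positivity : (0 : ℝ) ≤ q)
    rw [or _ m s0] at k
    unfold lw
    rw [g.lt, he, Int.cast_natCast, mul_sub, ← mul_div_assoc]
    linarith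
  rcases eq_or_ne m 0 with rfl | z
  · rw [zero_dotProduct, Int.cast_zero, mul_zero, add_zero] at h2
    have k : e * (ε * b) ≤ e * (a * ld y q (ψ 0) P) := by
      have k1 := mul_le_mul_of_nonneg_left (h1.trans h2) a1.le
      have k2 := mul_le_mul_of_nonneg_left e5 ε0.le
      unfold ld
      linarith
    exact le_of_mul_le_mul_left k e2
  · obtain ⟨c0, hs⟩ := tm.sec m ms z
    have k := (secb d q K S₁ p₁ y t _ q0 aff nor pr hy tS ti (div_ne_zero s0 c0) hs P hP).trans hk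
    have k1 := dq m z c0
    have k2 : (P.ord (ψ m / c m) : ℝ) = P.ord (ψ m) - P.ord (c m) := by
      exact_mod_cast P.toPlace.ord_div s0 c0
    unfold ld at k
    rw [k2] at k
    have k3 : ω * μ ≤ W * μ / q := by
      rw [le_div_iff₀ (by positivity)]
      nlinarith
    have k4 := div_le_div_of_nonneg_right k1 (by positivity : (0 : ℝ) ≤ q)
    have k5 : 1 + kap y P - (P.ord (ψ m) + b / a * ((m ⬝ᵥ n : ℤ) : ℝ)) / q ≤ 0 := by
      rw [sub_div] at k
      rw [add_div] at k4 ⊢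
      linarith
    have := mul_nonpos_of_nonneg_of_nonpos e2.le k5
    nlinarith [mul_pos ε0 e6]

end Vale.Agent.P283R.Wd
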