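import Vale.Agent.P283R.Wd.Tt36
import Vale.Agent.P283R.Cx.St
import Vale.Agent.P283R.Bx.St

/-!
# P283R, block WD: from the small ring `S₁ ⊆ K` to the ring `S ⊆ F = K(u)`, the statements
-/

open Set

noncomputable section

namespace Vale.Agent.P283R.Wd

open Vale.Agent.P287D Cx

section defs

variable {K F : Type} [Field K] [Algebra ℂ K] [Field F] [Algebra ℂ F] [Algebra K F] {d ρ : ℕ}

/-- `S` is generated by `S₁` and the `c m * u ^ m`, which vanish at `p`; `p` lies over `p₁` -/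
structure Gd (u : Fin ρ → F) (c : (Fin ρ → ℤ) → K) (S₁ : Subalgebra ℂ K) (p₁ : Ideal S₁)
    (S : Subalgebra ℂ F) (p : Ideal S) : Prop where
  le : ∀ a ∈ S₁, algebraMap K F a ∈ S
  cm : ∀ (a : S₁) (b : S), algebraMap K F a = b → (a ∈ p₁ ↔ b ∈ p)
  th : ∀ m, m ≠ 0 → ∃ b ∈ p, (b : F) = hm u (c m) m
  gen : S ≤ Algebra.adjoin ℂ (algebraMap K F '' S₁ ∪ {x | ∃ m, m ≠ 0 ∧ x = hm u (c m) m})

/-- `G` fixes `u` and restricts onto `A` -/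
structure Ug (u : Fin ρ → F) (A : Subgroup (K ≃ₐ[ℂ] K)) (G : Subgroup (F ≃ₐ[ℂ] F)) : Prop where
  fin : Finite G
  fu : ∀ j, Fix G (u j)
  dn : ∀ σ ∈ G, ∃ τ ∈ A, ∀ a, σ (algebraMap K F a) = algebraMap K F (τ a)
  up : ∀ τ ∈ A, ∃ σ ∈ G, ∀ a, σ (algebraMap K F a) = algebraMap K F (τ a)

/-- deep integral lifts -/
def Dp (W : ℕ) (c : (Fin ρ → ℤ) → K) (S₁ : Subalgebra ℂ K) (p₁ : Ideal S₁) : Prop :=
  ∀ P, Cen S₁ p₁ P → ∀ l μ : ℝ, 0 < l → 1 ≤ W * μ →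
    (∀ s ∈ p₁, (s : K) ≠ 0 → μ ≤ l * P.ord (s : K)) → ∃ n : Fin ρ → ℤ, n ≠ 0 ∧
      ∀ m, m ≠ 0 → c m ≠ 0 → W * μ ≤ l * P.ord (c m) + (m ⬝ᵥ n : ℤ)

omit [Algebra ℂ F] [Algebra K F] [Field F] in
theorem Dp.mono {W W' : ℕ} {c : (Fin ρ → ℤ) → K} {S₁ : Subalgebra ℂ K} {p₁ : Ideal S₁}
    (h : Dp W c S₁ p₁) (le : W' ≤ W) : Dp W' c S₁ p₁ := fun P hP l μ l0 h1 h2 => by
  have m0 : 0 ≤ μ := by
    by_contra hn
    nlinarith [Nat.cast_nonneg (α := ℝ) W', not_le.1 hn]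
  have k := mul_le_mul_of_nonneg_right (Nat.cast_le (α := ℝ).2 le) m0
  exact (h P hP l μ l0 (h1.trans k) h2).imp fun n hn => ⟨hn.1, fun m a b => k.trans (hn.2 m a b)⟩

/-- the log discrepancy of the pair on `S` -/
def lw (y : Fin d → K) (u : Fin ρ → F) (q : ℕ) (ψ : (Fin ρ → ℤ) →₀ K) (U : Pl F) : ℝ :=
  lt y u U - (U.ord (lv u ψ) : ℝ) / q

/-- the terms of the pair -/
structure Tm (q : ℕ) (y : Fin d → K) (u : Fin ρ → F) (c : (Fin ρ → ℤ) → K)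
    (ψ : (Fin ρ → ℤ) →₀ K) (A : Subgroup (K ≃ₐ[ℂ] K)) (S₁ : Subalgebra ℂ K) (p₁ : Ideal S₁)
    (S : Subalgebra ℂ F) (p : Ideal S) : Prop where
  h0 : ψ 0 ≠ 0
  fx : ∀ m, Fix A (ψ m / ψ 0)
  sec : ∀ m ∈ ψ.support, m ≠ 0 → c m ≠ 0 ∧ ∀ R, PDat S₁ p₁ R → ld y q (ψ m / c m) R ≤ 1
  bd₁ : ∀ R, PDat S₁ p₁ R → ld y q (ψ 0) R ≤ 1
  bd : ∀ R, PDat S p R → lw y u q ψ R ≤ 1
  kl₁ : Bc.KL S₁ p₁ y
  kl : Bc.KL S p (zt y u)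

/-- the hypothesis (H) on `S` -/
def Hw (ε : ℝ) (G : Subgroup (F ≃ₐ[ℂ] F)) (S : Subalgebra ℂ F) (p : Ideal S) (y : Fin d → K)
    (u : Fin ρ → F) (q : ℕ) (ψ : (Fin ρ → ℤ) →₀ K) : Prop :=
  ∀ U, Cen S p U → (∃ i, U.ord (u i) ≠ 0) → ∀ e : ℕ, 0 < e → Dv G U e → ε * e ≤ lw y u q ψ U

/-- `U` is a Gauss place over `P` -/
structure Gq2 (y : Fin d → K) (u : Fin ρ → F) (P : Pl K) (U : Pl F) : Prop where
  lies : Lies (algebraMap K F) U P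
  lt : lt y u U = U.ord (algebraMap K F P.t) * (1 + kap y P)
  min : ∀ ψ : (Fin ρ → ℤ) →₀ K, ∀ m ∈ ψ.support, U.ord (lv u ψ) ≤ U.ord (hm u (ψ m) m)

end defs

/-- **GLF**: Gauss lifts with the weights `w / b` -/
def GLF : Prop := ForX fun K F _ _ _ _ _ _ ρ y u => ∀ (P : Pl K) (b : ℕ) (w : Fin ρ → ℤ), 0 < b →
  ∃ U, Gq2 y u P U ∧ 0 < U.ord (algebraMap K F P.t) ∧ ∀ (φ : K) m, φ ≠ 0 →
    b * U.ord (hm u φ m) = U.ord (algebraMap K F P.t) * (b * P.ord φ + m ⬝ᵥ w)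

/-- **CEN**: the centre of a lift, the centre of a restriction, closed points -/
def CEN : Prop := ForX fun K F _ _ _ _ _ _ _ _ u => ∀ c S₁ p₁ S p, Gd (K := K) u c S₁ p₁ S p →
  (∀ U P, Lies (algebraMap K F) U P → Cen S₁ p₁ P →
    (∀ m, m ≠ 0 → c m ≠ 0 → 0 < U.ord (hm u (c m) m)) → Cen S p U) ∧
  (∀ U P, Lies (algebraMap K F) U P → Cen S p U → Cen S₁ p₁ P) ∧
  ((∀ a : S₁, ∃ b : ℂ, a - algebraMap ℂ S₁ b ∈ p₁) → ∀ a : S, ∃ b : ℂ, a - algebraMap ℂ S b ∈ p) ∧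
  ∀ a : S, ∃ a₁ : S₁, ∃ b ∈ p, (a : F) = algebraMap K F a₁ + b

/-- **SECB**: sections at the places centred at `p` -/
def SECB : Prop := ∀ (d q : ℕ) (K : Type) [Field K] [Algebra ℂ K] (S : Subalgebra ℂ K)
  (p : Ideal S) (y t : Fin d → K) (γ : K), 0 < q → Aff d S → IsIntegrallyClosed S → p.IsPrime →
    Frm y → (∀ l, t l ∈ S) → AlgebraicIndependent ℂ t → γ ≠ 0 →
    (∀ R, PDat S p R → ld y q γ R ≤ 1) → ∀ P, Cen S p P → ld y q γ P ≤ 1 + kap t P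

/-- **DVG**: the orders of the invariant functions at a Gauss place -/
def DVG : Prop := ForX fun K _ _ _ _ _ _ _ _ y u => ∀ A G P U (e : ℝ), Ug (K := K) u A G →
  Gq2 y u P U → (∀ (φ : K) m, φ ≠ 0 → Fix A φ → ∃ n : ℤ, e * U.ord (hm u φ m) = n) →
    ∀ f, f ≠ 0 → Fix G f → ∃ n : ℤ, e * U.ord f = n

/-- **HYF**: the hypothesis (H) at the fat places of `S₁` -/
def HYF : Prop := ∀ (q : ℕ) (ω ε : ℝ), 0 < q → 0 < ε → ∃ W₀ : ℕ, ∀ W, W₀ ≤ W →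
  ForX fun K _ _ _ _ _ _ d _ y u => ∀ A G c ψ S₁ p₁ S p, Aff d S₁ → IsIntegrallyClosed S₁ →
    p₁.IsPrime → Ug (K := K) u A G → Gd u c S₁ p₁ S p → Tm q y u c ψ A S₁ p₁ S p →
    Dp W c S₁ p₁ → Hw ε G S p y u q ψ → Hyf ω ε A S₁ p₁ y q (ψ 0)

/-- **LTW**: closed points -/
def LTW : Prop := ∀ (d N q : ℕ) (ε : ℝ), 0 < d → 0 < q → 0 < ε → ∃ W : ℕ, Unif q fun n =>
  ∀ (ρ : ℕ) (K F : Type) [Field K] [Algebra ℂ K] [Field F] [Algebra ℂ F] [Algebra K F]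
    [IsScalarTower ℂ K F] (y : Fin d → K) (u : Fin ρ → F) (A : Subgroup (K ≃ₐ[ℂ] K))
    (G : Subgroup (F ≃ₐ[ℂ] F)) c ψ S₁ p₁ S p (z : Fin N → K), Ext K d u → Frm y →
    (∀ i, Fix A (y i)) → Tx.Pt d A S₁ p₁ z → Finite A → Eig A (ψ 0) → Aff (d + ρ) S →
    IsIntegrallyClosed S → Ug u A G → Gd u c S₁ p₁ S p → Tm q y u c ψ A S₁ p₁ S p →
    Dp W c S₁ p₁ → Hw ε G S p y u q ψ → ∀ v, Cen S p v → ∃ e : Fin N → ℕ,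
      Fix A ((∏ j, z j ^ e j) * ψ 0 ^ (n / q)) ∧
      (∑ j, (e j : ℝ) * v.ord (algebraMap K F (z j))) / n < lw y u q ψ v

/-- **WBP**: all points -/
def WBP : Prop := ∀ (d E q : ℕ) (ε : ℝ), 0 < q → 0 < ε → ∃ W J : ℕ, Unif q fun n =>
  ∀ (ρ : ℕ) (K F : Type) [Field K] [Algebra ℂ K] [Field F] [Algebra ℂ F] [Algebra K F]
    [IsScalarTower ℂ K F] (y : Fin d → K) (u : Fin ρ → F) (A : Subgroup (K ≃ₐ[ℂ] K))
    (G : Subgroup (F ≃ₐ[ℂ] F)) c ψ (S₁ : Subalgebra ℂ K) (p₁ q₁ : Ideal S₁) S p, Ext K d u → Frm y →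
    (∀ i, Fix A (y i)) → Aff d S₁ → IsIntegrallyClosed S₁ → p₁.IsPrime → p₁ ≠ ⊥ → q₁.IsMaximal →
    p₁ ≤ q₁ → Bx.Emd E S₁ q₁ → Finite A → Stab A S₁ → Eig A (ψ 0) →
    Aff (d + ρ) S → IsIntegrallyClosed S → Ug u A G → Gd u c S₁ p₁ S p →
    Tm q y u c ψ A S₁ p₁ S p → Dp W c S₁ p₁ → Hw ε G S p y u q ψ →
    ∃ B, Idx J A B S₁ p₁ ∧ ∀ v, Cen S p v → ∃ x ∈ Lo S₁ p₁, x ≠ 0 ∧ Fix B (x * ψ 0 ^ (n / q)) ∧
      (v.ord (algebraMap K F x) : ℝ) / n < lw y u q ψ v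

/-- **HYFR** -/
def HYFR : Prop := GLF → CEN → SECB → DVG → HYF

/-- **LTWR** -/
def LTWR : Prop := GLF → CEN → SECB → HYF → LTW

/-- **NCL** -/
def NCL : Prop := LTW → WBP

end Vale.Agent.P283R.Wd
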