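import Vale.Agent.P283R.Wd.Gq95
import Vale.Agent.P283R.Wd.S42

/-!
# P283R, block WD: the orders of the invariants at a Gauss lift
-/

open Set
open Vale.Agent.P297Z

noncomputable section

namespace Vale.Agent.P283R.Wd

open Vale.Agent.P287D Cx

variable {K F : Type} [Field K] [Algebra ℂ K] [Field F] [Algebra ℂ F] [Algebra K F] {d k a : ℕ}
  {y : Fin d → K} {u : Fin k → F} {P : Pl K} {U : Pl F}

variable (K) in
/-- the ring of the Laurent polynomials -/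
def Lau (u : Fin k → F) (u0 : ∀ i, u i ≠ 0) : Subring F where
  carrier := range (lv (K := K) u)
  zero_mem' := ⟨0, lv_zero u⟩
  one_mem' := ⟨Finsupp.single 0 1, (lv_single u _ _).trans (hm_one u)⟩
  add_mem' := by
    rintro _ _ ⟨a, rfl⟩ ⟨b, rfl⟩
    exact ⟨a + b, lv_add u a b⟩
  neg_mem' := by
    rintro _ ⟨a, rfl⟩
    exact ⟨-a, eq_neg_of_add_eq_zero_left (by rw [← lv_add, neg_add_cancel, lv_zero])⟩
  mul_mem' := by
    rintro _ _ ⟨a, rfl⟩ ⟨b, rfl⟩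
    induction b using Finsupp.induction_linear with
    | zero => exact ⟨0, by rw [lv_zero, mul_zero]⟩
    | add b c hb hc =>
      obtain ⟨x, hx⟩ := hb
      obtain ⟨z, hz⟩ := hc
      exact ⟨x + z, by rw [lv_add, lv_add, mul_add, hx, hz]⟩
    | single e φ =>
      obtain ⟨x, -, hx⟩ := lv_shift u0 a φ e
      exact ⟨x, by rw [hx, lv_single]⟩

omit [Algebra ℂ K] [Algebra ℂ F] in
theorem hm_lau (u0 : ∀ i, u i ≠ 0) (φ : K) (m : Fin k → ℤ) : hm u φ m ∈ Lau K u u0 :=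
  ⟨_, lv_single u m φ⟩

theorem frac_lau (x : Ext K d u) (f : F) : ∃ b ∈ Lau K u x.ind.ne_zero,
    ∃ c ∈ Lau K u x.ind.ne_zero, c ≠ 0 ∧ f = b / c := by
  have m : ∀ b ∈ Algebra.adjoin K (range u), b ∈ Lau K u x.ind.ne_zero := fun b hb => by
    induction hb using Algebra.adjoin_induction with
    | mem z hz =>
      obtain ⟨i, rfl⟩ := hz
      exact hm_single (K := K) u i ▸ hm_lau _ _ _
    | algebraMap c => exact hm_deg0 u c ▸ hm_lau _ _ _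
    | add _ _ _ _ a b => exact add_mem a b
    | mul _ _ _ _ a b => exact mul_mem a b
  obtain ⟨b, hb, c, hc, e⟩ := IntermediateField.mem_adjoin_iff_div.1
    (show f ∈ IntermediateField.adjoin K (range u) from x.gen ▸ trivial)
  by_cases c0 : c = 0
  · exact ⟨0, zero_mem _, 1, one_mem _, one_ne_zero, by simp [e, c0]⟩
  · exact ⟨b, m b hb, c, m c hc, c0, e⟩

/-- `σ` extends `τ` and fixes the variables -/
def Ex (u : Fin k → F) (τ : K ≃ₐ[ℂ] K) (σ : F ≃ₐ[ℂ] F) : Prop :=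
  (∀ i, σ (u i) = u i) ∧ ∀ φ, σ (algebraMap K F φ) = algebraMap K F (τ φ)

theorem Ex.hm {τ : K ≃ₐ[ℂ] K} {σ : F ≃ₐ[ℂ] F} (h : Ex u τ σ) (φ : K) (m : Fin k → ℤ) :
    σ (hm u φ m) = hm u (τ φ) m := by
  simp only [Cx.hm, To.mon, map_mul, map_prod, map_zpow₀, h.1, h.2]

theorem Ex.lv {τ : K ≃ₐ[ℂ] K} {σ : F ≃ₐ[ℂ] F} (h : Ex u τ σ) (ψ : (Fin k → ℤ) →₀ K) :
    σ (lv u ψ) = lv u (ψ.mapRange τ (map_zero τ)) := by
  rw [Cx.lv, Cx.lv, Finsupp.sum_mapRange_index (h := fun e φ => Cx.hm u φ e)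
    fun _ => hm_zero _ _, map_finsuppSum]
  simp only [h.hm]

theorem Ex.coeff (x : Ext K d u) {τ : K ≃ₐ[ℂ] K} {σ : F ≃ₐ[ℂ] F} (h : Ex u τ σ)
    {ψ : (Fin k → ℤ) →₀ K} (e : σ (Cx.lv u ψ) = Cx.lv u ψ) (m : Fin k → ℤ) : τ (ψ m) = ψ m := by
  have z := lv_inj x.ind (ψ := ψ.mapRange τ (map_zero τ) - ψ) (by
    have := lv_add u (ψ.mapRange τ (map_zero τ) - ψ) ψ
    rw [sub_add_cancel, ← h.lv, e] at this
    simpa using this)
  simpa [sub_eq_zero] using DFunLike.congr_fun z m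

/-- an invariant function is a quotient of invariant Laurent polynomials -/
theorem inv_frac (x : Ext K d u) {G : Subgroup (F ≃ₐ[ℂ] F)} [Finite G]
    (dn : ∀ σ ∈ G, ∃ τ : K ≃ₐ[ℂ] K, Ex u τ σ) {f : F} (hf : Fix G f) :
    ∃ ψ ψ' : (Fin k → ℤ) →₀ K, lv u ψ' ≠ 0 ∧ Fix G (lv u ψ) ∧ Fix G (lv u ψ') ∧
      f = lv u ψ / lv u ψ' := by
  classical
  have := Fintype.ofFinite G
  obtain ⟨b, hb, c, hc, c0, e⟩ := frac_lau x f
  have m : ∀ σ : G, σ.1 c ∈ Lau K u x.ind.ne_zero := fun σ => by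
    obtain ⟨τ, h⟩ := dn σ σ.2
    obtain ⟨ψ, rfl⟩ := hc
    exact ⟨_, (h.lv ψ).symm⟩
  have n0 : ∏ σ : G, σ.1 c ≠ 0 := Finset.prod_ne_zero_iff.2 fun σ _ => (map_ne_zero _).2 c0
  have nf : Fix G (∏ σ : G, σ.1 c) := fun ρ hρ => by
    rw [map_prod]
    exact Fintype.prod_equiv (Equiv.mulLeft (⟨ρ, hρ⟩ : G)) _ _ fun σ => rfl
  obtain ⟨ψ', h'⟩ := prod_mem fun σ (_ : σ ∈ Finset.univ) => m σ
  obtain ⟨ψ, h⟩ : f * ∏ σ : G, σ.1 c ∈ Lau K u x.ind.ne_zero := by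
    rw [← Finset.mul_prod_erase _ _ (Finset.mem_univ 1), e, ← mul_assoc]
    exact mul_mem (by simpa [c0] using hb) (prod_mem fun σ _ => m σ)
  exact ⟨ψ, ψ', h' ▸ n0, fun ρ hρ => by rw [h, map_mul, hf ρ hρ, nf ρ hρ], h' ▸ nf,
    by rw [h, h', mul_div_cancel_right₀ _ n0]⟩

/-- **DVG** -/
theorem dvg95 : DVG := by
  intro K F _ _ _ _ _ _ d k y u x _ A G P U e g h dv f f0 hf
  have := g.fin
  have k1 : ∀ ψ : (Fin k → ℤ) →₀ K, lv u ψ ≠ 0 → Fix G (lv u ψ) →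
      ∃ n : ℤ, e * U.ord (lv u ψ) = n := fun ψ z f => by
    obtain ⟨m, m1, -, c⟩ := ord_sum_ge ψ.support (fun m => hm u (ψ m) m) z U
    rw [le_antisymm (h.min ψ m m1) c]
    refine dv _ m (Finsupp.mem_support_iff.1 m1) fun τ hτ => ?_
    obtain ⟨σ, s1, s2⟩ := g.up τ hτ
    exact Ex.coeff x ⟨fun i => g.fu i σ s1, s2⟩ (f σ s1) m
  obtain ⟨ψ, ψ', p1, p2, p3, rfl⟩ := inv_frac x (fun σ hσ =>
    let ⟨τ, _, s⟩ := g.dn σ hσ
    ⟨τ, fun i => g.fu i σ hσ, s⟩) hf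
  have p0 : lv u ψ ≠ 0 := fun z => f0 (by rw [z, zero_div])
  obtain ⟨n, hn⟩ := k1 ψ p0 p2
  obtain ⟨n', hn'⟩ := k1 ψ' p1 p3
  exact ⟨n - n', by rw [Pl.ord_div _ p0 p1]; push_cast; rw [mul_sub, hn, hn']⟩

end Vale.Agent.P283R.Wd
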