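import Vale.Agent.P283R.Wd.Ltw42
import Vale.Agent.P283R.Wd.Hyf30
import Vale.Agent.P283R.Wd.Iv95
import Vale.Agent.P283R.Wd.Cen45
import Vale.Agent.P283R.Wd.Glf47

/-!
# P283R, block WD: closed points, the assembly
-/

namespace Vale.Agent.P283R.Wd

theorem hyf : HYF := hyfr30 glf cen45 secb45 dvg95

theorem ltw : LTW := ltwr glf cen45 secb45 hyf

end Vale.Agent.P283R.Wd
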