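import Vale.Agent.P283R.Wd.Gfx12
import Vale.Agent.P283R.Cx.Lar
import Vale.Agent.P283R.To.Gs2

/-!
# P283R, block WD: `K` is algebraically closed in `K(u)`; change of the frame
-/

set_option linter.all false

open Set
open Vale.Agent.P285N.Brep (jac Fr)

noncomputable section

namespace Vale.Agent.P283R.Wd.N12

open Vale.Agent.P287D Cx

variable {K F : Type} [Field K] [Algebra ℂ K] [Field F] [Algebra ℂ F] [Algebra K F]
  [IsScalarTower ℂ K F] {d r k : ℕ} {u : Fin k → F}

theorem acl0 (x : Ext K d u) {a : F} (ha : IsAlgebraic K a) : a ∈ range (algebraMap K F) := by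
  have key : ∀ a : F, IsAlgebraic K a → ∃ P : MvPolynomial (Fin k) K,
      MvPolynomial.aeval u P = a := fun a ha => by
    let e := x.ind.aevalEquivField
    let b := e.symm ⟨a, x.gen ▸ IntermediateField.mem_top⟩
    have h1 : IsIntegral K b := by
      refine IsIntegral.map e.symm.toAlgHom ?_
      exact (IntermediateField.isIntegral_iff).2 ha.isIntegral
    obtain ⟨P, hP⟩ := IsIntegrallyClosed.algebraMap_eq_of_integral
      (h1.tower_top (A := MvPolynomial (Fin k) K))
    refine ⟨P, ?_⟩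
    rw [← x.ind.aevalEquivField_algebraMap_apply_coe, hP]
    exact congrArg Subtype.val (e.apply_symm_apply _)
  by_cases a0 : a = 0
  · exact ⟨0, by rw [map_zero, a0]⟩
  obtain ⟨P, hP⟩ := key a ha
  obtain ⟨Q, hQ⟩ := key _ ha.inv
  have e : P * Q = 1 := (algebraicIndependent_iff_injective_aeval.1 x.ind) (by
    rw [map_mul, hP, hQ, map_one, mul_inv_cancel₀ a0])
  obtain ⟨c, -, rfl⟩ := MvPolynomial.isUnit_iff_eq_C_of_isReduced.1 (IsUnit.of_mul_eq_one Q e)
  exact ⟨c, by simpa using hP⟩

/-- the base upstairs is the base downstairs -/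
theorem acl (x : Ext K d u) (t : Fin r → K) {a : F}
    (ha : a ∈ cl (IntermediateField.adjoin ℂ (range fun i => algebraMap K F (t i)))) :
    ∃ b ∈ cl (IntermediateField.adjoin ℂ (range t)), algebraMap K F b = a := by
  let E0 := IntermediateField.adjoin ℂ (range t)
  let E := IntermediateField.adjoin ℂ (range fun i => algebraMap K F (t i))
  have m : ∀ b : E0, algebraMap K F b ∈ E := fun b => (adj_map (F := F) t).le ⟨b, b.2, rfl⟩
  let e : E0 →+* E := ((algebraMap K F).comp (algebraMap _ K)).codRestrict _ m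
  have es : Function.Surjective e := fun b => by
    obtain ⟨a, ha, e⟩ : (b : F) ∈ E0.map (IsScalarTower.toAlgHom ℂ K F) :=
      (adj_map (F := F) t).ge b.2
    exact ⟨⟨a, ha⟩, Subtype.ext e⟩
  obtain ⟨q, q0, hq⟩ := mem_cl.1 ha
  obtain ⟨q, rfl⟩ := Polynomial.map_surjective e es q
  have q1 : q ≠ 0 := fun z => q0 (by rw [z, Polynomial.map_zero])
  rw [Polynomial.aeval_def, Polynomial.eval₂_map] at hq
  obtain ⟨b, rfl⟩ := acl0 x (a := a) ⟨q.map (algebraMap E0 K), Polynomial.map_ne_zero q1, by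
    rw [Polynomial.aeval_def, Polynomial.eval₂_map]; exact hq⟩
  refine ⟨b, mem_cl.2 ⟨q, q1, (algebraMap K F).injective ?_⟩, rfl⟩
  rw [map_zero, Polynomial.aeval_def, Polynomial.hom_eval₂]
  exact hq

/-- change of the frame of `K` -/
theorem kzt (x : Ext K d u) {y z : Fin d → K} {D : Fin d → Derivation ℂ K K} (hz : Fr z D)
    (hy : Frm y) (U : Pl F) :
    kap (zt y u) U = kap (zt z u) U + U.ord (algebraMap K F (jac D y)) := by
  obtain ⟨E, hE⟩ := zt_frm x ⟨D, hz⟩
  obtain ⟨E', hE'⟩ := zt_frm x hy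
  have ch := Cb.dt_chain (φ := algebraMap K F) (d := fun i => E (finSumFinEquiv.symm.symm i))
    (fun i => Cb.dr_of _) (fun i c => by
      rw [← IsScalarTower.algebraMap_apply, Derivation.map_algebraMap]) hz y u
  have fm : ∀ y : Fin d → K, (fun i => Sum.elim (fun j => algebraMap K F (y j)) u
      (finSumFinEquiv.symm i)) = zt y u := fun y => funext fun i => by
    refine Fin.addCases (fun i => ?_) (fun i => ?_) i <;> simp [zt]
  rw [To.jac_dt, To.jac_dt, fm, fm, Cb.jac_self hE, one_mul] at ch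
  rw [Cb.kap_chg hE (Cb.jac_ne hE' hE), Pi.add_apply, dv_apply, ch]

end Vale.Agent.P283R.Wd.N12
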