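import Vale.Agent.P283R.Be2.Ltp
import Vale.Agent.P283R.Be2.Lo
import Vale.Agent.P287D.Pb.Res

/-!
# P283R, block WD: from the region downstairs to all places upstairs
-/

open Set
open Vale.Agent.P297Z

noncomputable section

namespace Vale.Agent.P283R.Wd

open Vale.Agent.P287D Vale.Agent.P287D.Cb Tx Be2 Bc

variable {F F₁ : Type} [Field F] [Algebra ℂ F] [Field F₁] [Algebra ℂ F₁] {n d N : ℕ}
  {S : Subalgebra ℂ F} {p : Ideal S} {S₁ : Subalgebra ℂ F₁} {p₁ : Ideal S₁}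

/-- the centre of the restriction -/
theorem cen_res {ι : F₁ →ₐ[ℂ] F} (m : ∀ a : S₁, ι a ∈ S) (c : ∀ a, a ∈ p₁ ↔ (⟨_, m a⟩ : S) ∈ p)
    {R : Pl F} {R₁ : Pl F₁} (h : Cen S p R) (l : Lies ι.toRingHom R R₁) : Cen S₁ p₁ R₁ :=
  fun a => by
    have r : (a : F₁) ∈ R₁.ring := (l a).2 (h ⟨_, m a⟩).1
    refine ⟨r, (c a).trans ((Hr.cen_iff h _).trans ?_)⟩
    rw [Bm.rd_zero_iff R₁ r]
    exact or_congr (map_eq_zero ι) (l.ord_pos_iff a)

theorem lcu (ι : F₁ →ₐ[ℂ] F) (hF : FF F₁ d) (aff : Aff (n + 1) S) (nor : IsIntegrallyClosed S)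
    (res : ∀ a : S, ∃ c : ℂ, a - algebraMap ℂ S c ∈ p) {y : Fin (n + 1) → F} (hy : Frm y)
    {q m k : ℕ} {h : F} (kl : KL S p y) (bd : ∀ R, PDat S p R → ld y q h R ≤ 1)
    (mS : ∀ a : S₁, ι a ∈ S) (mp : ∀ a, a ∈ p₁ ↔ (⟨_, mS a⟩ : S) ∈ p) (d0 : 0 < d)
    {t : Fin d → F₁} {w g f h₁ : F₁} {y₁ : Fin d → F₁} {z : Fin N → F₁} (t0 : ∀ l, t l ≠ 0)
    (tp : ∀ l, ∃ s ∈ p₁, (s : F₁) = t l) (wp : ∃ s ∈ p₁, (s : F₁) = w) (z0 : ∀ j, z j ≠ 0)
    (zS : ∀ j, z j ∈ S₁) {C : Finset (Fin N → ℕ)} {c₀ : ℝ} (hc : 0 < c₀)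
    (ha : OutA q m k c₀ C S₁ p₁ z y₁ h₁ t w g f) {I : Type} [Finite I] (a b : I → F)
    (dom : ∀ R R₁, Cen S p R → Lies ι.toRingHom R R₁ →
      (∀ i, a i ≠ 0 → R.ord (b i) < R.ord (a i)) →
      R.ord (ι R₁.t) * ld y₁ q h₁ R₁ ≤ ld y q h R)
    {E₁ : Pl F₁} {μ : ℝ} (mu : Mu t w E₁ μ) (b1 : (E₁.ord g : ℝ) < k * μ)
    (b2 : (E₁.ord f : ℝ) < k * μ) (b3 : ∃ c ∈ C, om z E₁ c / m < k * μ)
    (b4 : ∀ c ∈ C, ld y₁ q h₁ E₁ ≤ om z E₁ c / m + c₀ * μ) {E : Pl F} (hE : Cen S p E)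
    (lE : Lies ι.toRingHom E E₁) (eE : ld y q h E ≤ E.ord (ι E₁.t) * ld y₁ q h₁ E₁)
    (rE : ∀ i, a i ≠ 0 → E.ord (b i) < E.ord (a i)) {v : Pl F} (hv : Cen S p v) :
    ∃ c ∈ C, (v.ord (ι (∏ j, z j ^ c j)) : ℝ) / m < ld y q h v := by
  classical
  obtain ⟨c₁, hc₁, b3⟩ := b3
  let V : Finset F := insert (ι w) (Finset.univ.image fun l => ι (t l))
  let U : Finset F := C.image fun c => ι (∏ j, z j ^ c j)
  have or : ∀ {R : Pl F} {R₁ : Pl F₁}, Lies ι.toRingHom R R₁ → ∀ x,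
      (R.ord (ι x) : ℝ) = R.ord (ι R₁.t) * R₁.ord x := fun l x => by exact_mod_cast l.ord x
  have ep : ∀ {R : Pl F} {R₁ : Pl F₁}, Lies ι.toRingHom R R₁ → (0 : ℝ) < R.ord (ι R₁.t) :=
    fun l => by exact_mod_cast l.e_pos
  have i0 : ∀ {x : F₁}, x ≠ 0 → ι x ≠ 0 := fun h => (map_ne_zero ι).2 h
  have tV : ∀ l, ι (t l) ∈ V := fun l =>
    Finset.mem_insert_of_mem (Finset.mem_image_of_mem _ (Finset.mem_univ l))
  have V0 : Nz V := ⟨_, tV ⟨0, d0⟩, i0 (t0 _)⟩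
  have Vp : ∀ x ∈ V, ∃ s ∈ p, (s : F) = x := fun x hx => by
    rcases Finset.mem_insert.1 hx with rfl | hx
    · obtain ⟨s, hs, rfl⟩ := wp
      exact ⟨_, (mp s).1 hs, rfl⟩
    · obtain ⟨l, -, rfl⟩ := Finset.mem_image.1 hx
      obtain ⟨s, hs, e⟩ := tp l
      exact ⟨_, (mp s).1 hs, congrArg ι e⟩
  have m0 : ∀ c : Fin N → ℕ, ∏ j, z j ^ c j ≠ 0 := fun c =>
    Finset.prod_ne_zero_iff.2 fun j _ => pow_ne_zero _ (z0 j)
  have U0 : Nz U := ⟨_, Finset.mem_image_of_mem _ hc₁, i0 (m0 c₁)⟩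
  have U1 : ∀ P : Pl F, ∀ c ∈ C, -mx U P ≤ P.ord (ι (∏ j, z j ^ c j)) := fun P c a =>
    Lc.mx_le (Finset.mem_image_of_mem _ a) (i0 (m0 c)) P
  have U2 : ∀ P : Pl F, ∃ c ∈ C, -mx U P = P.ord (ι (∏ j, z j ^ c j)) := fun P => by
    obtain ⟨x, hx, -, e⟩ := Lc.exists_mx U0 P
    obtain ⟨c, a, rfl⟩ := Finset.mem_image.1 hx
    exact ⟨c, a, e⟩
  have e0 := ep lE
  have mE : E.ord (ι E₁.t) * μ ≤ -mx V E := by
    obtain ⟨x, hx, x0, e⟩ := Lc.exists_mx V0 E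
    rw [e]
    rcases Finset.mem_insert.1 hx with rfl | hx
    · rw [or lE w]
      exact mul_le_mul_of_nonneg_left (mu.2.2 fun c => x0 (by simp [c])) e0.le
    · obtain ⟨l, -, rfl⟩ := Finset.mem_image.1 hx
      rw [or lE (t l)]
      exact mul_le_mul_of_nonneg_left (mu.2.1 l) e0.le
  have kE := mul_le_mul_of_nonneg_left mE (Nat.cast_nonneg (α := ℝ) k)
  have mi : (0 : ℝ) ≤ (m : ℝ)⁻¹ := by positivity
  have h1 : (1 : S) ∉ p := fun k => by simpa using (Hr.cen_iff hE 1).1 k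
  have lo : ∀ x : F, (∃ s : S, (s : F) = x) → ∀ R, PDat S p R → x ∈ R.ring := by
    rintro x ⟨s, rfl⟩ R r
    exact Lc.pd_lo r ⟨s, 1, h1, by simp⟩
  have ap : ∀ P, ((m : ℝ)⁻¹ • -mx U + c₀ • -mx V) P = (m : ℝ)⁻¹ * -mx U P + c₀ * -mx V P :=
    fun P => rfl
  have a1 : ∀ (x : F) P, ((k : ℝ) • -mx V - dv x) P = k * -mx V P - P.ord x := fun _ _ => rfl
  have a2 : ∀ P, ((k : ℝ) • -mx V - (m : ℝ)⁻¹ • -mx U) P = k * -mx V P - (m : ℝ)⁻¹ * -mx U P :=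
    fun _ => rfl
  have a3 : ∀ (x x' : F) P, (dv x - dv x') P = (P.ord x : ℝ) - P.ord x' := fun _ _ _ => rfl
  have cV : (k : ℝ) • -mx V ∈ Car F := Submodule.smul_mem _ _ (neg_mem (mx_mem_Car _))
  have key := Bc.lc_kl kaw aff nor res hy kl bd (M := (m : ℝ)⁻¹ • -mx U + c₀ • -mx V)
    (T := {(k : ℝ) • -mx V - dv (ι g), (k : ℝ) • -mx V - dv (ι f),
      (k : ℝ) • -mx V - (m : ℝ)⁻¹ • -mx U} ∪ (fun i => dv (a i) - dv (b i)) '' {i | a i ≠ 0})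
    (by simpa [add_comm] using ((nef_mx U).smul mi).add ((nef_mx V).smul hc.le))
    (fun R r => by
      rw [ap]
      refine add_nonneg (mul_nonneg mi (Lc.mx_nn U0 fun u hu => ?_))
        (mul_nonneg hc.le (Lc.mx_nn V0 fun u hu => lo u ((Vp u hu).imp fun _ a => a.2) R r))
      obtain ⟨c, -, rfl⟩ := Finset.mem_image.1 hu
      exact lo _ ⟨⟨_, mS ⟨∏ j, z j ^ c j, prod_mem fun j _ => pow_mem (zS j) _⟩⟩, rfl⟩ R r)
    ((toFinite _).union ((toFinite _).image _)) (by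
      rintro β ((rfl | rfl | rfl) | ⟨i, -, rfl⟩)
      · exact sub_mem cV (dv_mem_Car _)
      · exact sub_mem cV (dv_mem_Car _)
      · exact sub_mem cV (Submodule.smul_mem _ _ (neg_mem (mx_mem_Car _)))
      · exact sub_mem (dv_mem_Car _) (dv_mem_Car _)) hE (by
      rintro β ((rfl | rfl | rfl) | ⟨i, hi, rfl⟩)
      · have := mul_lt_mul_of_pos_left b1 e0
        rw [a1, or lE g]; linarith
      · have := mul_lt_mul_of_pos_left b2 e0
        rw [a1, or lE f]; linarith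
      · have c1 := mul_le_mul_of_nonneg_left (U1 E c₁ hc₁) mi
        have := mul_lt_mul_of_pos_left b3 e0
        rw [or lE (∏ j, z j ^ c₁ j), ord_om z0] at c1
        rw [div_eq_inv_mul] at this
        rw [a2]; linarith
      · have : (E.ord (b i) : ℝ) < E.ord (a i) := by exact_mod_cast rE i hi
        exact (sub_pos.2 this).trans_eq (a3 _ _ _).symm) (by
      obtain ⟨c, a, e⟩ := U2 E
      have c1 := mul_le_mul_of_nonneg_left (b4 c a) e0.le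
      have := mul_le_mul_of_nonneg_left mE hc.le
      rw [div_eq_inv_mul] at c1
      rw [ap, e, or lE (∏ j, z j ^ c j), ord_om z0]; linarith) (fun R r s => by
      have q1 := s _ (.inl (.inl rfl))
      have q2 := s _ (.inl (.inr (.inl rfl)))
      have q3 := s _ (.inl (.inr (.inr rfl)))
      have mR := Lc.mx_pos V0 Vp r
      obtain ⟨R₁, l⟩ := (pb_lies d (n + 1) F₁ F ι.toRingHom hF aff.ff ι.commutes R).resolve_left
        fun c => by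
          have c1 := Lc.mx_le (tV ⟨0, d0⟩) (i0 (t0 _)) R
          have c2 := Pl.ord_nonneg_of_mem _ (c (t ⟨0, d0⟩)⁻¹)
          rw [map_inv₀, Pl.ord_inv] at c2
          have c3 : (R.ord (ι (t ⟨0, d0⟩)) : ℝ) ≤ 0 := by exact_mod_cast neg_nonneg.1 c2
          linarith
      have e1 := ep l
      have k1 := dom R R₁ r l fun i hi => by
        have := (s _ (.inr ⟨i, hi, rfl⟩)).trans_eq (a3 (a i) (b i) R)
        exact_mod_cast sub_pos.1 this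
      rw [a1, or l g] at q1
      rw [a1, or l f] at q2
      rw [a2] at q3
      have k2 := ha R₁ (-mx V R / R.ord (ι R₁.t)) ((m : ℝ)⁻¹ * -mx U R / R.ord (ι R₁.t))
        (cen_res mS mp r l) ⟨div_pos mR e1, fun j => by
          rw [div_le_iff₀' e1, ← or l]
          exact Lc.mx_le (tV j) (i0 (t0 j)) R, fun w0 => by
          rw [div_le_iff₀' e1, ← or l]
          exact Lc.mx_le (Finset.mem_insert_self _ _) (i0 w0) R⟩
        (by rw [← mul_div_assoc, le_div_iff₀' e1]; linarith)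
        (by rw [← mul_div_assoc, le_div_iff₀' e1]; linarith)
        (by rw [← mul_div_assoc]; exact div_le_div_of_nonneg_right (by linarith) e1.le)
        fun c s => by
          have := mul_le_mul_of_nonneg_left (U1 R c s) mi
          rw [or l (∏ j, z j ^ c j), ord_om z0] at this
          rw [div_le_iff₀' e1, div_eq_inv_mul]
          linarith
      rw [← mul_div_assoc, ← add_div, div_le_iff₀' e1] at k2
      rw [ap]
      linarith) hv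
  obtain ⟨c, s, e⟩ := U2 v
  have := mul_pos hc (Lc.mx_pos V0 Vp hv)
  rw [ap, e, ← div_eq_inv_mul] at key
  exact ⟨c, s, by linarith⟩

end Vale.Agent.P283R.Wd
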