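import Vale.Agent.P283R.Wd.S42
import Vale.Agent.P283R.Wd.Lcu45
import Vale.Agent.P283R.Cx.Bas
import Vale.Agent.P283R.Cx.Gp
import Vale.Agent.P283R.Tp.Ram

/-!
# P283R, block WD: closed points
-/

open Set
open Vale.Agent.P297Z
open Vale.Agent.P285N.Brep (jac Fr)

noncomputable section

namespace Vale.Agent.P283R.Wd

open Vale.Agent.P287D Vale.Agent.P287D.Cb Cx Be2

namespace L42

variable {K F : Type} [Field K] [Algebra ℂ K] [Field F] [Algebra ℂ F] [Algebra K F] {d ρ q : ℕ}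
  {y : Fin d → K} {u : Fin ρ → F} {ψ : (Fin ρ → ℤ) →₀ K}

omit [Algebra ℂ K] in
theorem ld_lw (ht : ∀ i, u i ≠ 0) (g0 : lv u ψ ≠ 0) (q0 : 0 < q) (U : Pl F) :
    ld (zt y u) q (lv u ψ * (∏ i, u i) ^ q) U = lw y u q ψ U := by
  have q' : (q : ℝ) ≠ 0 := Nat.cast_ne_zero.2 q0.ne'
  have e := To.ord_mon U ht (fun _ => 1)
  simp only [To.mon, zpow_one, one_mul] at e
  rw [ld, lw, lt, Pl.ord_mul _ g0 (pow_ne_zero _ (Finset.prod_ne_zero_iff.2 fun i _ => ht i)),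
    Pl.ord_pow, e]
  push_cast
  field_simp
  ring

omit [Algebra ℂ K] in
theorem ord_lv (U : Pl F) (h0 : ψ 0 ≠ 0) (h : ∀ m ∈ ψ.support, m ≠ 0 → hm u (ψ m) m ≠ 0 →
    U.ord (algebraMap K F (ψ 0)) < U.ord (hm u (ψ m) m)) :
    U.ord (lv u ψ) = U.ord (algebraMap K F (ψ 0)) := by
  classical
  rw [lv, Finsupp.sum, ← Finset.add_sum_erase _ _ (Finsupp.mem_support_iff.2 h0), hm_deg0]
  have m : ∑ m ∈ ψ.support.erase 0, hm u (ψ m) m ∈ U.sub (-(U.ord (algebraMap K F (ψ 0)) + 1)) :=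
    sum_mem fun x hx => or_iff_not_imp_left.2 fun x0 => by
      have : (U.ord (algebraMap K F (ψ 0)) : ℝ) + 1 ≤ U.ord (hm u (ψ x) x) := by
        exact_mod_cast h x (Finset.mem_of_mem_erase hx) (Finset.ne_of_mem_erase hx) x0
      linarith
  by_cases z : ∑ m ∈ ψ.support.erase 0, hm u (ψ m) m = 0
  · rw [z, add_zero]
  · have k := m.resolve_left z
    exact Pl.ord_add_eq_of_lt _ ((map_ne_zero _).2 h0) z (by exact_mod_cast (by linarith :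
      (U.ord (algebraMap K F (ψ 0)) : ℝ) < U.ord (∑ m ∈ ψ.support.erase 0, hm u (ψ m) m)))

end L42

open L42

/-- **LTWR** -/
theorem ltwr : LTWR := by
  intro glf cen secb hyf d N q ε d0 q0 e0
  obtain ⟨ω, K₀, n₀, n0, T⟩ := ttf d N q ε d0 q0 e0
  obtain ⟨W₀, H⟩ := hyf q ω ε q0 e0
  refine ⟨W₀ + K₀ + 1, n₀, n0, fun n hn dn dq ρ K F _ _ _ _ _ _ y u A G c ψ S₁ p₁ S p z x fy fx pt
    fA eh aff nor ug gd tm dp hw v hv => ?_⟩
  obtain ⟨D, t, w, g, C, c₀, k, fr, ti, tp, wp, -, c0, kK, red, fC, oa, E₁, μ, cE, mu, b1, b2, b3,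
    b4⟩ := T n hn dn dq K A S₁ p₁ z y (ψ 0) ⟨pt, fy, fx, tm.h0, eh, tm.bd₁, tm.kl₁⟩ fA
      (H _ (by omega) K F d ρ y u x fy A G c ψ S₁ p₁ S p pt.aff pt.nor pt.pri ug gd tm dp hw)
  obtain ⟨c1, -, c3, -⟩ := cen K F d ρ y u x fy c S₁ p₁ S p gd
  have ht := x.ind.ne_zero
  have q' : (0 : ℝ) < q := Nat.cast_pos.2 q0
  have g0 : lv u ψ ≠ 0 := fun z => tm.h0 (by rw [lv_inj x.ind z]; rfl)
  have j0 : jac D t ≠ 0 := (jac_ne_iff fr t).2 ti
  have W1 : (k : ℝ) + 1 ≤ (W₀ + K₀ + 1 : ℕ) := by exact_mod_cast (by omega : k + 1 ≤ W₀ + K₀ + 1)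
  have k0 : (0 : ℝ) ≤ k := Nat.cast_nonneg k
  have m1 := le_max_right μ 1
  have m2 := le_max_left μ 1
  obtain ⟨ν, -, hν⟩ := dp E₁ cE 1 (max μ 1) one_pos (by nlinarith) fun s hs s0 => by
    rw [one_mul]
    refine max_le ?_ (by exact_mod_cast ((Hr.cen_iff cE s).1 hs).resolve_left s0)
    obtain ⟨l, hl⟩ := red E₁ cE s hs s0
    exact (mu.2.1 l).trans (Int.cast_le.2 hl)
  obtain ⟨E, gq, eE, oE⟩ := glf K F d ρ y u x fy E₁ 1 ν one_pos
  simp only [Nat.cast_one, one_mul] at oE hν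
  have cU : Cen S p E := c1 E E₁ gq.lies cE fun m m0 c0 => by
    rw [oE _ _ c0]
    have := hν m m0 c0
    exact mul_pos eE (by exact_mod_cast (by nlinarith : (0 : ℝ) < E₁.ord (c m) + (m ⬝ᵥ ν : ℤ)))
  have dm : ∀ m ∈ ψ.support, m ≠ 0 → E.ord (algebraMap K F (ψ 0)) < E.ord (hm u (ψ m) m) :=
    fun m hm' m0 => by
      have p0 := Finsupp.mem_support_iff.1 hm'
      obtain ⟨c0, sc⟩ := tm.sec m hm' m0
      have s := secb d q K S₁ p₁ y t _ q0 pt.aff pt.nor pt.pri fy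
        (fun l => let ⟨s, _, e⟩ := tp l; e ▸ s.2) ti (div_ne_zero p0 c0) sc E₁ cE
      rw [kap_chg fr j0, Pi.add_apply, dv_apply, ld, Pl.ord_div _ p0 c0] at s
      rw [Pl.ord_mul _ (pow_ne_zero _ j0) tm.h0, Pl.ord_pow] at b2
      rw [oE _ _ p0, gq.lies.ord (ψ 0)]
      refine mul_lt_mul_of_pos_left ?_ eE
      have := hν m m0 c0
      have s' : -(q * (E₁.ord (jac D t) : ℝ)) ≤ ((E₁.ord (ψ m) - E₁.ord (c m) : ℤ) : ℝ) := by
        rw [← mul_neg, mul_comm, ← le_div_iff₀ q']; linarith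
      push_cast at s' b2
      exact_mod_cast (by nlinarith : (E₁.ord (ψ 0) : ℝ) < E₁.ord (ψ m) + (m ⬝ᵥ ν : ℤ))
  have key : ∀ (M : ℕ) (Y : Fin M → F) (h : F), 0 < M → Aff M S → Frm Y → Bc.KL S p Y →
      (∀ U, ld Y q h U = lw y u q ψ U) → ∃ e ∈ C,
        (v.ord (algebraMap K F (∏ j, z j ^ e j)) : ℝ) / n < lw y u q ψ v := by
    rintro (_ | M) Y h M0 af fY kl eq
    · omega
    rw [← eq]
    have : Finite {m // m ∈ ψ.support ∧ m ≠ 0} :=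
      (ψ.support.finite_toSet.subset fun _ h => h.1).to_subtype
    refine lcu (IsScalarTower.toAlgHom ℂ K F) x.ff af nor (c3 pt.res) fY kl
      (fun R r => (eq R).trans_le (tm.bd R r)) (fun a => gd.le a a.2) (fun a => gd.cm a _ rfl) d0
      ti.ne_zero tp wp pt.ne (fun j => let ⟨s, _, e⟩ := pt.mem j; e ▸ s.2) c0 oa
      (I := {m // m ∈ ψ.support ∧ m ≠ 0}) (fun m => hm u (ψ m) m) (fun _ => algebraMap K F (ψ 0))
      (fun R R₁ _ l dom => ?_) mu b1 b2 b3 b4 cU gq.lies ?_ (fun m _ => dm m m.2.1 m.2.2) hv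
    · have l' : Lies (algebraMap K F) R R₁ := l
      have k1 : _ ≤ lt y u R := Gp.lg_ver x.ff x.ff' fy.ind x.ind l'
      rw [eq, lw, ord_lv R tm.h0 fun m a b => dom ⟨m, a, b⟩, l'.ord (ψ 0), ld]
      change (R.ord (algebraMap K F R₁.t) : ℝ) * _ ≤ _
      push_cast
      rw [mul_sub, mul_div_assoc]
      linarith
    · rw [eq, lw, ord_lv E tm.h0 fun m a b _ => dm m a b, gq.lies.ord (ψ 0), ld, gq.lt]
      change _ ≤ (E.ord (algebraMap K F E₁.t) : ℝ) * _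
      push_cast
      rw [mul_sub, mul_div_assoc]
  obtain ⟨e, he, lt⟩ := key _ (zt y u) _ (by omega) aff (fr_of x.ff' (Gp.fm_ind fy.ind x.ind))
    tm.kl (ld_lw ht g0 q0)
  refine ⟨e, mul_comm _ (ψ 0 ^ (n / q)) ▸ fC e he, ?_⟩
  rw [map_prod] at lt
  simp only [map_pow] at lt
  rwa [Bc.ord_om (z := fun j => algebraMap K F (z j)) fun j => (map_ne_zero _).2 (pt.ne j)] at lt

end Vale.Agent.P283R.Wd
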