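import Vale.Agent.P283R.Wd.St
import Vale.Agent.P283R.Wd.Ltw42
import Vale.Agent.P283R.Bh.Ver
import Vale.Agent.P283R.Cy.Mkf

/-!
# P283R, block WD: the theorem for the finite groups in the wide case
-/

open Set

noncomputable section

namespace Vale.Agent.P283R.Wd

open Vale.Agent.P287D Vale.Agent.P283M Vale.Agent.P297Z Cx Cy
open Vale.Agent.P283R.To (mon mon_ne)

namespace B62

variable {K F : Type} [Field K] [Algebra ℂ K] [Field F] [Algebra ℂ F] [Algebra K F] {k : ℕ}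

omit [Algebra ℂ K] in
theorem eig_hm {t : Fin k → F} {r : ℕ} {A : Subgroup (F ≃ₐ[ℂ] F)}
    (hA : (A : Set _) = Gr K t r) (φ : K) (e : Fin k → ℤ) : Eig A (hm t φ e) := fun σ hσ => by
  obtain ⟨h1, h2⟩ : σ ∈ Gr K t r := hA ▸ hσ
  choose c c1 c2 using h2
  refine ⟨∏ i, c i ^ e i, ?_⟩
  rw [hm, map_mul, h1, mon, map_prod, Algebra.smul_def, mul_left_comm, map_prod,
    ← Finset.prod_mul_distrib]
  congr 1
  exact Finset.prod_congr rfl fun i _ => by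
    rw [map_zpow₀, c2, Algebra.smul_def, mul_zpow, map_zpow₀]

omit [Algebra ℂ K] in
theorem ord_tw {ρ : ℕ} {t : Fin k → F} (ht : ∀ i, t i ≠ 0) {u : Fin ρ → K} (hu : ∀ i, u i ≠ 0)
    {η g : K} (η0 : η ≠ 0) (g0 : g ≠ 0) (e : Fin k → ℤ) (q r : ℕ) (V : Pl F) :
    (V.ord (hm t (η ^ q * g) (e + fun _ => (r : ℤ) * q)) : ℝ) +
        q * ∑ i, (V.ord (algebraMap K F (u i)) : ℝ) =
      V.ord (hm t ((η * mon u 1) ^ q * g) e) + r * q * ∑ i, (V.ord (t i) : ℝ) := by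
  have m0 := mon_ne hu 1
  have i0 : ∀ {x : K}, x ≠ 0 → algebraMap K F x ≠ 0 := fun h => (map_ne_zero _).2 h
  have e1 : V.ord (algebraMap K F (mon u 1)) = ∑ i, V.ord (algebraMap K F (u i)) := by
    rw [mon, map_prod, V.ord_prod _ fun i _ => i0 (zpow_ne_zero _ (hu i))]
    simp
  rw [ord_hm ht V (mul_ne_zero (pow_ne_zero _ η0) g0),
    ord_hm ht V (mul_ne_zero (pow_ne_zero _ (mul_ne_zero η0 m0)) g0), map_mul, map_mul, map_pow,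
    map_pow, map_mul, Pl.ord_mul _ (pow_ne_zero _ (i0 η0)) (i0 g0),
    Pl.ord_mul _ (pow_ne_zero _ (mul_ne_zero (i0 η0) (i0 m0))) (i0 g0), Pl.ord_pow, Pl.ord_pow,
    Pl.ord_mul _ (i0 η0) (i0 m0), e1]
  simp only [Pi.add_apply, add_mul, Finset.sum_add_distrib, ← Finset.mul_sum]
  push_cast
  ring

end B62

open B62 in
/-- **CORR** -/
theorem corr62 : CORR := by
  intro wbp prm ugg gss pos dpt pdb kld gds ntw d k ρ E q ε ρ0 q0 e0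
  obtain ⟨W₀, J, n₀, n0, H⟩ := wbp (d + k) E q ε q0 e0
  obtain ⟨W₁, hW⟩ := dpt ρ W₀ ρ0
  refine ⟨max W₁ 1, 2 * n₀ * J.factorial, le_max_right _ _,
    by nlinarith [Nat.mul_le_mul n0 J.factorial_pos], ?_⟩
  intro K₁ K₀ K F _ _ _ _ _ _ _ _ _ _ _ _ _ _ _ _ N c ι y u t T D s a f η γ δ b π s' a' Q U u₀ r
    tw X L r0
  have fy := X.fr
  have Y := X.dx
  have ht := tw.x2.ind.ne_zero
  have hu := tw.x1.ind.ne_zero
  have hu' := tw.x3.ind.ne_zero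
  have ht' := tw.x4.ind.ne_zero
  obtain ⟨p1, p2, p3, p4⟩ := prm K₁ K₀ K F d k ρ y u t tw fy
  obtain ⟨gs, A₁, N₁, A₀⟩ := gss K₁ K₀ K F d k ρ y u t tw fy N E ι π T D s a s' a' Y.cox X.wv
    X.wid.k0
  have N₀ := nor_of gav K₀ F _ k _ _ tw.x4 Y.fr _ T D s a Y.cox
  obtain ⟨A, a0, a1, a2, a3, -⟩ := grp K₁ K d k y t tw.x2 fy r r0
  obtain ⟨G, g0, g1, -⟩ := grp K₀ F _ k _ _ tw.x4 Y.fr r r0
  have ug := ugg K₁ K₀ K F d k ρ y u t tw fy r A G r0 a0 g0 g1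
  obtain ⟨l1, -⟩ := lar K₁ K d k y t tw.x2 fy r r0
  have po := pos K₀ F _ k _ _ tw.x4 Y.fr N s a Q U u₀ Y.cox.ne L
  set u' := fun i => algebraMap K₀ F (u i) with du
  set t' := fun i => algebraMap K F (t i) with dt
  set y' := zt y fun i => t i ^ r with dy
  have q' : (0 : ℝ) < q := Nat.cast_pos.2 q0
  have η0 : η ≠ 0 := fun e => Y.h0 (by rw [e, hm_zero, zero_pow q0.ne', zero_mul])
  have ηq := pow_ne_zero q η0
  have c0 : π.cc 0 = 1 := Finset.prod_eq_one fun p hp => by rw [X.wid.k0 p hp, zpow_zero]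
  have al0 : π.al 0 = 0 := by
    rw [Pg.al, Finset.sum_eq_zero fun i _ => by simp,
      Finset.sum_eq_zero fun p hp => by rw [X.wid.k0 p hp, zero_smul], add_zero]
  have cm : ∀ m, π.cc m ≠ 0 := fun m =>
    Finset.prod_ne_zero_iff.2 fun p hp => zpow_ne_zero _ (X.wv.l0 p hp).1
  have up : ∀ (z : K₁) e, algebraMap K F (hm t z e) = hm t' (algebraMap K₁ K₀ z) e := fun z e => by
    rw [← hm_deg0 u', p1, hm_deg0]
  -- the pairs
  let Ψ : ((Fin ρ → ℤ) →₀ K₁) → (Fin k → ℤ) → (Fin ρ → ℤ) →₀ K := fun γ e =>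
    γ.mapRange (fun z => hm t (η ^ q * z) (e + fun _ => (r : ℤ) * q)) (by rw [mul_zero, hm_zero])
  have Ψa : ∀ γ e m, Ψ γ e m = hm t (η ^ q * γ m) (e + fun _ => (r : ℤ) * q) := fun _ _ _ => rfl
  have Ψl : ∀ γ e, lv u' (Ψ γ e) = hm t' (algebraMap K₁ K₀ η ^ q * lv u γ)
      (e + fun _ => (r : ℤ) * q) := fun γ e => by
    rw [p2 γ _ (η ^ q) _ (Ψa γ e), map_pow]
  have Ψw : ∀ γ e, lv u γ ≠ 0 → ∀ V, lw y' u' q (Ψ γ e) V =
      lt (zt y u) t' V - (V.ord (hm t' (hm u η 1 ^ q * lv u γ) e) : ℝ) / q := fun γ e h V => by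
    have := ord_tw ht' hu ((map_ne_zero (algebraMap K₁ K₀)).2 η0) h e q r V
    have e2 : (V.ord (hm t' (hm u η 1 ^ q * lv u γ) e) : ℝ) = V.ord (hm t' (algebraMap K₁ K₀ η ^ q *
        lv u γ) (e + fun _ => (r : ℤ) * q)) + q * ∑ i, (V.ord (u' i) : ℝ) -
        r * q * ∑ i, (V.ord (t' i) : ℝ) := eq_sub_of_add_eq this.symm
    rw [lw, Ψl, p3 r r0 V, e2]
    field_simp
    ring
  have one : lv u (Finsupp.single (0 : Fin ρ → ℤ) (1 : K₁)) = 1 := by rw [lv_single, hm_one]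
  have Ψs : Ψ (.single 0 1) (δ + -b) =
      .single 0 (hm t (η ^ q * 1) (δ + -b + fun _ => (r : ℤ) * q)) := Finsupp.mapRange_single
  have w0 : ∀ V, lw y' u' q (Ψ (.single 0 1) (δ + -b)) V = lt (zt y u) t' V -
      (V.ord (hm t' (hm u η 1 ^ q * lv u γ) δ) : ℝ) / q + (V.ord (hm t' (lv u γ) b) : ℝ) / q :=
    fun V => by
      rw [Ψw _ _ (one ▸ one_ne_zero), one, mul_one, ← mul_inv_cancel_right₀ Y.g0 (hm u η 1 ^ q),
        hm_mul ht', hm_inv ht', ← div_eq_mul_inv, mul_inv_cancel_right₀ Y.g0,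
        Pl.ord_div _ (hm_ne ht' Y.h0 _) (hm_ne ht' Y.g0 _)]
      push_cast
      ring
  have pd : ∀ R, PD (Rg s a t') R → lw y' u' q (Ψ (.single 0 1) (δ + -b)) R = 1 := fun R c => by
    rw [w0]
    obtain ⟨E, hE, v⟩ | z := pdv_of grd gav K₀ F _ k _ _ tw.x4 Y.fr _ T D s a Y.cox R c
    · rw [v.lt, v.ord _ _ Y.h0, v.ord _ _ Y.g0, Y.eq E hE]
      field_simp
      ring
    · rw [kah K₀ F _ k _ _ tw.x4 Y.fr _ T D s a Y.cox R c z, z _ _ Y.h0, z _ _ Y.g0]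
      simp
  have bd : ∀ R, PD (Rg s a t') R → lw y' u' q (Ψ γ δ) R ≤ 1 := fun R c => by
    have h1 := pd R c
    obtain ⟨p', c, -⟩ := c
    have : (0 : ℝ) ≤ R.ord (hm t' (lv u γ) b) :=
      Int.cast_nonneg (Pl.ord_nonneg_of_mem _ (c ⟨_, mem_Rg ht' Y.gs⟩).1)
    rw [w0] at h1
    rw [Ψw _ _ Y.g0]
    linarith [div_nonneg this q'.le]
  have kl : ∀ V, (∀ z ∈ Rg s a t', z ∈ V.ring) → 0 < lw y' u' q (Ψ (.single 0 1) (δ + -b)) V :=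
    fun V hV => (Mp.lk q0 e0 Y tw.x4 V hV).2.trans_eq (w0 V).symm
  -- the centres
  have hU := Tz.rg_le fun j => (L.gt j).1
  obtain ⟨p, hp⟩ := Tq.exists_cen hU
  have le : ∀ z ∈ Rg s' a' t, algebraMap K F z ∈ Rg s a t' := fun z hz =>
    (gs.mem _).2 ⟨.single 0 z, by rw [lv_single, hm_deg0], fun m => by
      by_cases e : m = 0
      · rw [e, gs.c0, Finsupp.single_eq_same, div_one]
        exact hz
      · rw [Finsupp.single_eq_of_ne e, zero_div]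
        exact zero_mem _⟩
  have pl : ∀ i ∈ π.I, 0 < U.ord (algebraMap K F (hm t (π.l i) (π.β i))) := fun i hi => by
    rw [up]
    refine (po _ _ ?_ ((map_ne_zero _).2 (X.wv.l0 i hi).1)).2 (X.ps.pl i hi)
    rw [← hm_deg0 u, X.wv.fre, c0, al0, div_one, sub_zero]
    exact (X.wv.l0 i hi).2
  obtain ⟨i₀, hi₀, -⟩ := Set.nonempty_of_ncard_ne_zero (Nat.one_le_iff_ne_zero.1
    ((le_max_right _ _).trans (X.wid.wid 1 fun e => one_ne_zero (congrFun e ⟨0, ρ0⟩))))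
  obtain ⟨P, lP, -⟩ := (dwn K F _ ρ y' u' tw.x3 l1 U).resolve_left fun e =>
    (pl i₀ hi₀).ne' (Trv.ord e.1 _)
  obtain ⟨p₁, hp₁⟩ := Tq.exists_cen (S := Rg s' a' t) (R := P) fun z hz => (lP z).2 (hU _ (le z hz))
  have pp := P283R.Hr.cen_prime hp₁
  obtain ⟨M, hM, leM⟩ := p₁.exists_le_maximal pp.ne_top
  have lp : ∀ i ∈ π.I, π.l i ≠ 0 ∧ ∃ z ∈ p₁, (z : K) = hm t (π.l i) (π.β i) := fun i hi =>
    ⟨(X.wv.l0 i hi).1, ⟨_, mem_Rg ht (X.wv.l0 i hi).2⟩,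
      (P283R.Hr.cen_iff hp₁ _).2 (.inr ((lP.ord_pos_iff _).1 (pl i hi))), rfl⟩
  obtain ⟨dp, lf⟩ := hW K₁ K d k y t tw.x2 fy ι π _ p₁ ⟨X.wid.k0, X.wid.vn, X.wid.vk,
    fun ν h => (le_max_left _ _).trans (X.wid.wid ν h)⟩ lp
  have gd := gds K F _ ρ y' u' tw.x3 l1 _ _ _ p₁ p U P gs lP hp hp₁ fun m m0 => by
    rw [Pg.cK, p1]
    refine (po _ _ ?_ (hm_ne hu (cm m) _)).2 (X.ps.pt m m0)
    rw [X.wv.fre, div_self (cm m), sub_self]
    exact Submodule.subset_span ⟨0, funext fun _ => by simp [dg], by simp⟩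
  have P0 : Ψ γ δ 0 ≠ 0 := hm_ne ht (mul_ne_zero ηq X.g0) _
  have z0 : hm t (η ^ q * 1) (δ + -b + fun _ => (r : ℤ) * q) ≠ 0 :=
    hm_ne ht (mul_ne_zero ηq one_ne_zero) _
  have pb := fun ψ => pdb K F _ ρ y' u' tw.x3 l1 q _ ψ _ _ q0 gs A₁ N₁ A₀ N₀
  have pb0 : ∀ ψ : (Fin ρ → ℤ) →₀ K, ψ 0 ≠ 0 → (∀ R, PD (Rg s a t') R → lw y' u' q ψ R ≤ 1) →
      ∀ R, PDat (Rg s' a' t) p₁ R → ld y' q (ψ 0) R ≤ 1 := fun ψ h1 h2 R ⟨z, _, hz⟩ => by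
    have := pb ψ h2 0 (Finsupp.mem_support_iff.2 h1) R ⟨z, hz⟩
    rwa [gs.c0, div_one] at this
  have lz : lv u' (Ψ (.single 0 1) (δ + -b)) ≠ 0 := by
    rw [Ψs, lv_single]
    exact hm_ne hu' z0 _
  have tm : Tm q y' u' (π.cK t) (Ψ γ δ) A (Rg s' a' t) p₁ (Rg s a t') p :=
    ⟨P0, fun m => by
      rw [Ψa, Ψa, div_eq_mul_inv, ← hm_inv ht, ← hm_mul ht, add_neg_cancel, hm_deg0]
      exact Tz.fix_K a0 _,
    fun m hm _ => ⟨gs.ne m, fun R ⟨z, _, hz⟩ => pb _ bd m hm R ⟨z, hz⟩⟩, pb0 _ P0 bd,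
    fun R ⟨z, _, hz⟩ => bd R ⟨z, hz⟩,
    ⟨q, _, q0, z0, fun R hR => by
      have := pb0 _ (by rw [Ψs, Finsupp.single_eq_same]; exact z0) (fun R c => (pd R c).le) R hR
      rwa [Ψs, Finsupp.single_eq_same] at this,
      fun _ _ R c => kld K F _ ρ y' u' tw.x3 l1 q _ _ _ _ q0 z0 gs lf (Ψs ▸ kl) R
        fun z hz => (c ⟨z, hz⟩).1⟩,
    ⟨q, _, q0, mul_ne_zero lz (pow_ne_zero q (Finset.prod_ne_zero_iff.2 fun i _ => hu' i)),
      fun R ⟨z, _, hz⟩ => ((L42.ld_lw hu' lz q0 R).trans (pd R ⟨z, hz⟩)).le,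
      fun _ _ R c => (kl R fun z hz => (c ⟨z, hz⟩).1).trans_eq (L42.ld_lw hu' lz q0 R).symm⟩⟩
  obtain ⟨B, idx, S⟩ := H (q * (2 * n₀)) (by positivity) ((dvd_mul_left _ _).mul_left _)
    (dvd_mul_right _ _) ρ K F y' u' A G _ _ _ p₁ M _ p tw.x3 l1
    (Cr.pr (h := (1 : K₁)) (δ := δ) ht one_ne_zero q0 r0 A₁ N₁ a1 (a2 _ s' a') a3 l1).fy A₁ N₁ pp
    (fun e => by
      obtain ⟨h0, z, hz, ez⟩ := lp i₀ hi₀
      rw [e, Ideal.mem_bot] at hz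
      exact hm_ne ht h0 _ (by rw [← ez, hz]; rfl)) hM leM
    (Bg.emd (fun j => hm t (s' j) (a' j)) M hM) a1 (a2 _ s' a') (eig_hm a0 _ _) A₀ N₀ ug gd tm dp
    fun V c ⟨i, hi⟩ e _ dv => by
      rw [Ψw _ _ Y.g0]
      have hV : ∀ z ∈ Rg s a t', z ∈ V.ring := fun z hz => (c ⟨z, hz⟩).1
      have rd : ∀ {φ : K₀}, 0 < V.ord (algebraMap K₀ F φ) → V.rd (algebraMap K₀ F φ) = 0 :=
        fun h => (Cb.rd_eq_zero (Cb.mem_ord h.le)).2 (Cb.mx_iff.2 (.inr h))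
      rcases hi.lt_or_gt with h | h
      · exact Mp.hyp e0 Y tw.x4 hV (inv_ne_zero (hu i)) (rd (by
          rw [map_inv₀, Pl.ord_inv]
          exact neg_pos.2 h)) g0 dv
      · exact Mp.hyp e0 Y tw.x4 hV (hu i) (rd h) g0 dv
  obtain ⟨x, x1, x0, x2, x3⟩ := S U hp
  rw [Nat.mul_div_cancel_left _ q0, Ψa] at x2
  obtain ⟨n, n1, n2⟩ := ntw K₁ K d k y t tw.x2 fy E J r (2 * n₀) s' a' A B p₁ P x _ _ r0 a0 X.wv.ne
    A₁ hp₁ (p4 U P lP L.gm) idx x1 x0 (mul_ne_zero ηq X.g0) x2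
  refine ⟨n, fun i => ?_, ?_⟩
  · have := n1 i
    rw [Pi.add_apply, mul_add, ← add_assoc] at this
    exact (dvd_add_left ((dvd_mul_right _ _).mul_left _)).1 this
  · have or : ∀ z, (U.ord (algebraMap K F z) : ℝ) = U.ord (algebraMap K F P.t) * P.ord z :=
      fun z => by exact_mod_cast lP.ord z
    have ep : (0 : ℝ) < U.ord (algebraMap K F P.t) := by exact_mod_cast lP.e_pos
    have j0 : (0 : ℝ) < J.factorial := Nat.cast_pos.2 J.factorial_pos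
    rw [Ψw _ _ Y.g0, div_lt_iff₀ (by positivity), or] at x3
    have := mul_le_mul_of_nonneg_left n2 ep.le
    rw [Finset.mul_sum] at this
    refine lt_of_le_of_lt ((Finset.sum_congr rfl fun j _ => ?_).trans_le this) ?_
    · rw [← up, or, mul_left_comm]
    · have := mul_lt_mul_of_pos_left x3 j0
      push_cast at this ⊢
      linarith

end Vale.Agent.P283R.Wd
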