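import Vale.Agent.P283R.Wd.St

/-!
# P283R, block WD: the two rings
-/

open Set

noncomputable section

namespace Vale.Agent.P283R.Wd

open Vale.Agent.P287D Vale.Agent.P283M Cx
open Vale.Agent.P283R.To (mon)

namespace G21

variable {K F : Type} [Field K] [Algebra ℂ K] [Field F] [Algebra ℂ F] [Algebra K F] {ρ : ℕ}
  {u : Fin ρ → F} {c : (Fin ρ → ℤ) → K} {S₁ : Subalgebra ℂ K} {S : Subalgebra ℂ F}

omit [Algebra ℂ K] [Algebra ℂ F] in
theorem lv_eq (hu : AlgebraicIndependent K u) {ψ ψ' : (Fin ρ → ℤ) →₀ K} (h : lv u ψ = lv u ψ') :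
    ψ = ψ' := by
  refine sub_eq_zero.1 (lv_inj hu ?_)
  have := lv_add u (ψ - ψ') ψ'
  rw [sub_add_cancel, h] at this
  exact left_eq_add.1 (this.trans (add_comm _ _))

/-- the small ring is the trace of the large ring -/
theorem tr (hu : AlgebraicIndependent K u) (g : Gs u c S₁ S) (z : K) :
    algebraMap K F z ∈ S ↔ z ∈ S₁ := by
  rw [g.mem]
  constructor
  · rintro ⟨ψ, e, h⟩
    rw [← hm_deg0 u, ← lv_single] at e
    have := h 0
    rwa [lv_eq hu e, g.c0, div_one, Finsupp.single_eq_same] at this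
  · refine fun h => ⟨.single 0 z, by rw [lv_single, hm_deg0], fun m => ?_⟩
    by_cases e : m = 0
    · rwa [e, g.c0, div_one, Finsupp.single_eq_same]
    · rw [Finsupp.single_eq_of_ne e, zero_div]
      exact zero_mem _

theorem fr (hu : AlgebraicIndependent K u) (g : Gs u c S₁ S) (h : ∀ a : F, ∃ s t : S, a = s / t)
    (x : K) : ∃ s t : S₁, x = s / t := by
  obtain ⟨a, b, e⟩ := h (algebraMap K F x)
  by_cases b0 : (b : F) = 0
  · rw [b0, div_zero, map_eq_zero] at e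
    exact ⟨0, 1, by simp [e]⟩
  obtain ⟨ψ, e1, h1⟩ := (g.mem _).1 a.2
  obtain ⟨φ, e2, h2⟩ := (g.mem _).1 b.2
  obtain ⟨φ', e3, e4⟩ := lv_shift hu.ne_zero φ x 0
  rw [hm_deg0, e, e2, mul_div_cancel₀ _ b0, ← e1] at e4
  obtain rfl := lv_eq hu e4
  obtain ⟨m, hm⟩ : ∃ m, φ m ≠ 0 := by
    by_contra z
    refine b0 ?_
    rw [← e2, show φ = 0 from Finsupp.ext fun m => not_not.1 fun w => z ⟨m, w⟩, lv_zero]
  refine ⟨⟨_, h1 m⟩, ⟨_, h2 m⟩, ?_⟩
  have := e3 m
  rw [add_zero] at this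
  have c0 := g.ne m
  change x = φ' m / c m / (φ m / c m)
  rw [this]
  field_simp

theorem nor [IsScalarTower ℂ K F] (hu : AlgebraicIndependent K u) (g : Gs u c S₁ S)
    (h : ∀ a : F, ∃ s t : S, a = s / t) (n : IsIntegrallyClosed S) : IsIntegrallyClosed S₁ := by
  have : IsFractionRing S F := IsFractionRing.of_field _ _ h
  have : IsFractionRing S₁ K := IsFractionRing.of_field _ _ (fr hu g h)
  refine (isIntegrallyClosed_iff K).2 fun {x} hx => ?_
  let φ : S₁ →+* S := ((algebraMap K F).comp (S₁.val : _ →+* K)).codRestrict S fun z =>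
    (tr hu g _).2 z.2
  obtain ⟨z, hz⟩ := (isIntegrallyClosed_iff F).1 n
    (hx.map_of_comp_eq φ (algebraMap K F) (RingHom.ext fun _ => rfl))
  exact ⟨⟨x, (tr hu g x).1 (hz ▸ z.2)⟩, rfl⟩

end G21

theorem gss : GSS := by
  intro K₁ K₀ K F _ _ _ _ _ _ _ _ _ _ _ _ _ _ _ _ d k ρ y u t w hy N E ι π T D s a s' a' cx v k0
  have t0 := w.x2.ind.ne_zero
  have t1 := w.x4.ind.ne_zero
  have hh : ∀ (z : K₁) m e, hm (fun i => algebraMap K₀ F (u i)) (hm t z e) m =
      hm (fun i => algebraMap K F (t i)) (hm u z m) e := fun z m e => by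
    simp only [hm, mon, map_mul, map_prod, map_zpow₀, w.com]
    ring
  have c0 : ∀ m, π.cc m ≠ 0 := fun m =>
    Finset.prod_ne_zero_iff.2 fun p hp => zpow_ne_zero _ (v.l0 p hp).1
  have n0 : ∀ m, π.cK t m ≠ 0 := fun m => hm_ne t0 (c0 m) _
  have dv : ∀ (z : K₁) m e, hm t z e / π.cK t m = hm t (z / π.cc m) (e - π.al m) := fun z m e => by
    rw [div_eq_iff (n0 m), Pg.cK, ← hm_mul t0, div_mul_cancel₀ _ (c0 m), sub_add_cancel]
  have g : Gs (fun i => algebraMap K₀ F (u i)) (π.cK t) (Rg s' a' t)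
      (Rg s a fun i => algebraMap K F (t i)) := by
    refine ⟨?_, n0, fun b => ⟨fun hb => ?_, ?_⟩⟩
    · have e1 : π.cc 0 = 1 := Finset.prod_eq_one fun p hp => by rw [k0 p hp, zpow_zero]
      have e2 : π.al 0 = 0 := by
        rw [Pg.al, Finset.sum_eq_zero (s := π.I) fun p hp => by rw [k0 p hp, zero_smul]]
        simp
      rw [Pg.cK, e1, e2, hm_one]
    · let M : AddSubmonoid F :=
        { carrier := {b | ∃ ψ : (Fin ρ → ℤ) →₀ K, lv (fun i => algebraMap K₀ F (u i)) ψ = b ∧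
            ∀ m, ψ m / π.cK t m ∈ Rg s' a' t}
          zero_mem' := ⟨0, lv_zero _, fun m => by simp⟩
          add_mem' := by
            rintro _ _ ⟨ψ, rfl, h⟩ ⟨ψ', rfl, h'⟩
            exact ⟨ψ + ψ', lv_add _ _ _, fun m => by
              rw [Finsupp.add_apply, add_div]; exact add_mem (h m) (h' m)⟩ }
      obtain ⟨Ψ, h1, rfl⟩ := (mem_Rg_iff t1).1 hb
      refine (sum_mem fun e _ => ?_ : _ ∈ M)
      obtain ⟨ψ, e1, h2⟩ := v.cmp e _ (h1 e)
      have e2 : hm (fun i => algebraMap K F (t i)) (Ψ e) e =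
          ∑ m ∈ ψ.support, hm (fun i => algebraMap K F (t i)) (hm u (ψ m) m) e := by
        rw [← e1, lv, Finsupp.sum, hm, map_sum, Finset.sum_mul]
        rfl
      dsimp only
      rw [e2]
      refine sum_mem fun m _ => ⟨.single m (hm t (ψ m) e), by rw [lv_single, hh], fun m' => ?_⟩
      by_cases z : m' = m
      · rw [z, Finsupp.single_eq_same, dv]
        exact mem_Rg t0 ((v.fre e m _).1 (h2 m))
      · rw [Finsupp.single_eq_of_ne z, zero_div]
        exact zero_mem _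
    · rintro ⟨ψ, rfl, h⟩
      refine sum_mem fun m _ => ?_
      obtain ⟨Φ, h1, e1⟩ := (mem_Rg_iff t0).1 (h m)
      rw [eq_div_iff (n0 m)] at e1
      have e2 : hm (fun i => algebraMap K₀ F (u i)) (ψ m) m = ∑ e ∈ Φ.support,
          hm (fun i => algebraMap K₀ F (u i)) (hm t (Φ e * π.cc m) (e + π.al m)) m := by
        rw [← e1, lv, Finsupp.sum, Finset.sum_mul, hm, map_sum, Finset.sum_mul]
        refine Finset.sum_congr rfl fun e _ => ?_
        rw [hm_mul t0]
        rfl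
      dsimp only
      rw [e2]
      refine sum_mem fun e _ => ?_
      rw [hh]
      refine mem_Rg t1 ((v.fre _ m _).2 ?_)
      rw [mul_div_cancel_right₀ _ (c0 m), add_sub_cancel_right]
      exact h1 e
  have fy := zt_frm w.x1 hy
  have A := aff K₀ F _ k _ _ w.x4 fy _ T D s a cx
  have n := nor_of gav K₀ F _ k _ _ w.x4 fy _ T D s a cx
  exact ⟨g, ⟨w.x2.ff', Subalgebra.fg_def.2 ⟨_, finite_range _, rfl⟩,
    G21.fr w.x3.ind g A.fr⟩, G21.nor w.x3.ind g A.fr n, w.x3.ff', A.fg, A.fr⟩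

end Vale.Agent.P283R.Wd
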