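import Vale.Agent.P283R.Wd.St
import Vale.Agent.P283R.Cx.Lar

/-!
# P283R, block WD: the two descriptions of the big field
-/

open Set

noncomputable section

namespace Vale.Agent.P283R.Wd

open Vale.Agent.P287D Cx
open Vale.Agent.P283R.To (mon)

namespace P78

theorem kap_e {K : Type} [Field K] [Algebra ℂ K] {a b : ℕ} (hK : FF K b) (y : Fin b → K)
    (e : Fin a ≃ Fin b) : kap (fun i => y (e i)) = kap y := by
  obtain rfl : a = b := by simpa using Fintype.card_congr e
  exact Cb.kap_perm hK y e

theorem map_mon {K F : Type} [Field K] [Field F] [Algebra K F] {k : ℕ} (t : Fin k → K)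
    (e : Fin k → ℤ) : algebraMap K F (mon t e) = mon (fun i => algebraMap K F (t i)) e := by
  simp only [mon, map_prod, map_zpow₀]

/-- the exchange of the last two blocks -/
def sw (d k ρ : ℕ) : Fin (d + k + ρ) ≃ Fin (d + ρ + k) :=
  (finSumFinEquiv.symm.trans (finSumFinEquiv.symm.sumCongr (Equiv.refl _))).trans
    (((Equiv.sumAssoc _ _ _).trans ((Equiv.refl _).sumCongr (Equiv.sumComm _ _))).trans
      ((Equiv.sumAssoc _ _ _).symm.trans
        ((finSumFinEquiv.sumCongr (Equiv.refl _)).trans finSumFinEquiv)))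

theorem app_sw {α : Type} {d k ρ : ℕ} (x : Fin d → α) (y : Fin k → α) (z : Fin ρ → α) :
    Fin.append (Fin.append x y) z = fun i => Fin.append (Fin.append x z) y (sw d k ρ i) := by
  funext i
  refine Fin.addCases (fun i => Fin.addCases (fun i => ?_) (fun i => ?_) i) (fun i => ?_) i <;>
    simp [sw]

theorem map_app {α β : Type} {d k : ℕ} (f : α → β) (x : Fin d → α) (y : Fin k → α) :
    (fun i => f (Fin.append x y i)) = Fin.append (fun i => f (x i)) fun i => f (y i) := by
  funext i
  refine Fin.addCases (fun i => ?_) (fun i => ?_) i <;> simp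

end P78

open P78 in
theorem prm : PRM := fun K₁ K₀ K F _ _ _ _ _ _ _ _ _ _ _ _ _ _ _ _ d k ρ y u t w hy => by
  have a1 : ∀ (z : K₁) e, algebraMap K F (hm t z e) =
      hm (fun i => algebraMap K F (t i)) (algebraMap K₁ K₀ z) e := fun z e => by
    simp only [hm, map_mul, map_mon, w.com]
  have a2 : ∀ (z : K₁) m e, hm (fun i => algebraMap K₀ F (u i)) (hm t z e) m =
      hm (fun i => algebraMap K F (t i)) (hm u z m) e := fun z m e => by
    simp only [hm, map_mul, map_mon, w.com]
    ring
  refine ⟨a2, fun γ ψ η e h => ?_, fun r r0 U => ?_, fun U P l g ψ e he => ?_⟩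
  · have s : ψ.support ⊆ γ.support := fun m hm' => by
      rw [Finsupp.mem_support_iff] at hm' ⊢
      intro h0
      rw [h m, h0, mul_zero] at hm'
      simp [hm] at hm'
    rw [lv, Finsupp.sum_of_support_subset ψ s _ (fun m _ => by simp [hm]), lv, Finsupp.sum,
      Finset.mul_sum, hm, map_sum, Finset.sum_mul]
    refine Finset.sum_congr rfl fun m _ => ?_
    rw [h m, a2]
    simp only [hm, map_mul]
    ring
  · have f0 : Frm (zt y u) := Cb.fr_of w.x1.ff' (zt_ind hy.ind w.x1.ind)
    have e1 := (lar K₀ F (d + ρ) k (zt y u) _ w.x4 f0 r r0).2 U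
    have e2 : kap (zt (zt y fun i => t i ^ r) fun i => algebraMap K₀ F (u i)) =
        kap (zt (zt y u) fun i => algebraMap K F (t i) ^ r) := by
      rw [← kap_e w.x4.ff' _ (sw d k ρ)]
      simp only [zt, map_app, app_sw _ _ (fun i => algebraMap K₀ F (u i)), w.com, map_pow]
    rw [lt, e2, e1]
    ring
  · have := g (ψ.mapRange (algebraMap K₁ K₀) (map_zero _)) e (by
      rw [Finsupp.mem_support_iff] at he ⊢
      simpa using he)
    rw [lv, Finsupp.sum_mapRange_index (fun _ => by simp [hm]), Finsupp.mapRange_apply, ← a1,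
      Finsupp.sum] at this
    simp only [← a1] at this
    rw [← map_sum, l.ord, l.ord (hm t _ _)] at this
    exact le_of_mul_le_mul_left this l.e_pos

end Vale.Agent.P283R.Wd
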