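import Vale.Agent.P283R.Wd.A42
import Vale.Agent.P283R.Wd.Ac12
import Vale.Agent.P283R.Be2.GlA

/-!
# P283R, block WD: points which are not closed, the transport
-/

set_option linter.all false

attribute [-instance] HahnSeries.powerSeriesAlgebra

open Set
open Vale.Agent.P285N.Brep (jac Fr)
open Vale.Agent.P297Z

noncomputable section

namespace Vale.Agent.P283R.Wd.N26

open Vale.Agent.P287D Vale.Agent.P287D.Cb Cx Gf Bgl

section one

variable {F F' : Type} [Field F] [Algebra ℂ F] [Field F'] [Algebra ℂ F'] {n m : ℕ}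
  {L : IntermediateField ℂ F} {φ : F →+* F'} {S : Subalgebra ℂ F} {p : Ideal S}
  {S' : Subalgebra ℂ F'} {p' : Ideal S'}

theorem kap_eqv (hF : FF F n) (y : Fin n → F) (e : Fin m ≃ Fin n) : kap (y ∘ e) = kap y := by
  obtain rfl : m = n := Fin.equiv_iff_eq.1 ⟨e⟩
  exact kap_perm hF y e

theorem adj_up (h : GF L φ) {s : Set F} {T : Subalgebra ℂ F'} (hs : ∀ a ∈ s, φ a ∈ T) {a : F}
    (ha : a ∈ Algebra.adjoin ℂ s) : φ a ∈ T := by
  induction ha using Algebra.adjoin_induction with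
  | mem a ha => exact hs a ha
  | algebraMap c => obtain ⟨d, hd⟩ := h.cst _ (L.algebraMap_mem c); exact hd ▸ T.algebraMap_mem d
  | add a b _ _ ha hb => rw [map_add]; exact add_mem ha hb
  | mul a b _ _ ha hb => rw [map_mul]; exact mul_mem ha hb

theorem aff_up (h : GF L φ) (hS : Aff n S) (hF : FF F' m) :
    Aff m (Algebra.adjoin ℂ (φ '' S)) := by
  obtain ⟨s, hs⟩ := hS.fg
  have sS : (s : Set F) ⊆ S := hs ▸ Algebra.subset_adjoin
  refine ⟨hF, Subalgebra.fg_def.2 ⟨_, s.finite_toSet.image φ, le_antisymm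
    (Algebra.adjoin_mono (image_mono sS)) (Algebra.adjoin_le ?_)⟩, fun a => ?_⟩
  · rintro _ ⟨a, ha, rfl⟩
    exact adj_up h (fun b hb => Algebra.subset_adjoin (mem_image_of_mem φ hb)) (hs.ge ha)
  · set S' := Algebra.adjoin ℂ (φ '' S)
    have le : Subfield.closure (range φ ∪ range (algebraMap ℂ F')) ≤
        Subfield.closure (S' : Set F') := Subfield.closure_le.2 (by
      rintro _ (⟨f, rfl⟩ | ⟨c, rfl⟩)
      · obtain ⟨b, d, rfl⟩ := hS.fr f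
        rw [map_div₀]
        exact div_mem (Subfield.subset_closure (Algebra.subset_adjoin ⟨b, b.2, rfl⟩))
          (Subfield.subset_closure (Algebra.subset_adjoin ⟨d, d.2, rfl⟩))
      · exact Subfield.subset_closure (S'.algebraMap_mem c))
    obtain ⟨b, hb, d, hd, e⟩ := Subfield.mem_closure_iff.1 (le (h.gen ▸ Subfield.mem_top a))
    have le2 : Subring.closure (S' : Set F') ≤ S'.toSubring := Subring.closure_le.2 fun _ z => z
    exact ⟨⟨b, le2 hb⟩, ⟨d, le2 hd⟩, e.symm⟩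

theorem cen_down (h : GF L φ) (hF : FF F' m) (ψ : S →+* S') (e : ∀ a, (ψ a : F') = φ a)
    {a : Ideal S'} {V : Pl F'} (c : Cen S' a V) : ∃ U, Lies φ V U ∧ Cen S (a.comap ψ) U := by
  obtain ⟨U, l⟩ := h.below hF V
  have mem : ∀ b : S, (b : F) ∈ U.ring := fun b => (l b).2 (e b ▸ (c (ψ b)).1)
  exact ⟨U, l, fun b => ⟨mem b, by rw [Ideal.mem_comap, (c _).2, e, rd_iff h l (mem b)]⟩⟩

theorem kl_up (h : GF L φ) (hF : FF F' m) (hp : p.IsPrime) (hL : ∀ a ∈ L, a ∈ Lo S p)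
    (ψ : S →+* S') (e : ∀ a, (ψ a : F') = φ a) (eS : S' = Algebra.adjoin ℂ (φ '' S))
    (key : ∀ a, a ∈ p ↔ ψ a ∈ p') {y : Fin n → F} {y' : Fin m → F'}
    (hl : ∀ V U, Lies φ V U → ∀ k g, ld y' k (φ g) V = ld y k g U) (kl : Bc.KL S p y) :
    Bc.KL S' p' y' := by
  obtain ⟨k, g, k0, g0, k1, k2⟩ := kl
  refine ⟨k, φ g, k0, (map_ne_zero φ).2 g0, fun V hV => ?_, fun a le V hV => ?_⟩
  · obtain ⟨U, l⟩ := h.below hF V
    rw [hl V U l]
    exact k1 U (pdat_down h hp hL ψ e eS key l hV)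
  · obtain ⟨U, l, c⟩ := cen_down h hF ψ e hV
    rw [hl V U l]
    exact k2 _ (fun b hb => (key b).2 (le hb)) U c

theorem kl_chg {y z : Fin n → F} {j : F} (j0 : j ≠ 0) (kj : ∀ P, kap y P = kap z P + P.ord j)
    (kl : Bc.KL S p y) : Bc.KL S p z := by
  obtain ⟨k, g, k0, g0, k1, k2⟩ := kl
  exact ⟨k, g / j ^ k, k0, div_ne_zero g0 (pow_ne_zero _ j0),
    fun R hR => (ld_chg j0 kj k0 g0 R).trans_le (k1 R hR),
    fun a le R hR => (k2 a le R hR).trans_eq (ld_chg j0 kj k0 g0 R).symm⟩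

theorem fx {A : Subgroup (F ≃ₐ[ℂ] F)} {g : F} (hg : Fix A g) : Fix (lift φ A) (φ g) := by
  rintro τ ⟨σ, hσ, eτ⟩
  rw [eτ, hg σ hσ]

theorem inr_up {A : Subgroup (F ≃ₐ[ℂ] F)} (hI : ∀ σ ∈ A, Inr S p σ) (ψ : S →+* S')
    (e : ∀ a, (ψ a : F') = φ a) (eS : S' = Algebra.adjoin ℂ (φ '' S))
    (key : ∀ a, a ∈ p ↔ ψ a ∈ p') : ∀ τ ∈ lift φ A, Inr S' p' τ := by
  rintro τ ⟨σ, hσ, eτ⟩ ⟨a, ha⟩
  have : a ∈ S' ∧ ∃ b ∈ p', τ a - a = (b : F') := by
    have := eS.le ha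
    clear ha
    induction this using Algebra.adjoin_induction with
    | mem a ha =>
      obtain ⟨a, ha, rfl⟩ := ha
      obtain ⟨b, hb, eb⟩ := hI σ hσ ⟨a, ha⟩
      exact ⟨e ⟨a, ha⟩ ▸ (ψ _).2, ψ b, (key b).1 hb, by rw [eτ, e, ← eb, map_sub]⟩
    | algebraMap c => exact ⟨S'.algebraMap_mem c, 0, zero_mem _, by simp⟩
    | add a b _ _ ha hb =>
      obtain ⟨ha, c, hc, ec⟩ := ha
      obtain ⟨hb, d, hd, ed⟩ := hb
      exact ⟨add_mem ha hb, c + d, add_mem hc hd, by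
        rw [map_add, Subalgebra.coe_add, ← ec, ← ed]; ring⟩
    | mul a b _ _ ha hb =>
      obtain ⟨ha, c, hc, ec⟩ := ha
      obtain ⟨hb, d, hd, ed⟩ := hb
      refine ⟨mul_mem ha hb, c * (⟨b, hb⟩ + d) + ⟨a, ha⟩ * d,
        add_mem (p'.mul_mem_right _ hc) (p'.mul_mem_left _ hd), ?_⟩
      rw [map_mul, Subalgebra.coe_add, Subalgebra.coe_mul, Subalgebra.coe_mul,
        Subalgebra.coe_add, ← ec, ← ed]
      ring
  exact this.2

end one

variable {K F : Type} [Field K] [Algebra ℂ K] [Field F] [Algebra ℂ F] [Algebra K F]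
  [IsScalarTower ℂ K F] {d r ρ : ℕ} {u : Fin ρ → F} {c : (Fin ρ → ℤ) → K} {S₁ : Subalgebra ℂ K}
  {p₁ : Ideal S₁} {S : Subalgebra ℂ F} {p : Ideal S}

theorem res_pl (X : Ext K d u) {y : Fin d → K} (hy : Frm y) {v : Pl F} {a : K}
    (h : 0 < v.ord (algebraMap K F a)) : ∃ P, Lies (algebraMap K F) v P := by
  obtain ⟨k, -⟩ | ⟨P, l, -⟩ := dwn K F _ _ y u X hy v
  · have := Pl.ord_nonneg_of_mem _ (k a⁻¹)
    rw [map_inv₀, Pl.ord_inv] at this
    omega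
  · exact ⟨P, l⟩

theorem cen_iff' {v : Pl F} {P : Pl K} (l : Lies (algebraMap K F) v P) (hv : Cen S p v)
    (hP : Cen S₁ p₁ P) (a : S₁) (b : S) (e : algebraMap K F a = b) : a ∈ p₁ ↔ b ∈ p := by
  rw [Hr.cen_iff hv, Hr.cen_iff hP, ← e]
  exact (or_congr (map_eq_zero _) (l.ord_pos_iff _)).symm

theorem gd_cen (gd : Gd u c S₁ p₁ S p) {v : Pl F} {P : Pl K} (hv : Cen S p v)
    (l : Lies (algebraMap K F) v P) : Cen S₁ p₁ P := fun a => by
  have r : (a : K) ∈ P.ring := (l a).2 (hv ⟨_, gd.le a a.2⟩).1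
  refine ⟨r, (gd.cm a ⟨_, gd.le a a.2⟩ rfl).trans ((Hr.cen_iff hv _).trans ?_)⟩
  rw [Bm.rd_zero_iff P r]
  exact or_congr (map_eq_zero _) (l.ord_pos_iff a)

theorem gd_lo (gd : Gd u c S₁ p₁ S p) {a : K} (ha : a ∈ Lo S₁ p₁) :
    algebraMap K F a ∈ Lo S p := by
  obtain ⟨s, t, ht, rfl⟩ := ha
  exact ⟨⟨_, gd.le s s.2⟩, ⟨_, gd.le t t.2⟩, fun k => ht ((gd.cm t _ rfl).2 k), map_div₀ _ _ _⟩

theorem lv_smul (κ : K) (ψ : (Fin ρ → ℤ) →₀ K) : lv u (κ • ψ) = algebraMap K F κ * lv u ψ := by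
  rw [lv, Finsupp.sum_smul_index' fun m => by simp [hm], lv, Finsupp.mul_sum]
  exact Finsupp.sum_congr fun m _ => by simp [hm, mul_assoc]

/-- the order of the frame -/
theorem sw (w : Fin d → K) (t : Fin r → K) (u : Fin ρ → F) : ∃ e : Fin (d + ρ + r) ≃ Fin (d + r + ρ),
    zt (Fin.append w t) u ∘ e = Fin.append (zt w u) fun i => algebraMap K F (t i) := by
  refine ⟨((finSumFinEquiv.sumCongr (Equiv.refl _)).trans finSumFinEquiv).symm.trans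
    (((Equiv.sumAssoc _ _ _).trans (((Equiv.refl _).sumCongr (Equiv.sumComm _ _)).trans
      (Equiv.sumAssoc _ _ _).symm)).trans
      ((finSumFinEquiv.sumCongr (Equiv.refl _)).trans finSumFinEquiv)), funext fun i => ?_⟩
  refine Fin.addCases (fun i => Fin.addCases (fun i => ?_) (fun i => ?_) i) (fun i => ?_) i <;>
    simp [zt]

section two

variable {K' F' : Type} [Field K'] [Algebra ℂ K'] [Field F'] [Algebra ℂ F'] [Algebra K' F']
  {φ₀ : K →+* K'} {φ : F →+* F'} (e : ∀ a, φ (algebraMap K F a) = algebraMap K' F' (φ₀ a))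

include e

theorem hm_map (a : K) (m : Fin ρ → ℤ) : hm (fun i => φ (u i)) (φ₀ a) m = φ (hm u a m) := by
  simp [hm, To.mon, e]

theorem lv_map (ψ : (Fin ρ → ℤ) →₀ K) :
    lv (fun i => φ (u i)) (ψ.mapRange φ₀ (map_zero φ₀)) = φ (lv u ψ) := by
  rw [lv, Finsupp.sum_mapRange_index fun m => by simp [hm], lv, Finsupp.sum, Finsupp.sum, map_sum]
  simp only [hm_map e]

theorem zt_map (w : Fin d → K) :
    (fun j => φ (zt w u j)) = zt (fun j => φ₀ (w j)) fun i => φ (u i) := funext fun j =>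
  Fin.addCases (fun j => by simp [zt, e]) (fun j => by simp [zt]) j

theorem sq [IsScalarTower ℂ K' F'] {L : IntermediateField ℂ K} (h : GF L φ₀) {τ' : F' ≃ₐ[ℂ] F'}
    {τ₀ : K' ≃ₐ[ℂ] K'} {σ : F ≃ₐ[ℂ] F} {τ : K ≃ₐ[ℂ] K} (h1 : ∀ f, τ' (φ f) = φ (σ f))
    (h2 : ∀ f, τ₀ (φ₀ f) = φ₀ (τ f)) (h3 : ∀ a, σ (algebraMap K F a) = algebraMap K F (τ a))
    (a : K') : τ' (algebraMap K' F' a) = algebraMap K' F' (τ₀ a) := by
  refine Submodule.span_induction (p := fun a _ => τ' (algebraMap K' F' a) =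
    algebraMap K' F' (τ₀ a)) ?_ (by simp) (fun a b _ _ ha hb => by simp only [map_add, ha, hb])
    (fun c a _ ha => ?_) (h.span a)
  · rintro _ ⟨b, rfl⟩
    rw [← e, h1, h3, e, h2]
  · simp only [Algebra.smul_def, map_mul, AlgEquiv.commutes, ← IsScalarTower.algebraMap_apply, ha]

end two

theorem lw_ld (y : Fin d → K) (q : ℕ) (ψ : (Fin ρ → ℤ) →₀ K) (U : Pl F) :
    lw y u q ψ U = ld (zt y u) q (lv u ψ) U - ∑ i, (U.ord (u i) : ℝ) := by
  rw [lw, Cx.lt, ld]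
  ring

/-- the statement at closed points -/
def Bd (d N q : ℕ) (ε : ℝ) (W n : ℕ) : Prop :=
  ∀ (ρ : ℕ) (K F : Type) [Field K] [Algebra ℂ K] [Field F] [Algebra ℂ F] [Algebra K F]
    [IsScalarTower ℂ K F] (y : Fin d → K) (u : Fin ρ → F) (A : Subgroup (K ≃ₐ[ℂ] K))
    (G : Subgroup (F ≃ₐ[ℂ] F)) c ψ S₁ p₁ S p (z : Fin N → K), Ext K d u → Frm y →
    (∀ i, Fix A (y i)) → Tx.Pt d A S₁ p₁ z → Finite A → Eig A (ψ 0) → Aff (d + ρ) S →
    IsIntegrallyClosed S → Ug u A G → Gd u c S₁ p₁ S p → Tm q y u c ψ A S₁ p₁ S p →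
    Dp W c S₁ p₁ → Hw ε G S p y u q ψ → ∀ v, Cen S p v → ∃ e : Fin N → ℕ,
      Fix A ((∏ j, z j ^ e j) * ψ 0 ^ (n / q)) ∧
      (∑ j, (e j : ℝ) * v.ord (algebraMap K F (z j))) / n < lw y u q ψ v

/-- the transfer -/
theorem trw {N n q W : ℕ} {ε : ℝ} {A : Subgroup (K ≃ₐ[ℂ] K)} {G : Subgroup (F ≃ₐ[ℂ] F)}
    {ψ : (Fin ρ → ℤ) →₀ K} {x : Fin N → K} {t : Fin r → S₁} {w : Fin d → K}
    (H : 0 < d → Bd d N q ε W n) (X : Ext K (d + r) u) (hp : Pae (d + r) S₁ p₁ x t)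
    (nor₁ : IsIntegrallyClosed S₁) (x0 : ∀ j, x j ≠ 0)
    (hi : AlgebraicIndependent ℂ (Fin.append w fun i => (t i : K))) (hA : Finite A)
    (hI : ∀ σ ∈ A, Inr S₁ p₁ σ) (hx : ∀ j, Eig A (x j)) (ft : ∀ i, Fix A (t i : K))
    (fw : ∀ i, Fix A (w i)) (he : Eig A (ψ 0)) (af : Aff (d + r + ρ) S)
    (nor : IsIntegrallyClosed S) (ug : Ug u A G) (gd : Gd u c S₁ p₁ S p)
    (tm : Tm q (Fin.append w fun i => (t i : K)) u c ψ A S₁ p₁ S p) (dp : Dp W c S₁ p₁)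
    (hw : Hw ε G S p (Fin.append w fun i => (t i : K)) u q ψ) {v : Pl F} (hv : Cen S p v)
    {P : Pl K} (lP : Lies (algebraMap K F) v P) {a : K} (a0 : 0 < v.ord (algebraMap K F a)) :
    ∃ e : Fin N → ℕ, Fix A ((∏ j, x j ^ e j) * ψ 0 ^ (n / q)) ∧
      (∑ j, (e j : ℝ) * v.ord (algebraMap K F (x j))) / n <
        lw (Fin.append w fun i => (t i : K)) u q ψ v := by
  have hP := gd_cen gd hv lP
  have pr := Hr.cen_prime hv
  have it : AlgebraicIndependent ℂ fun i => (t i : K) := by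
    have e : (Fin.append w fun i => (t i : K)) ∘ Fin.natAdd d = fun i => (t i : K) :=
      funext fun i => by simp
    exact e ▸ hi.comp (Fin.natAdd d) (Fin.natAdd_injective _ _)
  have it' : AlgebraicIndependent ℂ fun i => algebraMap K F (t i) :=
    it.map' (f := IsScalarTower.toAlgHom ℂ K F) (algebraMap K F).injective
  obtain ⟨K1, F1, _, _, _, _, _, _, φ₀, φ, h0, h, e, X1⟩ := N12.gfx X (fun i => (t i : K)) it
  have ht : ∀ i, (t i : K) ∈ cl (IntermediateField.adjoin ℂ (range fun i => (t i : K))) :=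
    fun i => (algebraicClosure _ K).algebraMap_mem
      (⟨t i, IntermediateField.subset_adjoin _ _ ⟨i, rfl⟩⟩ :
        IntermediateField.adjoin ℂ (range fun i => (t i : K)))
  have ht' := fun i => N12.cl_map (F := F) _ (ht i)
  have hLo0 := fun a ha => Bn.cl_lo' hp.aff nor₁ hp.ind (a := a) ha
  have hL0 := fun σ hσ a ha =>
    Bn.fixL' hp.aff nor₁ hp.pri hp.ind σ (hI σ hσ) (fun i => ft i σ hσ) (a := a) ha
  have hLo : ∀ a ∈ cl (IntermediateField.adjoin ℂ (range fun i => algebraMap K F (t i))),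
      a ∈ Lo S p := fun a ha => by
    obtain ⟨b, hb, rfl⟩ := N12.acl X _ ha
    exact gd_lo gd (hLo0 b hb)
  have hL : ∀ σ ∈ G, ∀ a ∈ cl (IntermediateField.adjoin ℂ (range fun i => algebraMap K F (t i))),
      σ a = a := fun σ hσ a ha => by
    obtain ⟨b, hb, rfl⟩ := N12.acl X _ ha
    obtain ⟨τ, hτ, k⟩ := ug.dn σ hσ
    rw [k, hL0 τ hτ b hb]
  obtain ⟨V, lV⟩ := h.above (ff_cl X.ff' it') fun a ha => lo_ring hv (hLo a ha)
  obtain ⟨D, hD⟩ := fr_of X.ff hi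
  have fr1 : Frm fun j => φ₀ (w j) := fr_of X1.ff (ind_map
    (fun c => h0.cst _ (IntermediateField.algebraMap_mem _ c)) (fun j => h0.cst _ (ht j)) hD X1.ff
    (alg_of_gf h0).alc)
  obtain ⟨P1, l1⟩ := res_pl X1 fr1 (v := V) (a := φ₀ a) (by rw [← e, h.ord_eq lV]; exact a0)
  have l0 : Lies φ₀ P1 P := l1.of_comp
    ((RingHom.ext e : φ.comp (algebraMap K F) = (algebraMap K1 F1).comp φ₀) ▸ lV.comp lP)
  have d0 : 0 < d := Nat.pos_of_ne_zero fun z => by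
    subst z
    exact Cb.no_pl X1.ff P1
  obtain ⟨S₁', p₁', ψ₀, e0, eS, key0, cn0, af0, pr0, xm, gn, rs⟩ := up h0 X1.ff hp ht l0 hP
  obtain ⟨p', cn⟩ := Tq.exists_cen (S := Algebra.adjoin ℂ (φ '' S)) (R := V) fun s hs =>
    adj_mem (by rintro _ ⟨b, hb, rfl⟩; exact (lV b).1 (hv ⟨b, hb⟩).1) hs
  let ψF : S →+* Algebra.adjoin ℂ (φ '' S) := (φ.comp S.val.toRingHom).codRestrict _ fun a =>
    Algebra.subset_adjoin ⟨a, a.2, rfl⟩
  have eF : ∀ a, (ψF a : F1) = φ a := fun _ => rfl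
  have key : ∀ a, a ∈ p ↔ ψF a ∈ p' := fun a =>
    (hv a).2.trans ((rd_iff h lV (hv a).1).symm.trans (cn (ψF a)).2.symm)
  have k0 : p₁'.comap ψ₀ = p₁ := Ideal.ext fun a => (key0 a).symm
  have k1 : p'.comap ψF = p := Ideal.ext fun a => (key a).symm
  obtain ⟨s, es⟩ := sw w (fun i => (t i : K)) u
  have hl0 := fun V U l => Gf.ld_eq h0 X.ff X1.ff ht hi (P := V) (Q := U) l
  have hl : ∀ V U, Lies φ V U → ∀ k g, ld (zt (fun j => φ₀ (w j)) fun i => φ (u i)) k (φ g) V =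
      ld (zt (Fin.append w fun i => (t i : K)) u) k g U := fun V U l k g => by
    rw [← zt_map e, Gf.ld_eq h (Nat.add_right_comm d r ρ ▸ X.ff') X1.ff' ht'
      (es ▸ (zt_ind hi X.ind).comp s s.injective) l, ← es, ld, ld, kap_eqv X.ff']
  have hlw : ∀ V U, Lies φ V U → lw (fun j => φ₀ (w j)) (fun i => φ (u i)) q
      (ψ.mapRange φ₀ (map_zero φ₀)) V = lw (Fin.append w fun i => (t i : K)) u q ψ U :=
    fun V U l => by simp only [lw_ld, lv_map e, hl V U l, h.ord_eq l]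
  have b0 : ∀ g, (∀ R, PDat S₁ p₁ R → ld (Fin.append w fun i => (t i : K)) q g R ≤ 1) →
      ∀ R, PDat S₁' p₁' R → ld (fun j => φ₀ (w j)) q (φ₀ g) R ≤ 1 := fun g k R' hR => by
    obtain ⟨R, l⟩ := h0.below X1.ff R'
    rw [hl0 R' R l]
    exact k R (pdat_down h0 hp.pri hLo0 ψ₀ e0 eS key0 l hR)
  obtain ⟨m, c1, c2⟩ := H d0 ρ K1 F1 (fun j => φ₀ (w j)) (fun i => φ (u i)) (lift φ₀ A) (lift φ G)
    (fun m => φ₀ (c m)) (ψ.mapRange φ₀ (map_zero φ₀)) S₁' p₁' _ p' (fun j => φ₀ (x j)) X1 fr1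
    (fun i => fx (fw i))
    ⟨af0, eS ▸ Bn.nor_up hp.aff nor₁ t h0, pr0, xm, fun j => (map_ne_zero φ₀).2 (x0 j), gn, rs,
      inr_up hI ψ₀ e0 eS key0, fun j => lift_eig h0 (hx j)⟩ (lift_fin h0 hA) (lift_eig h0 he)
    (aff_up h af X1.ff') (Bn.nor_up af nor (fun i => ⟨_, gd.le _ (t i).2⟩) h)
    ⟨lift_fin h ug.fin, fun j => fx (ug.fu j), fun τ' ⟨σ, hσ, h1⟩ =>
      let ⟨τ, hτ, h3⟩ := ug.dn σ hσ
      let ⟨τ₀, k, h2⟩ := lift_ex h0 hτ (hL0 τ hτ)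
      ⟨τ₀, k, sq e h0 h1 h2 h3⟩, fun τ₀ ⟨τ, hτ, h2⟩ =>
      let ⟨σ, hσ, h3⟩ := ug.up τ hτ
      let ⟨τ', k, h1⟩ := lift_ex h hσ (hL σ hσ)
      ⟨τ', k, sq e h0 h1 h2 h3⟩⟩
    ⟨fun a ha => (Algebra.adjoin_le (S := (Algebra.adjoin ℂ (φ '' S)).comap
        (IsScalarTower.toAlgHom ℂ K1 F1)) (by
          rintro _ ⟨b, hb, rfl⟩
          exact Algebra.subset_adjoin ⟨_, gd.le b hb, e b⟩)) (eS.le ha),
      cen_iff' l1 cn cn0, fun m m0 =>
        let ⟨b, hb, eb⟩ := gd.th m m0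
        ⟨ψF b, (key b).1 hb, by rw [eF, eb, hm_map e]⟩, Algebra.adjoin_le (by
      rintro _ ⟨a, ha, rfl⟩
      refine adj_up h ?_ (gd.gen ha)
      rintro _ (⟨b, hb, rfl⟩ | ⟨m, m0, rfl⟩)
      · exact Algebra.subset_adjoin (.inl ⟨_, (ψ₀ ⟨b, hb⟩).2, by rw [e0, e]⟩)
      · exact Algebra.subset_adjoin (.inr ⟨m, m0, (hm_map e _ _).symm⟩))⟩
    ⟨(map_ne_zero φ₀).2 tm.h0, fun m => by
      rw [Finsupp.mapRange_apply, Finsupp.mapRange_apply, ← map_div₀]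
      exact fx (tm.fx m), fun m hm m0 => by
      obtain ⟨c0, k⟩ := tm.sec m (Finsupp.support_mapRange hm) m0
      rw [Finsupp.mapRange_apply, ← map_div₀]
      exact ⟨(map_ne_zero φ₀).2 c0, b0 _ k⟩, b0 _ tm.bd₁, fun R' hR => by
      obtain ⟨R, l⟩ := h.below X1.ff' R'
      rw [hlw R' R l]
      exact tm.bd R (pdat_down h pr hLo ψF eF rfl key l hR),
      kl_up h0 X1.ff hp.pri hLo0 ψ₀ e0 eS key0 hl0 tm.kl₁,
      kl_up h X1.ff' pr hLo ψF eF rfl key hl tm.kl⟩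
    (fun P' hP' l μ l0 h1 h2 => by
      obtain ⟨U, lU, cU⟩ := cen_down h0 X1.ff ψ₀ e0 hP'
      obtain ⟨k, k2, k3⟩ := dp U (k0 ▸ cU) l μ l0 h1 fun s hs s0 => by
        rw [← h0.ord_eq lU, ← e0]
        exact h2 _ ((key0 s).1 hs) (e0 s ▸ (map_ne_zero φ₀).2 s0)
      refine ⟨k, k2, fun m m0 c0 => ?_⟩
      rw [h0.ord_eq lU]
      exact k3 m m0 ((map_ne_zero φ₀).1 c0))
    (fun V' hV ⟨i, hi⟩ k k2 dv => by
      obtain ⟨U, lU, cU⟩ := cen_down h X1.ff' ψF eF hV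
      rw [hlw V' U lU]
      refine hw U (k1 ▸ cU) ⟨i, h.ord_eq lU (u i) ▸ hi⟩ k k2 fun g g0 hg => ?_
      rw [← h.ord_eq lU]
      exact dv _ ((map_ne_zero φ).2 g0) (fx hg)) V cn
  refine ⟨m, fun σ hσ => φ₀.injective ?_, ?_⟩
  · obtain ⟨τ, hτ, eτ⟩ := lift_ex h0 hσ (hL0 σ hσ)
    rw [← eτ]
    simp only [map_mul φ₀, map_pow φ₀, map_prod φ₀]
    exact c1 τ hτ
  · rw [← hlw V v lV]
    simpa only [← e, h.ord_eq lV] using c2

/-- **NCL** -/
theorem ncl : NCL := by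
  intro L d E q ε hq hε
  obtain ⟨J, hJ⟩ := eige E
  choose W H using fun k => L (k + 1) E q ε k.succ_pos hq hε
  choose n₀ pos H using H
  refine ⟨(Finset.range d).sup W, J, ∏ k ∈ Finset.range d, n₀ k,
    Finset.prod_pos fun k _ => pos k, ?_⟩
  intro n hn dn dq ρ K F _ _ _ _ _ _ y u A G c ψ S₁ p₁ q₁ S p X fr fy af₁ nor₁ pr p0 mx le em fin
    st he af nor ug gd tm dp hw
  obtain ⟨B, r, x₀, t, idx, -, pa, hx₀, ht⟩ := hJ d K S₁ A p₁ q₁ af₁ fin st pr mx le em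
  refine ⟨B, idx, fun v hv => ?_⟩
  obtain ⟨a, ha, a0⟩ := Submodule.exists_mem_ne_zero_of_ne_bot p0
  have a1 : 0 < v.ord (algebraMap K F a) :=
    ((Hr.cen_iff hv _).1 ((gd.cm a ⟨_, gd.le a a.2⟩ rfl).1 ha)).resolve_left
      ((map_ne_zero (algebraMap K F)).2 fun z => a0 (Subtype.ext z))
  obtain ⟨P, lP⟩ := res_pl X fr a1
  obtain ⟨x, par, hx, x0⟩ := pa.nz hx₀ (gd_cen gd hv lP)
  have fB : Finite B := Finite.of_injective _ (Subgroup.inclusion_injective idx.le)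
  have fG : ∀ a, Fix A a → Fix B a := fun a fa σ hσ => fa σ (idx.le hσ)
  have it : AlgebraicIndependent ℂ fun i => (t i : K) := algebraicIndependent_iff.2 fun u e =>
    par.ind u (by
      have : (MvPolynomial.aeval t u : S₁) = 0 := Subtype.ext
        ((MvPolynomial.comp_aeval_apply t S₁.val u).trans e)
      exact this ▸ zero_mem p₁)
  obtain ⟨d, rfl⟩ : ∃ d', d = d' + r := by
    have := it.cardinalMk_le_trdeg
    rw [af₁.ff.trdeg, Cardinal.mk_fin, Nat.cast_le] at this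
    exact ⟨d - r, by omega⟩
  obtain ⟨w, fw, hi⟩ := inv_frame fr.ind (fun i => fG _ (fy i)) it fun i => fG _ (ht i)
  set z : Fin (d + r) → K := Fin.append w fun i => (t i : K) with hz
  obtain ⟨D, fz⟩ := Cb.fr_of af₁.ff hi
  have kF := N12.kzt X fz fr
  obtain ⟨D', fr'⟩ := id fr
  obtain ⟨j0, kj, -⟩ := kap' _ K z y D D' fz fr'
  set j := jac D y with hj
  have fj : Fix B j := fun σ hσ => by
    have e := P285N.Brep.chain ℂ K _ _ D fz σ y
    have e1 : (fun i => σ (y i)) = y := funext fun i => fy i σ (idx.le hσ)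
    have e2 : (fun i => σ (z i)) = z := funext fun i => by
      refine Fin.addCases (fun i => ?_) (fun i => ?_) i
      · rw [hz, Fin.append_left, fw i σ hσ]
      · rw [hz, Fin.append_right, ht i σ (idx.le hσ)]
    rw [e1, e2, Cb.jac_self fz, mul_one] at e
    exact e.symm
  have j1 : algebraMap K F j ≠ 0 := (map_ne_zero _).2 j0
  have jq : j ^ q ≠ 0 := pow_ne_zero _ j0
  have eψ : ∀ m, ((j ^ q)⁻¹ • ψ) m = ψ m / j ^ q := fun m => by
    rw [Finsupp.smul_apply, smul_eq_mul, div_eq_inv_mul]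
  have v0 : lv u ψ ≠ 0 := fun k => tm.h0 (by rw [(grd K F _ _ y u X fr).1 ψ k]; rfl)
  have elw : ∀ U, lw z u q ((j ^ q)⁻¹ • ψ) U = lw y u q ψ U := fun U => by
    rw [lw_ld, lw_ld, lv_smul, map_inv₀, map_pow, ← div_eq_inv_mul, ld_chg j1 kF hq v0]
  obtain ⟨e, c1, c2⟩ := trw (n := n) (q := q) (ε := ε) (ψ := (j ^ q)⁻¹ • ψ) (W := W (d - 1))
    (G := G ⊓ lift (algebraMap K F) B) (fun d0 => by
      obtain ⟨d, rfl⟩ : ∃ k, d = k + 1 := ⟨d - 1, by omega⟩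
      exact H d n hn ((Finset.dvd_prod_of_mem n₀ (Finset.mem_range.2 (by omega))).trans dn) dq)
    X par nor₁ x0 hi fB idx.inr hx (fun i => fG _ (ht i)) fw (fun σ hσ => by
      obtain ⟨k, hk⟩ := he σ (idx.le hσ)
      exact ⟨k, by rw [eψ, map_div₀, map_pow, hk, fj σ hσ, smul_div_assoc]⟩) af nor
    ⟨have := ug.fin; Finite.of_injective _ (Subgroup.inclusion_injective inf_le_left),
      fun i σ hσ => ug.fu i σ hσ.1, fun σ hσ => hσ.2, fun τ hτ =>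
        let ⟨σ, hσ, k⟩ := ug.up τ (idx.le hτ)
        ⟨σ, ⟨hσ, τ, hτ, k⟩, k⟩⟩ gd
    ⟨eψ 0 ▸ div_ne_zero tm.h0 jq, fun m => by
      rw [eψ, eψ, div_div_div_cancel_right₀ jq]
      exact fG _ (tm.fx m), fun m hm m0 => by
      have hm' := Finsupp.support_smul hm
      obtain ⟨c0, k⟩ := tm.sec m hm' m0
      refine ⟨c0, fun R hR => ?_⟩
      rw [eψ, div_right_comm, ld_chg j0 kj hq (div_ne_zero (Finsupp.mem_support_iff.1 hm') c0)]
      exact k R hR, fun R hR => by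
      rw [eψ, ld_chg j0 kj hq tm.h0]
      exact tm.bd₁ R hR, fun R hR => (elw R).trans_le (tm.bd R hR), kl_chg j0 kj tm.kl₁,
      kl_chg j1 kF tm.kl⟩
    (dp.mono (Finset.le_sup (Finset.mem_range.2 (by
      rcases Nat.eq_zero_or_pos (d + r) with k | k
      · exact (Cb.no_pl (k ▸ X.ff) P).elim
      · omega))))
    (fun U hU hi k k0 dv => (hw U hU hi k k0 fun g g0 hg => dv g g0 fun σ hσ =>
      hg σ hσ.1).trans_eq (elw U).symm) hv lP a1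
  choose s _ es using par.mem
  refine ⟨∏ i, x i ^ e i, ?_, Finset.prod_ne_zero_iff.2 fun i _ => pow_ne_zero _ (x0 i),
    fun σ hσ => ?_, ?_⟩
  · have := lo_of pr (∏ i, s i ^ e i)
    simpa only [SubmonoidClass.coe_finsetProd, SubmonoidClass.coe_pow, es] using this
  · have k : (∏ i, x i ^ e i) * ψ 0 ^ (n / q) =
        (∏ i, x i ^ e i) * (ψ 0 / j ^ q) ^ (n / q) * (j ^ q) ^ (n / q) := by
      rw [mul_assoc, ← mul_pow, div_mul_cancel₀ _ jq]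
    rw [k, map_mul, ← eψ, c1 σ hσ, map_pow, map_pow, fj σ hσ]
  · rw [← elw, map_prod, A0r.ord_prod v _ _ fun i => (map_ne_zero _).2 (pow_ne_zero _ (x0 i))]
    simpa only [map_pow, Pl.ord_pow, Int.cast_sum, Int.cast_mul, Int.cast_natCast] using c2

/-- **WBP** -/
theorem wbp : WBP := ncl ltw

end Vale.Agent.P283R.Wd.N26
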