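import Vale.Agent.P283R.Wd.A42
import Vale.Agent.P283R.Wd.Btow1
import Vale.Agent.P283R.Wd.Bprm78
import Vale.Agent.P283R.Wd.Bugg30
import Vale.Agent.P283R.Wd.Bgss21
import Vale.Agent.P283R.Wd.Blifg13
import Vale.Agent.P283R.Wd.Bpos73
import Vale.Agent.P283R.Wd.Bgts85
import Vale.Agent.P283R.Wd.Bdpt31
import Vale.Agent.P283R.Wd.Pdb79
import Vale.Agent.P283R.Wd.Bkld64
import Vale.Agent.P283R.Wd.Bgds14
import Vale.Agent.P283R.Wd.Bcor62
import Vale.Agent.P283R.Wd.Bmnw95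
import Vale.Agent.P283R.Wd.Bntw22
import Vale.Agent.P283R.Wd.Ncl26

/-!
# P283R, block WD: the glue of the second layer
-/

namespace Vale.Agent.P283R.Wd

/-- the monomial, from the two remaining rows -/
theorem mnw_of (nc : NCL) (ntw : NTW) : MNW :=
  mnwr tow lifg gts (corr62 (nc ltw) prm ugg30 gss pos dpt pdb79 kld64 gds ntw)

/-- the monomial -/
theorem mnw : MNW := mnw_of N26.ncl ntw22

end Vale.Agent.P283R.Wd
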