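import Vale.Agent.P283R.Wd.Spl25

/-!
# P283R, block WD: the families do not depend on the basis of the lattice
-/

open Set Matrix
open Vale.Agent.P287D Vale.Agent.P283R.To Vale.Agent.P283R.Cx

noncomputable section

namespace Vale.Agent.P283R.Wd.B25

open Wr

variable {K : Type} [Field K] [Algebra ℂ K] {r : ℕ} {s : K} {y : Fin r → K}
  {A B : Matrix (Fin r) (Fin r) ℤ} {ι : Type}

/-- the change of the degrees -/
def ev (hB : B * A = 1) : (Fin r → ℤ) ≃ (Fin r → ℤ) where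
  toFun m := m ᵥ* B
  invFun m := m ᵥ* A
  left_inv m := by simp only [Matrix.vecMul_vecMul, hB, Matrix.vecMul_one]
  right_inv m := by simp only [Matrix.vecMul_vecMul, mul_eq_one_comm.1 hB, Matrix.vecMul_one]

theorem hm_ev (h : D.Rat (fr s y)) (hB : B * A = 1) (m : Fin r → ℤ) :
    Hm s (fun i => mon y (A i)) (ev hB m) = Hm s y m := (bas1 h hB).2.2.1 m

theorem hm_ev' (h : D.Rat (fr s y)) (hB : B * A = 1) (m : Fin r → ℤ) :
    Hm s (fun i => mon y (A i)) m = Hm s y (m ᵥ* A) := by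
  rw [← hm_ev h hB]
  exact congrArg _ ((ev hB).apply_symm_apply m).symm

theorem all_hm (h : D.Rat (fr s y)) (hB : B * A = 1) {p : K → Prop} :
    (∀ u, ∀ a ∈ Hm s (fun i => mon y (A i)) u, p a) ↔ ∀ u, ∀ a ∈ Hm s y u, p a :=
  ⟨fun k u a ha => k _ a (hm_ev h hB u ▸ ha), fun k u a ha => k _ a (hm_ev' h hB u ▸ ha)⟩

theorem ex_hm (h : D.Rat (fr s y)) (hB : B * A = 1) {a : K} :
    (∃ u, a ∈ Hm s (fun i => mon y (A i)) u) ↔ ∃ u, a ∈ Hm s y u :=
  ⟨fun ⟨u, ha⟩ => ⟨_, hm_ev' h hB u ▸ ha⟩, fun ⟨u, ha⟩ => ⟨_, hm_ev h hB u ▸ ha⟩⟩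

theorem tv_iff (h : D.Rat (fr s y)) (hB : B * A = 1) (P : Pl K) :
    Tv s (fun i => mon y (A i)) P ↔ Tv s y P := all_hm h hB

omit [Algebra ℂ K] in
theorem tot_ev (e : (Fin r → ℤ) ≃ (Fin r → ℤ)) (G : (Fin r → ℤ) →₀ K) :
    tot (G.equivMapDomain e) = tot G := Finsupp.sum_equivMapDomain e G _

theorem hg_up (h : D.Rat (fr s y)) (hB : B * A = 1) {G : (Fin r → ℤ) →₀ K} (hG : Hg s y G) :
    Hg s (fun i => mon y (A i)) (G.equivMapDomain (ev hB)) := fun u => by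
  rw [hm_ev' h hB]
  exact hG _

theorem hg_dn (h : D.Rat (fr s y)) (hB : B * A = 1) {G : (Fin r → ℤ) →₀ K}
    (hG : Hg s (fun i => mon y (A i)) G) : Hg s y (G.equivMapDomain (ev hB).symm) := fun u => by
  rw [← hm_ev h hB]
  exact hG _

/-- **families** -/
theorem fm_bas {w : ι → Prop} {P : ι → Pl K} (h : Fm s y w P) (hB : B * A = 1) :
    Fm s (fun i => mon y (A i)) w P := by
  obtain ⟨a1, -, -, -, -, a6⟩ := bas1 h.rat hB
  have tv := tv_iff h.rat hB
  refine ⟨a1, h.fin, by simpa only [a6] using h.finc, fun E hE n G hG u h0 => ?_, fun φ φ0 k => ?_,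
    by simpa only [tv] using h.eqn, by simpa only [tv, a6] using h.kt, h.mis⟩
  · have := h.inv E hE (mt (tv _).2 n) _ (hg_dn h.rat hB hG) ((ev hB).symm u) (by simpa using h0)
    simpa [tot_ev] using this
  · obtain ⟨G, hG, e⟩ := h.lau φ φ0 fun E hE t => k E hE ((tv _).2 t)
    exact ⟨_, hg_up h.rat hB hG, by rw [tot_ev, e]⟩

/-- **the inequality** -/
theorem hw_bas (h : D.Rat (fr s y)) (hB : B * A = 1) {ε : ℝ} {q : ℕ} {w : ι → Prop}
    {P : ι → Pl K} {g : K} {κ : ι → ℤ} :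
    Wr.Hw ε q s (fun i => mon y (A i)) w P g κ ↔ Wr.Hw ε q s y w P g κ := by
  simp only [Wr.Hw, tv_iff h hB, (bas1 h hB).2.2.2.2.2]
  refine forall₂_congr fun Q ξ => imp_congr_right fun _ => imp_congr_right fun _ =>
    imp_congr_left (all_hm h hB)

theorem kt_bas (h : D.Rat (fr s y)) (hB : B * A = 1) {w : ι → Prop} {P : ι → Pl K}
    {Kp : Finset ℂ} {E : ι} : Kt s (fun i => mon y (A i)) w P Kp E ↔ Kt s y w P Kp E := by
  simp only [Kt, tv_iff h hB]

/-- the walls: the last coordinates are the only ones which move -/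
theorem ord_bas (h : D.Rat (fr s y)) (A : Matrix (Fin r) (Fin r) ℤ) (P : Pl K) (i : Fin r) :
    P.ord (mon y (A i)) = A i ⬝ᵥ fun j => P.ord (y j) := by
  have y0 : ∀ j, y j ≠ 0 := fun j => h.ind.ne_zero j.succ
  rw [ord_mon P y0, dotProduct]

end Vale.Agent.P283R.Wd.B25
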