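import Vale.Agent.P283R.Wd.St
import Vale.Agent.P283R.Wd.Ltw42
import Vale.Agent.P283R.Bh.Ver

/-!
# P283R, block WD: the theorem for the finite groups
-/

open Set

noncomputable section

namespace Vale.Agent.P283R.Wd

open Vale.Agent.P287D Vale.Agent.P283M Vale.Agent.P297Z Cx Cy
open Vale.Agent.P283R.To (mon)

namespace B45

section one

variable {K F : Type} [Field K] [Algebra ℂ K] [Field F] [Algebra ℂ F] [Algebra K F]
  [IsScalarTower ℂ K F] {c d k N q : ℕ} {ε : ℝ} {y : Fin d → K} {t : Fin k → F} {T : Set (Pl K)}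
  {D : Pl K → Fin k → ℤ} {s : Fin N → K} {a : Fin N → Fin k → ℤ}
  {f : Fin c → MvPolynomial (Fin N) ℂ} {h g : K} {δ b : Fin k → ℤ}

/-- the hypothesis (H) at a place which is not trivial on `K` -/
theorem hyp (hε : 0 < ε) (X : Dx q ε y T D s a f h g δ b) (x : Ext K d t) {V : Pl F}
    (hV : ∀ z ∈ Rg s a t, z ∈ V.ring) {φ : K} (v : V.ord (algebraMap K F φ) ≠ 0)
    {G : Subgroup (F ≃ₐ[ℂ] F)} {r e : ℕ} (hG : (G : Set _) = Gr K t r) (dv : Dv G V e) :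
    ε * e ≤ lt y t V - (V.ord (hm t h δ) : ℝ) / q := by
  obtain ⟨tr, -⟩ | ⟨Q, l, w⟩ := dwn K F d k y t x X.fr V
  · rw [Trv.ord tr] at v
    exact (v rfl).elim
  · have b1 := Md.hw_ver x.ind.ne_zero X.cox.ne X.h0 X.hw l
      (fun j => Pl.ord_nonneg_of_mem _ (hV _ (gen_mem s a t j))) w
    have le : (e : ℝ) ≤ V.ord (algebraMap K F Q.t) := by
      exact_mod_cast Int.le_of_dvd l.e_pos (dv _ ((map_ne_zero _).2 Q.t_ne) (Tz.fix_K hG _))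
    exact (mul_le_mul_of_nonneg_left le hε.le).trans b1

/-- the prime divisors -/
theorem pd (q0 : 0 < q) (X : Dx q ε y T D s a f h g δ b) (x : Ext K d t) (R : Pl F)
    (c : PD (Rg s a t) R) :
    lt y t R - (R.ord (hm t h δ) : ℝ) / q + (R.ord (hm t g b) : ℝ) / q = 1 := by
  have q' : (0 : ℝ) < q := Nat.cast_pos.2 q0
  obtain ⟨E, hE, v⟩ | z := pdv_of grd gav K F d k y t x X.fr _ T D s a X.cox R c
  · rw [v.lt, v.ord _ _ X.h0, v.ord _ _ X.g0, X.eq E hE]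
    field_simp
    ring
  · rw [kah K F d k y t x X.fr _ T D s a X.cox R c z, z _ _ X.h0, z _ _ X.g0]
    simp

omit [IsScalarTower ℂ K F] [Algebra ℂ K] in
theorem ord_spl (ht : ∀ i, t i ≠ 0) (h0 : h ≠ 0) (g0 : g ≠ 0) (V : Pl F) :
    (V.ord (hm t h (δ - b)) : ℝ) = V.ord (hm t (h * g) δ) - V.ord (hm t g b) := by
  rw [show hm t (h * g) δ = hm t h (δ - b) * hm t g b by rw [← hm_mul ht, sub_add_cancel],
    Pl.ord_mul _ (hm_ne ht h0 _) (hm_ne ht g0 _)]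
  push_cast
  ring

omit [Algebra ℂ K] [IsScalarTower ℂ K F] in
theorem eigA {A : Subgroup (F ≃ₐ[ℂ] F)} {r : ℕ} (hA : (A : Set _) = Gr K t r) (φ : K)
    (e : Fin k → ℤ) : Eig A (hm t φ e) := fun σ hσ => by
  obtain ⟨k1, k2⟩ := (hA ▸ hσ : σ ∈ Gr K t r)
  choose z z1 z2 using k2
  refine ⟨∏ i, z i ^ e i, ?_⟩
  simp only [hm, mon, map_mul, k1, map_prod, map_zpow₀, z2, Algebra.smul_def, mul_zpow,
    Finset.prod_mul_distrib]
  ring

omit [Algebra ℂ K] [IsScalarTower ℂ K F] in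
theorem fix_y (ht : ∀ i, t i ≠ 0) {A : Subgroup (F ≃ₐ[ℂ] F)} {r : ℕ}
    (g3 : ∀ (φ : K) e, (∀ i, (r : ℤ) ∣ e i) → Fix A (hm t φ e)) (i : Fin (d + k)) :
    Fix A (zt y (fun i => t i ^ r) i) := by
  refine Fin.addCases (fun i => ?_) (fun i => ?_) i
  · rw [zt, Fin.append_left, ← hm_deg0 t]
    exact g3 _ _ fun _ => dvd_zero _
  · rw [zt, Fin.append_right, ← hm_single (K := K) t, ← hm_pow ht]
    exact g3 _ _ fun _ => dvd_mul_right _ _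

end one

variable {K₁ K₀ K F : Type} [Field K₁] [Algebra ℂ K₁] [Field K₀] [Algebra ℂ K₀] [Field K]
  [Algebra ℂ K] [Field F] [Algebra ℂ F] [Algebra K₁ K₀] [Algebra K₁ K] [Algebra K₀ F] [Algebra K F]
  {d k ρ N E q r : ℕ} {ι : Type} {y : Fin d → K₁} {u : Fin ρ → K₀} {t : Fin k → K}

omit [Algebra ℂ K₁] [Algebra ℂ K₀] [Algebra ℂ K] [Algebra K₁ K] in
/-- the log discrepancy of the twisted pair -/
theorem lw_eq (q0 : 0 < q) (u0 : ∀ i, u i ≠ 0) {t' : Fin k → F} (t0 : ∀ i, t' i ≠ 0) {η : K₁}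
    (η0 : η ≠ 0) {g : K₀} (g0 : g ≠ 0) {ψ : (Fin ρ → ℤ) →₀ K} {e : Fin k → ℤ} {V : Pl F}
    {y' : Fin (d + k) → K}
    (h1 : lv (fun i => algebraMap K₀ F (u i)) ψ =
      hm t' (algebraMap K₁ K₀ (η ^ q) * g) (e + fun _ => (r : ℤ) * q))
    (h2 : lt y' (fun i => algebraMap K₀ F (u i)) V = lt (zt y u) t' V -
      ∑ i, (V.ord (algebraMap K₀ F (u i)) : ℝ) + r * ∑ i, (V.ord (t' i) : ℝ)) :
    lw y' (fun i => algebraMap K₀ F (u i)) q ψ V =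
      lt (zt y u) t' V - (V.ord (hm t' (hm u η 1 ^ q * g) e) : ℝ) / q := by
  have q' : (q : ℝ) ≠ 0 := Nat.cast_ne_zero.2 q0.ne'
  have a0 : algebraMap K₁ K₀ (η ^ q) * g ≠ 0 :=
    mul_ne_zero ((map_ne_zero _).2 (pow_ne_zero _ η0)) g0
  have p0 : ∏ i, algebraMap K₀ F (u i) ≠ 0 :=
    Finset.prod_ne_zero_iff.2 fun i _ => (map_ne_zero _).2 (u0 i)
  have e1 : algebraMap K₀ F (hm u η 1 ^ q * g) =
      algebraMap K₀ F (algebraMap K₁ K₀ (η ^ q) * g) * (∏ i, algebraMap K₀ F (u i)) ^ q := by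
    simp only [hm, mon, Pi.one_apply, zpow_one, map_mul, map_pow, map_prod]
    ring
  rw [lw, h1, h2, ord_hm t0 V a0,
    ord_hm t0 V (mul_ne_zero (pow_ne_zero _ (hm_ne u0 η0 _)) g0), e1,
    Pl.ord_mul _ ((map_ne_zero _).2 a0) (pow_ne_zero _ p0), Pl.ord_pow,
    V.ord_prod _ fun i _ => (map_ne_zero _).2 (u0 i)]
  simp only [Pi.add_apply, add_mul, Finset.sum_add_distrib, ← Finset.mul_sum]
  push_cast
  field_simp
  ring

omit [Algebra ℂ K₁] in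
theorem cc0 {π : Pg ι K₁ k ρ} (k0 : ∀ p ∈ π.I, π.κ p 0 = 0) : π.cc 0 = 1 ∧ π.al 0 = 0 :=
  ⟨Finset.prod_eq_one fun p hp => by rw [k0 p hp, zpow_zero], by
    rw [Pg.al, Finset.sum_eq_zero fun i _ => by simp,
      Finset.sum_eq_zero fun p hp => by rw [k0 p hp, zero_smul], add_zero]⟩

omit [Algebra ℂ K₁] [Field K₁] in
theorem wid_mono {π : Pg ι K₁ k ρ} {W W' : ℕ} (h : π.Wid W) (le : W' ≤ W) : π.Wid W' :=
  ⟨h.k0, h.vn, h.vk, fun ν n => le.trans (h.wid ν n)⟩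

omit [Algebra ℂ K₁] [Field K₁] in
theorem ex_pg {π : Pg ι K₁ k ρ} {W : ℕ} (h : π.Wid (W + 1)) (ρ0 : 0 < ρ) : ∃ p, p ∈ π.I := by
  have := h.wid 1 fun e => by simpa using congrFun e ⟨0, ρ0⟩
  obtain ⟨p, hp⟩ := (ncard_pos ((π.I.finite_toSet).subset fun p hp => hp.1)).1
    ((Nat.succ_pos W).trans_le this)
  exact ⟨p, hp.1⟩

end B45

open B45

/-- **CORR** -/
theorem corr : CORR := by
  classical
  intro wbp prm ugg gss pos dpt pdb kld gds ntw d k ρ E q ε ρ0 q0 e0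
  obtain ⟨W', J, n₀, n0, H⟩ := wbp (d + k) E q ε q0 e0
  obtain ⟨W, hW⟩ := dpt ρ W' ρ0
  refine ⟨W + 1, 2 * n₀ * J.factorial, Nat.le_add_left _ _,
    by nlinarith [Nat.mul_le_mul n0 J.factorial_pos], ?_⟩
  intro K₁ K₀ K F _ _ _ _ _ _ _ _ _ _ _ _ _ _ _ _ N c ι y u t T D s a f η γ δ b π s' a' Q U u₀ r x X
    L r0
  have Y := X.dx
  have t0 := x.x2.ind.ne_zero
  have u0 := x.x1.ind.ne_zero
  have t1 := x.x4.ind.ne_zero
  have u1 := x.x3.ind.ne_zero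
  have q' : (0 : ℝ) < q := Nat.cast_pos.2 q0
  have η0 : η ≠ 0 := by
    rintro rfl
    exact Y.h0 (by rw [hm_zero, zero_pow q0.ne', zero_mul])
  have ηq := pow_ne_zero q η0
  obtain ⟨p1, p2, p3, p4⟩ := prm K₁ K₀ K F d k ρ y u t x X.fr
  obtain ⟨gs, A1, N1, A2⟩ := gss K₁ K₀ K F d k ρ y u t x X.fr N E ι π T D s a s' a' Y.cox X.wv
    X.wid.k0
  have N2 := nor_of gav K₀ F _ k _ _ x.x4 Y.fr _ T D s a Y.cox
  obtain ⟨A, a0, a1, a2, a3, -⟩ := grp K₁ K d k y t x.x2 X.fr r r0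
  obtain ⟨G, g0, g1, -⟩ := grp K₀ F _ k _ _ x.x4 Y.fr r r0
  obtain ⟨l1, -⟩ := lar K₁ K d k y t x.x2 X.fr r r0
  have hU := Tz.rg_le fun j => (L.gt j).1
  obtain ⟨p, hp⟩ := Tq.exists_cen hU
  obtain ⟨c0, c1⟩ := cc0 X.wid.k0
  have ps := pos K₀ F _ k _ _ x.x4 Y.fr N s a Q U u₀ Y.cox.ne L
  have cm : ∀ (z : K₁) e, algebraMap K F (hm t z e) =
      hm (fun i => algebraMap K F (t i)) (algebraMap K₁ K₀ z) e := fun z e => by
    have := p1 z 0 e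
    rwa [hm_deg0, hm_deg0] at this
  have pl : ∀ j ∈ π.I, 0 < U.ord (algebraMap K F (hm t (π.l j) (π.β j))) := fun j hj => by
    rw [cm]
    refine (ps _ _ ?_ ((map_ne_zero _).2 (X.wv.l0 j hj).1)).2 (X.ps.pl j hj)
    rw [← hm_deg0 u, X.wv.fre, c0, c1, div_one, sub_zero]
    exact (X.wv.l0 j hj).2
  obtain ⟨j₀, hj⟩ := ex_pg X.wid ρ0
  obtain ⟨P, lP⟩ : ∃ P, Lies (algebraMap K F) U P := by
    obtain ⟨tr, -⟩ | ⟨P, l, -⟩ := dwn K F _ ρ _ _ x.x3 l1 U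
    · have := pl j₀ hj
      rw [Trv.ord tr] at this
      exact (lt_irrefl _ this).elim
    · exact ⟨P, l⟩
  have sub : ∀ z ∈ Rg s' a' t, algebraMap K F z ∈ Rg s a fun i => algebraMap K F (t i) :=
    fun z hz => (gs.mem _).2 ⟨.single 0 z, by rw [lv_single, hm_deg0], fun m => by
      by_cases e : m = 0
      · rwa [e, Finsupp.single_eq_same, gs.c0, div_one]
      · rw [Finsupp.single_eq_of_ne e, zero_div]
        exact zero_mem _⟩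
  obtain ⟨p₁, hp₁⟩ := Tq.exists_cen (S := Rg s' a' t) (R := P) fun z hz =>
    (lP z).2 (hU _ (sub z hz))
  have pp := P283R.Hr.cen_prime hp₁
  obtain ⟨M, hM, le⟩ := p₁.exists_le_maximal pp.ne_top
  have lp : ∀ j ∈ π.I, π.l j ≠ 0 ∧ ∃ b ∈ p₁, (b : K) = hm t (π.l j) (π.β j) := fun j hj => by
    have m := mem_Rg t0 (X.wv.l0 j hj).2
    refine ⟨(X.wv.l0 j hj).1, ⟨_, m⟩, (hp₁ _).2.2 ((Cb.rd_eq_zero (hp₁ ⟨_, m⟩).1).2 ?_), rfl⟩
    have := pl j hj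
    rw [lP.ord] at this
    rw [Cb.mx_iff]
    exact .inr ((mul_pos_iff_of_pos_left lP.e_pos).1 this)
  obtain ⟨dp, lf⟩ := hW K₁ K d k y t x.x2 X.fr ι π _ p₁ (wid_mono X.wid (Nat.le_succ _)) lp
  have cc : ∀ m, π.cc m ≠ 0 := fun m =>
    Finset.prod_ne_zero_iff.2 fun j hj => zpow_ne_zero _ (X.wv.l0 j hj).1
  have gd := gds K F _ ρ _ _ x.x3 l1 _ _ _ p₁ p U P gs lP hp hp₁ fun m m0 => by
    rw [Pg.cK, p1]
    refine (ps _ _ ?_ (hm_ne u0 (cc m) _)).2 (X.ps.pt m m0)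
    rw [X.wv.fre, div_self (cc m), sub_self]
    simpa [dg_zero] using mon_mem s' a' 0
  obtain ⟨ψ, hψ⟩ : ∃ ψ : (Fin ρ → ℤ) →₀ K, ∀ m,
      ψ m = hm t (η ^ q * γ m) (δ + fun _ => (r : ℤ) * q) :=
    ⟨γ.mapRange (fun z => hm t (η ^ q * z) _) (by rw [mul_zero, hm_zero]), fun _ => rfl⟩
  have e1 := fun V => lw_eq q0 u0 t1 η0 Y.g0 (p2 γ ψ _ _ hψ) (p3 r r0 V)
  obtain ⟨g, hg⟩ : ∃ g : K, g = hm t (η ^ q) (δ - b + fun _ => (r : ℤ) * q) := ⟨_, rfl⟩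
  have g0' : g ≠ 0 := hg ▸ hm_ne t0 ηq _
  have e2 : ∀ V, lw (zt y fun i => t i ^ r) (fun i => algebraMap K₀ F (u i)) q (.single 0 g) V =
      lt (zt y u) (fun i => algebraMap K F (t i)) V - (V.ord (hm (fun i => algebraMap K F (t i))
        (hm u η 1 ^ q * lv u γ) δ) : ℝ) / q +
        (V.ord (hm (fun i => algebraMap K F (t i)) (lv u γ) b) : ℝ) / q := fun V => by
    have z := p2 (.single 0 1) (.single 0 g) (η ^ q) (δ - b + fun _ => (r : ℤ) * q) fun m => by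
      by_cases e : m = 0
      · rw [e, Finsupp.single_eq_same, Finsupp.single_eq_same, mul_one, hg]
      · rw [Finsupp.single_eq_of_ne e, Finsupp.single_eq_of_ne e, mul_zero, hm_zero]
    rw [lv_single (φ := 1), hm_one] at z
    rw [lw_eq q0 u0 t1 η0 one_ne_zero z (p3 r r0 V), mul_one,
      ord_spl t1 (pow_ne_zero _ (hm_ne u0 η0 _)) Y.g0]
    ring
  have b1 : ∀ R, PD _ R → lw (zt y fun i => t i ^ r) (fun i => algebraMap K₀ F (u i)) q ψ R ≤ 1 :=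
    fun R c => by
      obtain ⟨p', c'⟩ := id c
      have : (0 : ℝ) ≤ R.ord (hm (fun i => algebraMap K F (t i)) (lv u γ) b) :=
        Int.cast_nonneg (Pl.ord_nonneg_of_mem _ (c'.1 ⟨_, mem_Rg t1 Y.gs⟩).1)
      rw [e1]
      linarith [pd q0 Y x.x4 R c, div_nonneg this q'.le]
  have b2 : ∀ R, PD _ R → lw (zt y fun i => t i ^ r) (fun i => algebraMap K₀ F (u i)) q
      (.single 0 g) R ≤ 1 := fun R c => ((e2 R).trans (pd q0 Y x.x4 R c)).le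
  have b3 : ∀ V, (∀ z ∈ Rg s a fun i => algebraMap K F (t i), z ∈ V.ring) →
      0 < lw (zt y fun i => t i ^ r) (fun i => algebraMap K₀ F (u i)) q (.single 0 g) V :=
    fun V c => (Mp.lk q0 e0 Y x.x4 V c).2.trans_eq (e2 V).symm
  have d1 := pdb K F _ ρ _ _ x.x3 l1 q _ ψ _ _ q0 gs A1 N1 A2 N2 b1
  have d2 := pdb K F _ ρ _ _ x.x3 l1 q _ _ _ _ q0 gs A1 N1 A2 N2 b2 0
    (by simpa using g0')
  rw [Finsupp.single_eq_same, gs.c0, div_one] at d2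
  have h0 := mul_ne_zero ηq X.g0
  have ψ0 : ψ 0 ≠ 0 := (hψ 0).symm ▸ hm_ne t0 h0 _
  have d0 := d1 0 (Finsupp.mem_support_iff.2 ψ0)
  rw [gs.c0, div_one] at d0
  have v0 : lv (fun i => algebraMap K₀ F (u i)) (Finsupp.single 0 g) ≠ 0 := by
    rw [lv_single]
    exact hm_ne u1 g0' _
  obtain ⟨B, i, S⟩ := H (q * (2 * n₀)) (by positivity) ((dvd_mul_left _ _).mul_left _)
    (dvd_mul_right _ _) ρ K F _ _ A G _ ψ _ p₁ M _ p x.x3 l1 (fix_y t0 a3) A1 N1 pp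
    (fun e => by
      obtain ⟨z0, z, hz, e'⟩ := lp j₀ hj
      rw [e, Ideal.mem_bot] at hz
      exact hm_ne t0 z0 _ (by rw [← e', hz]; rfl))
    hM le (Bg.emd (fun j => hm t (s' j) (a' j)) M hM) a1 (a2 _ s' a')
    ((hψ 0).symm ▸ eigA a0 _ _) A2 N2 (ugg K₁ K₀ K F d k ρ y u t x X.fr r A G r0 a0 g0 g1) gd
    ⟨ψ0, fun m => by
        rw [hψ, hψ, div_eq_mul_inv, ← hm_inv t0, ← hm_mul t0, add_neg_cancel]
        exact a3 _ _ fun _ => dvd_zero _,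
      fun m hm' _ => ⟨gs.ne m, fun R ⟨p', _, c⟩ => d1 m hm' R ⟨p', c⟩⟩,
      fun R ⟨p', _, c⟩ => d0 R ⟨p', c⟩, fun R ⟨p', _, c⟩ => b1 R ⟨p', c⟩,
      ⟨q, g, q0, g0', fun R ⟨p', _, c⟩ => d2 R ⟨p', c⟩, fun p' _ R c =>
        kld K F _ ρ _ _ x.x3 l1 q _ g _ _ q0 g0' gs lf b3 R fun z hz => (c ⟨z, hz⟩).1⟩,
      ⟨q, _, q0, mul_ne_zero v0 (pow_ne_zero q (Finset.prod_ne_zero_iff.2 fun i _ => u1 i)),
        fun R ⟨p', _, c⟩ => (L42.ld_lw u1 v0 q0 R).trans_le (b2 R ⟨p', c⟩),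
        fun p' _ R c => (b3 R fun z hz => (c ⟨z, hz⟩).1).trans_eq (L42.ld_lw u1 v0 q0 R).symm⟩⟩
    dp fun V c ⟨i, hi⟩ e _ dv =>
      (hyp e0 Y x.x4 (fun z hz => (c ⟨z, hz⟩).1) hi g0 dv).trans_eq (e1 V).symm
  obtain ⟨z, z1, z0, z2, z3⟩ := S U hp
  rw [Nat.mul_div_cancel_left _ q0, hψ] at z2
  obtain ⟨n, n1, n2⟩ := ntw K₁ K d k y t x.x2 X.fr E J r _ s' a' A B p₁ P z _ _ r0 a0 X.wv.ne A1
    hp₁ (p4 U P lP L.gm) i z1 z0 h0 z2
  refine ⟨n, fun i => ?_, ?_⟩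
  · have := n1 i
    rw [Pi.add_apply, mul_add, ← add_assoc] at this
    exact (dvd_add_left (Dvd.dvd.mul_left (dvd_mul_right _ _) _)).1 this
  · have ep : (0 : ℝ) < U.ord (algebraMap K F P.t) := by exact_mod_cast lP.e_pos
    have J0 : (0 : ℝ) < J.factorial := Nat.cast_pos.2 J.factorial_pos
    have n' : (0 : ℝ) < n₀ := Nat.cast_pos.2 n0
    rw [e1, div_lt_iff₀ (by positivity), lP.ord] at z3
    have k1 := mul_le_mul_of_nonneg_left n2 ep.le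
    have k2 := mul_lt_mul_of_pos_left z3 J0
    rw [Finset.mul_sum] at k1
    refine (le_of_eq (Finset.sum_congr rfl fun j _ => by
      rw [← cm, lP.ord]
      push_cast
      ring)).trans_lt (k1.trans_lt ?_)
    push_cast at k2 ⊢
    linarith

end Vale.Agent.P283R.Wd
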