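import Vale.Agent.P283R.Wd.St
import Vale.Agent.P283R.Wd.Gq95
import Vale.Agent.P283R.Cx.Lif

/-!
# P283R, block WD: the lift of Goldman and Tucker is a Gauss place
-/

open Set

noncomputable section

namespace Vale.Agent.P283R.Wd

open Vale.Agent.P287D Vale.Agent.P283M Cx
open Vale.Agent.P283R.To (mon)

namespace L1

variable {K F : Type} [Field K] [Algebra ℂ K] [Field F] [Algebra ℂ F] [Algebra K F]
  [IsScalarTower ℂ K F] {d k : ℕ} {y : Fin d → K} {t : Fin k → F}

/-- the Gauss lift with rational weights on the `t i` -/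
theorem lift (x : Ext K d t) (hy : Frm y) (Q : Pl K) (ξ : Fin k → ℚ) :
    ∃ U : Pl F, Lies (algebraMap K F) U Q ∧
      lt y t U = U.ord (algebraMap K F Q.t) * (1 + kap y Q) ∧
      (∀ i, (U.ord (t i) : ℚ) = U.ord (algebraMap K F Q.t) * ξ i) ∧ Gm (K := K) t U := by
  let a : ℕ := ∏ i, (ξ i).den
  have a0 : 0 < a := Finset.prod_pos fun i _ => (ξ i).den_pos
  have : ∀ i, ∃ c : ℤ, (c : ℚ) = a * ξ i := fun i => by
    obtain ⟨c, hc⟩ : (ξ i).den ∣ a := Finset.dvd_prod_of_mem _ (Finset.mem_univ i)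
    refine ⟨c * (ξ i).num, ?_⟩
    rw [hc]
    push_cast
    rw [← Rat.mul_den_eq_num]
    ring
  choose w hw using this
  obtain ⟨U, g⟩ := gq x hy Q a0 w
  refine ⟨U, g.lies, g.lt, fun i => ?_, g.min⟩
  have e := g.ord 1 (Pi.single i 1) one_ne_zero
  rw [hm_single, P297Z.Pl.ord_one, single_one_dotProduct, mul_zero, zero_add] at e
  have e' : (a : ℚ) * U.ord (t i) = U.ord (algebraMap K F Q.t) * w i := by exact_mod_cast e
  rw [hw, mul_left_comm] at e'
  exact mul_left_cancel₀ (Nat.cast_ne_zero.2 a0.ne') e'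

end L1

/-- **LIFG** -/
theorem lifg1 : LIFG := by
  intro K F _ _ _ _ _ _ d k y t x hy N s a Q s0 h
  classical
  let L : AddSubgroup (Fin N → ℤ) :=
    { carrier := {u | ∀ i, ∑ j, u j * a j i = 0}
      add_mem' := fun {u v} hu hv i => by
        simp only [Pi.add_apply, add_mul, Finset.sum_add_distrib, hu i, hv i, add_zero]
      zero_mem' := fun i => by simp
      neg_mem' := fun {u} hu i => by
        simp only [Pi.neg_apply, neg_mul, Finset.sum_neg_distrib, hu i, neg_zero] }
  let φ : L →+ ℤ :=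
    { toFun := fun u => ∑ j, u.1 j * Q.ord (s j)
      map_zero' := by simp
      map_add' := fun u v => by
        simp only [AddSubgroup.coe_add, Pi.add_apply, add_mul, Finset.sum_add_distrib] }
  obtain ⟨D, w, u₀, hD, hw, hu, hz⟩ := To.gt L φ fun u hu => by
    have e : ∀ j, ((u.1 j).toNat : ℤ) = u.1 j := fun j => Int.toNat_of_nonneg (hu j)
    have := h (fun j => (u.1 j).toNat) (funext fun i => by
      simp only [dg, e]
      exact u.2 i)
    have k := To.ord_mon Q s0 fun j => ((u.1 j).toNat : ℤ)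
    simp only [mon, zpow_natCast] at k
    rw [k] at this
    simp only [e] at this
    exact this
  obtain ⟨ξ, hξ⟩ := Lif.fac a (fun j => w j - D * Q.ord (s j)) fun u hu => by
    have := hw ⟨u, hu⟩
    change ∑ j, u j * w j = D * ∑ j, u j * Q.ord (s j) at this
    simp only [mul_sub, Finset.sum_sub_distrib, this, Finset.mul_sum]
    exact sub_eq_zero.2 (Finset.sum_congr rfl fun _ _ => by ring)
  have D0 : (0 : ℚ) < D := by exact_mod_cast hD
  obtain ⟨U, l, h1, h2, gm⟩ := L1.lift x hy Q fun i => ξ i / D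
  have e0 : (0 : ℚ) < U.ord (algebraMap K F Q.t) := by exact_mod_cast l.e_pos
  refine ⟨U, u₀, l, h1, funext fun i => hu i, fun j => ?_, gm⟩
  have e : (U.ord (hm t (s j) (a j)) : ℚ) = U.ord (algebraMap K F Q.t) / D * w j := by
    have := hξ j
    rw [hm, P297Z.Pl.ord_mul _ ((map_ne_zero _).2 (s0 j)) (To.mon_ne x.ind.ne_zero _),
      To.ord_mon U x.ind.ne_zero, l.ord]
    push_cast at this ⊢
    simp only [h2]
    have k : ∑ i, (a j i : ℚ) * (U.ord (algebraMap K F Q.t) * (ξ i / D)) =
        U.ord (algebraMap K F Q.t) / D * ∑ i, a j i * ξ i := by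
      rw [Finset.mul_sum]
      exact Finset.sum_congr rfl fun _ _ => by ring
    rw [k, ← this]
    field_simp
    ring
  have p : (0 : ℚ) < U.ord (algebraMap K F Q.t) / D := div_pos e0 D0
  refine ⟨?_, (hz j).trans ?_⟩
  · have : (0 : ℚ) ≤ U.ord (hm t (s j) (a j)) := by
      rw [e]
      positivity
    exact_mod_cast this
  · rw [← Int.cast_inj (α := ℚ), e]
    simp [p.ne']

end Vale.Agent.P283R.Wd
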