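import Vale.Agent.P283R.Wd.St
import Vale.Agent.P283R.Cx.Cor
import Vale.Agent.P283R.Cx.Grp
import Vale.Agent.P283R.Tp.Nt

/-!
# P283R, block WD: the norm, the trace, one monomial
-/

open Set

noncomputable section

namespace Vale.Agent.P283R.Wd

open Vale.Agent.P287D Vale.Agent.P297Z Cx

namespace N5

variable {K F : Type} [Field K] [Algebra ℂ K] [Field F] [Algebra ℂ F] [Algebra K F]
  [IsScalarTower ℂ K F] {k r : ℕ} {t : Fin k → F} {P : Pl F} {σ : F ≃ₐ[ℂ] F}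

omit [Algebra ℂ K] [IsScalarTower ℂ K F] in
theorem eig (r0 : 0 < r) (hσ : σ ∈ Gr K t r) : ∃ c : (Fin k → ℤ) → ℂ, (∀ e, c e ≠ 0) ∧
    ∀ (φ : K) e, σ (hm t φ e) = c e • hm t φ e := by
  choose c c1 c2 using hσ.2
  refine ⟨fun e => ∏ i, c i ^ e i, fun e => Finset.prod_ne_zero_iff.2 fun i _ =>
    zpow_ne_zero _ fun z => ?_, Grp.map_hm hσ.1 c2⟩
  have := c1 i
  rw [z, zero_pow r0.ne'] at this
  exact zero_ne_one this

theorem ord_le (r0 : 0 < r) (hσ : σ ∈ Gr K t r) (g : Gm (K := K) t P) (ψ : (Fin k → ℤ) →₀ K)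
    (n0 : lv t ψ ≠ 0) : P.ord (σ (lv t ψ)) ≤ P.ord (lv t ψ) := by
  obtain ⟨c, c0, hc⟩ := eig r0 hσ
  let ψ' : (Fin k → ℤ) →₀ K := .onFinset ψ.support (fun e => c e • ψ e) fun e h =>
    Finsupp.mem_support_iff.2 fun z => h (by rw [z, smul_zero])
  have e1 : lv t ψ' = σ (lv t ψ) := by
    rw [lv, Finsupp.onFinset_sum _ fun e => hm_zero t e, lv, Finsupp.sum, map_sum]
    exact Finset.sum_congr rfl fun e _ => by rw [hc, hm_smul]
  by_contra hn
  have : lv t ψ ∈ Nt.gt P (P.ord (lv t ψ)) := sum_mem fun e he => Nt.mem_gt.2 (.inr (by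
    have := g ψ' e (Finsupp.mem_support_iff.2 (smul_ne_zero (c0 e) (Finsupp.mem_support_iff.1 he)))
    rw [e1, show ψ' e = c e • ψ e from rfl, hm_smul, P.ord_smul (c0 e)] at this
    exact (not_le.1 hn).trans_le this))
  exact lt_irrefl _ ((Nt.mem_gt.1 this).resolve_left n0)

theorem ord_eq {N d : ℕ} {s : Fin N → K} {a : Fin N → Fin k → ℤ} {A : Subgroup (F ≃ₐ[ℂ] F)}
    (ht : ∀ i, t i ≠ 0) (r0 : 0 < r) (hA : (A : Set _) = Gr K t r) (st : Stab A (Rg s a t))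
    (af : Aff d (Rg s a t)) (g : Gm (K := K) t P) (hσ : σ ∈ A) (x : F) :
    P.ord (σ x) = P.ord x := by
  have l : ∀ τ ∈ A, ∀ b ∈ Rg s a t, b ≠ 0 → P.ord (τ b) ≤ P.ord b := fun τ hτ b hb b0 => by
    obtain ⟨ψ, -, rfl⟩ := (mem_Rg_iff ht).1 hb
    exact ord_le r0 (hA ▸ hτ) g ψ b0
  have e : ∀ b ∈ Rg s a t, b ≠ 0 → P.ord (σ b) = P.ord b := fun b hb b0 => by
    have := l _ (A.inv_mem hσ) _ (st σ hσ b hb) ((map_ne_zero σ).2 b0)
    rw [show σ⁻¹ (σ b) = b from σ.symm_apply_apply b] at this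
    exact le_antisymm (l σ hσ b hb b0) this
  by_cases x0 : x = 0
  · rw [x0, map_zero]
  obtain ⟨u, v, rfl⟩ := af.fr x
  have u0 := (div_ne_zero_iff.1 x0).1
  have v0 := (div_ne_zero_iff.1 x0).2
  rw [map_div₀, Pl.ord_div _ ((map_ne_zero σ).2 u0) ((map_ne_zero σ).2 v0), Pl.ord_div _ u0 v0,
    e _ u.2 u0, e _ v.2 v0]

end N5

/-- **NTW** -/
theorem ntw : NTW := by
  classical
  intro K₁ K _ _ _ _ _ _ d k y t ex hy E J r n s' a' A B p P x h δ r0 hA s0 af c g i hx x0 h0 fx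
  have ht : ∀ i, t i ≠ 0 := fun i => ex.ind.ne_zero i
  obtain ⟨G, e, fin, st, -, hG⟩ := grp K₁ K d k y t ex hy r r0
  obtain rfl : G = A := SetLike.coe_injective (e.trans hA.symm)
  have st := st E s' a'
  have oe := fun σ (hσ : σ ∈ G) => N5.ord_eq (P := P) ht r0 hA st af g hσ
  set H := hm t h δ with hH
  have H0 : H ≠ 0 := hm_ne ht h0 δ
  have mv : ∀ σ ∈ G, ∀ (m : ℕ) (z : K), z / H ^ m ∈ Rg s' a' t →
      σ z / H ^ m ∈ Rg s' a' t := fun σ hσ m z hz => by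
    obtain ⟨c, c0, hc⟩ := N5.eig r0 (hA ▸ hσ : σ ∈ Gr K₁ t r)
    have := (Rg s' a' t).smul_mem (st σ hσ _ hz) (c δ ^ m)
    rw [map_div₀, map_pow, hH, hc, ← hH, smul_pow, Algebra.smul_def, Algebra.smul_def] at this
    have c1 : algebraMap ℂ K (c δ ^ m) ≠ 0 := (map_ne_zero _).2 (pow_ne_zero _ (c0 δ))
    rwa [← mul_div_assoc, mul_div_mul_left _ _ c1] at this
  have : Finite (Nt.inr st p) := Finite.of_injective
    (fun σ : Nt.inr st p => (⟨σ.1, σ.2.1⟩ : G)) fun a b e =>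
      Subtype.ext (congrArg (fun z : G => z.1) e)
  have : Fintype G := Fintype.ofFinite _
  set B' := B.subgroupOf (Nt.inr st p) with hB
  have : Fintype (Nt.inr st p ⧸ B') := Fintype.ofFinite _
  have b0 : B'.index ≠ 0 := Subgroup.index_ne_zero_of_finite
  obtain ⟨l, hl⟩ : B'.index ∣ J.factorial :=
    Nat.dvd_factorial (Nat.pos_of_ne_zero b0) (Nt.index_le st i)
  have cd : (Finset.univ : Finset (Nt.inr st p ⧸ B')).card = B'.index := by
    rw [Subgroup.index_eq_card, Nat.card_eq_fintype_card, Finset.card_univ]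
  obtain ⟨u, v, hv, rfl⟩ := hx
  have v0 := (div_ne_zero_iff.1 x0).2
  have ov : P.ord (v : K) = 0 := by
    have := (Pl.ord_nonneg_iff P.toPlace v0).2 (c v).1
    rw [Nt.cen_mx c, Cb.mx_iff, not_or] at hv
    omega
  set φ := (u : K) / v * H ^ n with hφ
  have φ0 : φ ≠ 0 := mul_ne_zero x0 (pow_ne_zero _ H0)
  set M := Gr.nrm (Nt.inr st p).subtype 1 B' φ ^ l with hM
  have eM : M = (∏ d : Nt.inr st p ⧸ B', (d.out : Nt.inr st p).1 φ) ^ l := by
    simp [hM, Gr.nrm]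
  have M0 : M ≠ 0 := pow_ne_zero _ (Gr.nrm_ne φ0)
  have fM : Fix (Nt.inr st p) M := fun σ hσ => by
    have := Gr.nrm_semi (α := (Nt.inr st p).subtype) (χ := 1) (A := B') (x := φ) (by simp)
      (fun a ha => by simpa using fx a ha) ⟨σ, hσ⟩
    rw [hM, map_pow]
    simpa using congrArg (· ^ l) this
  have pr : ∀ z : K, z ≠ 0 → P.ord ((∏ d : Nt.inr st p ⧸ B', (d.out : Nt.inr st p).1 z) ^ l) =
      J.factorial * P.ord z := fun z z0 => by
    rw [Pl.ord_pow, P.ord_prod _ fun d _ => (map_ne_zero _).2 z0,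
      Finset.sum_congr rfl fun d _ => oe _ (d.out : Nt.inr st p).2.1 z, Finset.sum_const, cd, hl]
    push_cast
    ring
  let T : Rg s' a' t := ⟨(∏ d : Nt.inr st p ⧸ B', (d.out : Nt.inr st p).1 v) ^ l,
    pow_mem (prod_mem fun d _ => st _ (d.out : Nt.inr st p).2.1 _ v.2) _⟩
  have hT : T ∉ p := by
    rw [Nt.cen_mx c, Cb.mx_iff, not_or]
    refine ⟨pow_ne_zero _ (Finset.prod_ne_zero_iff.2 fun d _ => (map_ne_zero _).2 v0), ?_⟩
    rw [show (T : K) = _ ^ l from rfl, pr _ v0, ov, mul_zero]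
    exact lt_irrefl _
  have TM : T * M / H ^ (n * J.factorial) ∈ Rg s' a' t := by
    have : T * M / H ^ (n * J.factorial) =
        (∏ d : Nt.inr st p ⧸ B', (d.out : Nt.inr st p).1 (v * φ) / H ^ n) ^ l := by
      rw [eM, show (T : K) = _ ^ l from rfl, Finset.prod_div_distrib, Finset.prod_const, cd, hl,
        div_pow, ← mul_pow, ← Finset.prod_mul_distrib, ← pow_mul, ← pow_mul]
      simp only [map_mul]
    rw [this]
    refine pow_mem (prod_mem fun d _ => mv _ (d.out : Nt.inr st p).2.1 _ _ ?_) _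
    rw [hφ, ← mul_assoc, mul_div_cancel_right₀ _ (pow_ne_zero _ H0), mul_div_cancel₀ _ v0]
    exact u.2
  obtain ⟨a, ha, R0, R1⟩ := Nt.trace_pl st c M0 fM hT
  set R := Gr.rey G.subtype 1 (a * T * M) with hR
  have U0 : H ^ (n * J.factorial) ≠ 0 := pow_ne_zero _ H0
  have mem : R / H ^ (n * J.factorial) ∈ Rg s' a' t := by
    rw [hR, Gr.rey, Finset.sum_div]
    refine sum_mem fun σ _ => ?_
    rw [MonoidHom.one_apply, one_mul]
    refine mv _ σ.2 _ _ ?_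
    rw [mul_assoc, mul_div_assoc]
    exact mul_mem ha TM
  have fR : Fix G R := fun σ hσ => by
    simpa using Gr.rey_semi (α := G.subtype) (χ := 1) (by simp) (a * T * M) ⟨σ, hσ⟩
  obtain ⟨ψ, ψ1, ψ2⟩ := (mem_Rg_iff ht).1 mem
  obtain ⟨e, he, m, rfl, hm'⟩ := Cr.pick ht s0 ψ1 (ψ2 ▸ div_ne_zero R0 U0) P
  obtain ⟨ψ', k1, k2⟩ := lv_shift ht ψ (h ^ (n * J.factorial)) (((n * J.factorial : ℕ) : ℤ) • δ)
  refine ⟨m, fun j => ?_, hm'.trans ?_⟩
  · have := hG ψ' (by rw [k2, ψ2, hm_pow ht, div_mul_cancel₀ _ U0]; exact fR) _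
      (Finsupp.mem_support_iff.2 ((k1 (dg a' m)).trans_ne
        (mul_ne_zero (Finsupp.mem_support_iff.1 he) (pow_ne_zero _ h0)))) j
    simpa only [Pi.add_apply, Pi.smul_apply, smul_eq_mul] using this
  · rw [eM, pr _ φ0, hφ, Pl.ord_mul _ x0 (pow_ne_zero _ H0), Pl.ord_pow] at R1
    rw [ψ2, Pl.ord_div _ R0 U0, Pl.ord_pow]
    have : P.ord R - (n * J.factorial : ℕ) * P.ord H ≤ J.factorial * P.ord ((u : K) / v) := by
      push_cast
      linarith
    exact_mod_cast this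

end Vale.Agent.P283R.Wd
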