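import Vale.Agent.P283R.Wd.St
import Vale.Agent.P283R.Cx.Cor

/-!
# P283R, block WD, row POS
-/

open Set

noncomputable section

namespace Vale.Agent.P283R.Wd

open Vale.Agent.P287D Vale.Agent.P297Z Cx

namespace P33

variable {K F : Type} [Field K] [Algebra ℂ K] [Field F] [Algebra ℂ F] [Algebra K F]
  [IsScalarTower ℂ K F] {k N : ℕ} {t : Fin k → F} {s : Fin N → K} {a : Fin N → Fin k → ℤ}
  {U : Pl F}

omit [Algebra ℂ K] [IsScalarTower ℂ K F] in
theorem ord_mono (t0 : ∀ i, t i ≠ 0) (s0 : ∀ j, s j ≠ 0) (c : Fin N → ℕ) :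
    U.ord (hm t (∏ j, s j ^ c j) (dg a c)) = ∑ j, (c j : ℤ) * U.ord (hm t (s j) (a j)) := by
  rw [hm_prod t0, U.ord_prod _ fun j _ => pow_ne_zero _ (hm_ne t0 (s0 j) _)]
  simp only [Pl.ord_pow]

/-- one monomial has an order at most the order of the section -/
theorem pick (t0 : ∀ i, t i ≠ 0) (s0 : ∀ j, s j ≠ 0) {e : Fin k → ℤ} {φ : K} (h : φ ∈ Sp s a e)
    (φ0 : φ ≠ 0) (U : Pl F) : ∃ c, dg a c = e ∧
      ∑ j, (c j : ℤ) * U.ord (hm t (s j) (a j)) ≤ U.ord (hm t φ e) := by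
  classical
  obtain ⟨e', he, c, c1, c2⟩ := Cr.pick (ψ := Finsupp.single e φ) (a := a) t0 s0 (fun x => by
    rw [Finsupp.single_apply]
    split_ifs with z
    exacts [z ▸ h, zero_mem _]) (by rw [lv_single]; exact hm_ne t0 φ0 _) U
  rw [lv_single] at c2
  exact ⟨c, c1.trans (Finset.mem_singleton.1 (Finsupp.support_single_subset he)),
    by exact_mod_cast c2⟩

theorem nonneg (t0 : ∀ i, t i ≠ 0) (s0 : ∀ j, s j ≠ 0) (H : ∀ j, 0 ≤ U.ord (hm t (s j) (a j)))
    {e : Fin k → ℤ} {φ : K} (h : φ ∈ Sp s a e) (φ0 : φ ≠ 0) : 0 ≤ U.ord (hm t φ e) :=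
  let ⟨_, _, c⟩ := pick t0 s0 h φ0 U
  (Finset.sum_nonneg fun j _ => mul_nonneg (Int.natCast_nonneg _) (H j)).trans c

end P33

open P33 in
/-- **POS** -/
theorem pos33 : POS := by
  intro K F _ _ _ _ _ _ d k y t x _ N s a Q U u₀ s0 lf e φ hφ φ0
  have t0 := x.ind.ne_zero
  have H := fun j => (lf.gt j).1
  have key : ∀ φ' : K, φ' ≠ 0 → U.ord (algebraMap K F Q.t) * Q.ord (φ * φ') =
      U.ord (hm t φ e) + U.ord (hm t φ' (-e)) := fun φ' z => by
    rw [← lf.lies.ord, ← Pl.ord_mul _ (hm_ne t0 φ0 _) (hm_ne t0 z _), ← hm_mul t0, add_neg_cancel,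
      hm_deg0]
  have ep := lf.lies.e_pos
  refine ⟨fun h φ' h' z => ?_, fun h => ?_⟩
  · have := key φ' z
    have := nonneg t0 s0 H h' z
    exact (pos_iff_pos_of_mul_pos (by omega)).1 ep
  · by_contra c
    obtain ⟨n, n1, n2⟩ := pick t0 s0 hφ φ0 U
    have z : ∀ j, (n j : ℤ) * U.ord (hm t (s j) (a j)) = 0 := fun j =>
      (Finset.sum_eq_zero_iff_of_nonneg fun j _ => mul_nonneg (Int.natCast_nonneg _) (H j)).1
        (le_antisymm (n2.trans (not_lt.1 c))
          (Finset.sum_nonneg fun j _ => mul_nonneg (Int.natCast_nonneg _) (H j))) j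
        (Finset.mem_univ j)
    have le : ∀ j, n j ≤ (∑ i, n i) * u₀ j := fun j => by
      rcases mul_eq_zero.1 (z j) with w | w
      · omega
      · exact (Finset.single_le_sum (f := n) (fun _ _ => Nat.zero_le _) (Finset.mem_univ j)).trans
          (Nat.le_mul_of_pos_right _ ((lf.gt j).2.2 w))
    let c' : Fin N → ℕ := fun j => (∑ i, n i) * u₀ j - n j
    have d : dg a c' = -e := by
      rw [← n1]
      funext i
      have := congrFun lf.dg i
      simp only [dg, Pi.zero_apply] at this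
      simp only [dg, c', Nat.cast_sub (le _), Pi.neg_apply, sub_mul, Finset.sum_sub_distrib,
        Nat.cast_mul, mul_assoc, ← Finset.mul_sum, this, mul_zero, zero_sub]
    have p0 : ∏ j, s j ^ c' j ≠ 0 := Finset.prod_ne_zero_iff.2 fun j _ => pow_ne_zero _ (s0 j)
    have k1 := h _ (d ▸ mon_mem s a c') p0
    have k2 := key _ p0
    have k3 : U.ord (hm t (∏ j, s j ^ c' j) (-e)) = 0 := by
      rw [← d, ord_mono t0 s0]
      refine Finset.sum_eq_zero fun j _ => ?_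
      by_cases w : 0 < u₀ j
      · rw [(lf.gt j).2.1 w, mul_zero]
      · simp [c', Nat.eq_zero_of_not_pos w]
    have := mul_pos ep k1
    omega

end Vale.Agent.P283R.Wd
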