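import Vale.Agent.P283R.Wd.St
import Vale.Agent.P283R.Wd.Sq36

/-!
# P283R, block WD: the groups of the square of fields
-/

noncomputable section

namespace Vale.Agent.P283R.Wd

theorem ugg : UGG := fun _ _ _ _ _ _ _ _ _ _ _ _ _ _ _ _ _ _ _ _ _ _ _ _ _ _ h _ _ _ _ r0 a g f =>
  Sq.ug ⟨h.x1, h.x2, h.x3, h.x4, h.com⟩ r0 a g f

end Vale.Agent.P283R.Wd
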