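import Vale.Agent.P283R.Wd.S42

/-!
# P283R, block WD: the centres of lifts and restrictions
-/

open Set

noncomputable section

namespace Vale.Agent.P283R.Wd

open Vale.Agent.P287D Cx

namespace C18

variable {K F : Type} [Field K] [Algebra ℂ K] [Field F] [Algebra ℂ F] [Algebra K F]
  [IsScalarTower ℂ K F] {ρ : ℕ} {u : Fin ρ → F} {c : (Fin ρ → ℤ) → K} {S₁ : Subalgebra ℂ K}
  {p₁ : Ideal S₁} {S : Subalgebra ℂ F} {p : Ideal S}

/-- decomposition modulo a set `I` which behaves as an ideal -/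
theorem dec (g : Gd u c S₁ p₁ S p) {V : Subring F} (hV : ∀ a ∈ S₁, algebraMap K F a ∈ V)
    {I : F → Prop} (i0 : I 0) (ia : ∀ x y, I x → I y → I (x + y))
    (im : ∀ x y, x ∈ V → I y → I (x * y)) (iv : ∀ x, I x → x ∈ V)
    (h : ∀ m, m ≠ 0 → I (hm u (c m) m)) (a : S) :
    ∃ a₁ : S₁, ∃ b ∈ p, (a : F) = algebraMap K F a₁ + b ∧ I b := by
  obtain ⟨a, ha⟩ := a
  have k := g.gen ha
  change ∃ a₁ : S₁, ∃ b ∈ p, a = _ ∧ _
  clear ha
  induction k using Algebra.adjoin_induction with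
  | mem x hx =>
    rcases hx with ⟨a, ha, rfl⟩ | ⟨m, m0, rfl⟩
    · exact ⟨⟨a, ha⟩, 0, zero_mem _, by simp, i0⟩
    · obtain ⟨b, hb, e⟩ := g.th m m0
      exact ⟨0, b, hb, by simp [e], e ▸ h m m0⟩
  | algebraMap r =>
    exact ⟨algebraMap ℂ S₁ r, 0, zero_mem _, by
      simp [← IsScalarTower.algebraMap_apply], i0⟩
  | add x y _ _ hx hy =>
    obtain ⟨a, b, hb, rfl, k⟩ := hx
    obtain ⟨a', b', hb', rfl, k'⟩ := hy
    exact ⟨a + a', b + b', add_mem hb hb', by push_cast; ring, ia _ _ k k'⟩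
  | mul x y _ _ hx hy =>
    obtain ⟨a, b, hb, rfl, k⟩ := hx
    obtain ⟨a', b', hb', rfl, k'⟩ := hy
    refine ⟨a * a', (⟨_, g.le a a.2⟩ + b) * b' + ⟨_, g.le a' a'.2⟩ * b,
      add_mem (p.mul_mem_left _ hb') (p.mul_mem_left _ hb), by push_cast; ring, ?_⟩
    exact ia _ _ (im _ _ (add_mem (hV a a.2) (iv _ k)) k') (im _ _ (hV a' a'.2) k)

theorem dec0 (g : Gd u c S₁ p₁ S p) (a : S) :
    ∃ a₁ : S₁, ∃ b ∈ p, (a : F) = algebraMap K F a₁ + b :=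
  (dec g (V := ⊤) (I := fun _ => True) (fun _ _ => trivial) trivial (fun _ _ _ _ => trivial)
    (fun _ _ _ _ => trivial) (fun _ _ => trivial) (fun _ _ => trivial) a).imp fun _ h =>
      h.imp fun _ h => ⟨h.1, h.2.1⟩

omit [IsScalarTower ℂ K F] in
theorem mx_iff {U : Pl F} {P : Pl K} (l : Lies (algebraMap K F) U P) (x : K) :
    Cb.Mx U (algebraMap K F x) ↔ Cb.Mx P x := by
  rw [Cb.mx_iff, Cb.mx_iff, l.ord_pos_iff, map_eq_zero]

end C18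

open C18

/-- **CEN** -/
theorem cen18 : CEN := by
  intro K F _ _ _ _ _ _ d ρ y u _ _ c S₁ p₁ S p g
  refine ⟨fun U P l h k a => ?_, fun U P l h a => ?_, fun h a => ?_, dec0 g⟩
  · have r : ∀ a ∈ S₁, algebraMap K F a ∈ U.ring := fun a ha => (l a).1 (h ⟨a, ha⟩).1
    obtain ⟨a₁, b, hb, e, m⟩ := dec g (V := U.ring.toSubring) r (I := Cb.Mx U) Cb.mx_zero
      (fun _ _ => Cb.Mx.add) (fun _ _ a b => b.mul a) (fun _ => Cb.Mx.mem) (fun m m0 => by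
        by_cases e : c m = 0
        · simpa [hm, e] using Cb.mx_zero
        · exact Cb.mx_iff.2 (.inr (k m m0 e))) a
    have ar : (a : F) ∈ U.ring := e ▸ add_mem (r _ a₁.2) m.mem
    refine ⟨ar, ?_⟩
    have e' : a = ⟨_, g.le a₁ a₁.2⟩ + b := Subtype.ext e
    rw [Cb.rd_eq_zero ar, e', p.add_mem_iff_left hb, ← g.cm a₁ _ rfl, (h a₁).2,
      Cb.rd_eq_zero (h a₁).1, ← mx_iff l]
    exact ⟨fun x => x.add m, fun x => by simpa using x.sub m⟩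
  · have k := h ⟨_, g.le a a.2⟩
    refine ⟨(l a).2 k.1, ?_⟩
    rw [g.cm a ⟨_, g.le a a.2⟩ rfl, k.2, Cb.rd_eq_zero k.1, Cb.rd_eq_zero ((l a).2 k.1), mx_iff l]
  · obtain ⟨a₁, b, hb, e⟩ := dec0 g a
    obtain ⟨r, hr⟩ := h a₁
    refine ⟨r, ?_⟩
    have := add_mem ((g.cm _ ⟨_, g.le _ (a₁ - algebraMap ℂ S₁ r).2⟩ rfl).1 hr) hb
    refine (congrArg (· ∈ p) (Subtype.ext ?_)).mp this
    simp [e, ← IsScalarTower.algebraMap_apply, sub_add_eq_add_sub]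

end Vale.Agent.P283R.Wd
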