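import Vale.Agent.P283R.Wd.S42
import Vale.Agent.P283R.Cx.Lar

/-!
# P283R, block WD: change of the frame of the small field
-/

open Set
open Vale.Agent.P285N.Brep (jac Fr)

noncomputable section

namespace Vale.Agent.P283R.Wd.C90

open Vale.Agent.P287D Cx

variable {K F : Type} [Field K] [Algebra ℂ K] [Field F] [Algebra ℂ F] [Algebra K F]
  [IsScalarTower ℂ K F] {d ρ : ℕ} {u : Fin ρ → F} {y z : Fin d → K}
  {D : Fin d → Derivation ℂ K K}

omit [Algebra ℂ K] [IsScalarTower ℂ K F] in
theorem jac_zt (E : Fin (d + ρ) → Derivation ℂ F F) (y : Fin d → K) :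
    jac E (zt y u) = Cb.dt (algebraMap K F) (fun i => E (finSumFinEquiv i)) y u := by
  rw [Cb.dt, jac, ← Matrix.det_submatrix_equiv_self finSumFinEquiv]
  congr 1
  ext i j
  rcases j with j | j <;> simp [zt]

/-- the change of the frame -/
theorem kzt (x : Ext K d u) (hz : Fr z D) (hy : Frm y) (U : Pl F) :
    kap (zt y u) U = kap (zt z u) U + U.ord (algebraMap K F (jac D y)) := by
  obtain ⟨E, hE⟩ := zt_frm x ⟨D, hz⟩
  have e : jac E (zt y u) = algebraMap K F (jac D y) := by
    rw [jac_zt, Cb.dt_chain (fun i => Cb.dr_of _) (fun i c => by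
      rw [← IsScalarTower.algebraMap_apply, Derivation.map_algebraMap]) hz, ← jac_zt,
      Cb.jac_self hE, one_mul]
  rw [Cb.kap_chg hE ((Cb.jac_ne_iff hE _).2 (zt_frm x hy).ind), Pi.add_apply, dv_apply, e]

end Vale.Agent.P283R.Wd.C90
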