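import Vale.Agent.P283R.Wd.S42
import Vale.Agent.P283R.Wd.Gq95

/-!
# P283R, block WD: the orders of the invariant functions at a Gauss place
-/

open Set

noncomputable section

namespace Vale.Agent.P283R.Wd

open Vale.Agent.P287D Vale.Agent.P297Z Cx
open Vale.Agent.P283R.To (mon mon_add mon_ne)

namespace D50

variable {K F : Type} [Field K] [Algebra ℂ K] [Field F] [Algebra ℂ F] [Algebra K F] {d ρ : ℕ}
  {u : Fin ρ → F} {A : Subgroup (K ≃ₐ[ℂ] K)} {G : Subgroup (F ≃ₐ[ℂ] F)}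

omit [Algebra ℂ K] [Algebra ℂ F] in
theorem lv_of (h0 : ∀ i, u i ≠ 0) {a : F} (ha : a ∈ Algebra.adjoin K (range u)) :
    ∃ ψ : (Fin ρ → ℤ) →₀ K, lv u ψ = a := by
  have k : a ∈ Submodule.span K (range (mon u)) := by
    have e : a ∈ Subalgebra.toSubmodule (Algebra.adjoin K (range u)) := ha
    rw [Algebra.adjoin_eq_span] at e
    refine Submodule.span_mono (fun b hb => ?_) e
    induction hb using Submonoid.closure_induction with
    | mem x hx =>
      obtain ⟨i, rfl⟩ := hx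
      exact ⟨Pi.single i 1, by simpa [hm] using hm_single (K := K) u i⟩
    | one => exact ⟨0, mon_zero u⟩
    | mul x y _ _ hx hy =>
      obtain ⟨m, rfl⟩ := hx
      obtain ⟨m', rfl⟩ := hy
      exact ⟨m + m', mon_add h0 m m'⟩
  obtain ⟨ψ, e⟩ := Finsupp.mem_span_range_iff_exists_finsupp.1 k
  exact ⟨ψ, e ▸ Finsupp.sum_congr fun m _ => (Algebra.smul_def _ _).symm⟩

theorem map_mem (g : Ug u A G) {σ : F ≃ₐ[ℂ] F} (hσ : σ ∈ G) {a : F}
    (ha : a ∈ Algebra.adjoin K (range u)) : σ a ∈ Algebra.adjoin K (range u) := by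
  induction ha using Algebra.adjoin_induction with
  | mem x hx =>
    obtain ⟨i, rfl⟩ := hx
    rw [g.fu i σ hσ]
    exact Algebra.subset_adjoin ⟨i, rfl⟩
  | algebraMap r =>
    obtain ⟨τ, -, e⟩ := g.dn σ hσ
    rw [e]
    exact Subalgebra.algebraMap_mem _ _
  | add x y _ _ hx hy => rw [map_add]; exact add_mem hx hy
  | mul x y _ _ hx hy => rw [map_mul]; exact mul_mem hx hy

theorem map_lv (g : Ug u A G) {σ : F ≃ₐ[ℂ] F} (hσ : σ ∈ G) {τ : K ≃ₐ[ℂ] K}
    (e : ∀ a, σ (algebraMap K F a) = algebraMap K F (τ a)) (ψ : (Fin ρ → ℤ) →₀ K) :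
    σ (lv u ψ) = lv u (ψ.mapRange τ (map_zero τ)) := by
  rw [lv, lv, Finsupp.sum_mapRange_index (fun m => hm_zero u m), Finsupp.sum, Finsupp.sum, map_sum]
  refine Finset.sum_congr rfl fun m _ => ?_
  rw [hm, hm, map_mul, e, mon, map_prod]
  exact congrArg _ (Finset.prod_congr rfl fun i _ => by rw [map_zpow₀, g.fu i σ hσ])

/-- the coefficients of an invariant Laurent polynomial are invariant -/
theorem fix_co (hu : AlgebraicIndependent K u) (g : Ug u A G) {ψ : (Fin ρ → ℤ) →₀ K}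
    (h : Fix G (lv u ψ)) (m : Fin ρ → ℤ) : Fix A (ψ m) := fun τ hτ => by
  obtain ⟨σ, hσ, e⟩ := g.up τ hτ
  have k := lv_add u (ψ.mapRange τ (map_zero τ) - ψ) ψ
  rw [sub_add_cancel, ← map_lv g hσ e, h σ hσ, right_eq_add] at k
  have := DFunLike.congr_fun (sub_eq_zero.1 (lv_inj hu k)) m
  rwa [Finsupp.mapRange_apply] at this

/-- invariant denominators -/
theorem quo (hg : IntermediateField.adjoin K (range u) = ⊤) (g : Ug u A G) (f : F) :
    ∃ a ∈ Algebra.adjoin K (range u), a ≠ 0 ∧ Fix G a ∧ f * a ∈ Algebra.adjoin K (range u) := by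
  classical
  have := g.fin
  have := Fintype.ofFinite G
  obtain ⟨a, ha, b, hb, e⟩ := IntermediateField.mem_adjoin_iff_div.1
    (hg ▸ IntermediateField.mem_top : f ∈ IntermediateField.adjoin K (range u))
  by_cases b0 : b = 0
  · exact ⟨1, one_mem _, one_ne_zero, fun σ _ => map_one σ, by
      rw [e, b0, div_zero, zero_mul]; exact zero_mem _⟩
  refine ⟨∏ σ : G, σ.1 b, prod_mem fun σ _ => map_mem g σ.2 hb,
    Finset.prod_ne_zero_iff.2 fun σ _ => (map_ne_zero _).2 b0, fun τ hτ => ?_, ?_⟩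
  · rw [map_prod]
    exact Fintype.prod_equiv (Equiv.mulLeft (⟨τ, hτ⟩ : G)) _ _ fun σ => rfl
  · rw [← Finset.mul_prod_erase _ _ (Finset.mem_univ (1 : G)), ← mul_assoc, e]
    refine mul_mem ?_ (prod_mem fun σ _ => map_mem g σ.2 hb)
    rwa [OneMemClass.coe_one, AlgEquiv.one_apply, div_mul_cancel₀ _ b0]

end D50

open D50 in
/-- **DVG** -/
theorem dvg50 : DVG := fun K F _ _ _ _ _ _ d ρ y u x _ A G P U e g q h f f0 hf => by
  have k : ∀ a ∈ Algebra.adjoin K (range u), a ≠ 0 → Fix G a → ∃ n : ℤ, e * U.ord a = n :=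
    fun a ha a0 fa => by
      obtain ⟨ψ, rfl⟩ := lv_of x.ind.ne_zero ha
      obtain ⟨m, b, -, c⟩ := ord_sum_ge ψ.support (fun m => hm u (ψ m) m) a0 U
      rw [le_antisymm (q.min ψ m b) c]
      exact h _ m (Finsupp.mem_support_iff.1 b) (fix_co x.ind g fa m)
  obtain ⟨a, ha, a0, fa, hb⟩ := quo x.gen g f
  obtain ⟨n, hn⟩ := k a ha a0 fa
  obtain ⟨n', hn'⟩ := k _ hb (mul_ne_zero f0 a0) fun σ hσ => by rw [map_mul, hf σ hσ, fa σ hσ]
  rw [Pl.ord_mul _ f0 a0] at hn'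
  refine ⟨n' - n, ?_⟩
  push_cast at hn' ⊢
  linarith

end Vale.Agent.P283R.Wd
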