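import Vale.Agent.P283R.Wd.Spt70
import Vale.Agent.P283R.Wd.Dxs36
import Vale.Agent.P277Z.Cvx.Gordan

/-!
# P283R, block WD: finite generation of the rings of the sections
-/

open Set

noncomputable section

namespace Vale.Agent.P283R.Wd

open Vale.Agent.P287D Vale.Agent.P283M Cx
open Vale.Agent.P283R.To (mon mon_ne ord_mon)

variable {K : Type} [Field K] [Algebra ℂ K] {k : ℕ} {J : Type} [Fintype J] {y : J → K}

/-- **Gordan's lemma** for monomials with linear inequalities, some of them without degree -/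
theorem gor0 {I : Type} [Fintype I] (y0 : ∀ j, y j ≠ 0) (ρ : Fin k → J → ℤ) (σ : I → J → ℤ) :
    ∃ (N : ℕ) (s : Fin N → K) (a : Fin N → Fin k → ℤ), (∀ j, s j ≠ 0) ∧ ∀ e, Sp s a e =
      Submodule.span ℂ (mon y '' {l | (∀ i, 0 ≤ ∑ j, l j * ρ i j + e i) ∧
        ∀ i, 0 ≤ ∑ j, l j * σ i j}) := by
  classical
  let r : Fin k ⊕ I → Fin k ⊕ J → ℤ :=
    Sum.elim (fun i => Sum.elim (Pi.single i 1) (ρ i)) fun i => Sum.elim 0 (σ i)
  let S : AddSubmonoid (Fin k ⊕ J → ℤ) :=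
    { carrier := {z | ∀ i, 0 ≤ ∑ j, r i j * z j}
      zero_mem' := fun i => by simp
      add_mem' := fun {z z'} h h' i => by
        simp only [Pi.add_apply, mul_add, Finset.sum_add_distrib]
        exact add_nonneg (h i) (h' i) }
  obtain ⟨G, hG⟩ := P277Z.Gor.gordanH S (Finset.univ.image r) fun z => by
    simp only [Finset.forall_mem_image, Finset.mem_univ, forall_const]
    rfl
  let φ : (Fin k ⊕ J → ℤ) ≃+ (Fin k → ℤ) × (J → ℤ) :=
    { Equiv.sumArrowEquivProdArrow _ _ ℤ with map_add' := fun _ _ => rfl }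
  obtain ⟨s, a, s0, h⟩ := S70.sp_mon (k := k) y0 fun g : G => φ g
  refine ⟨_, s, a, s0, fun e => (h e).trans (congrArg (fun A => Submodule.span ℂ (mon y '' A))
    (Set.ext fun l => ?_))⟩
  have e1 : range (fun g : G => φ g) = φ.toAddMonoidHom '' (G : Set _) := by
    ext x
    simp
  have e2 : (e, l) = φ.toAddMonoidHom (Sum.elim e l) := rfl
  rw [mem_ofPred_eq, e1, ← AddMonoidHom.map_mclosure, hG, e2, AddSubmonoid.mem_map]
  have e3 : Sum.elim e l ∈ S ↔ (∀ i, 0 ≤ ∑ j, l j * ρ i j + e i) ∧ ∀ i, 0 ≤ ∑ j, l j * σ i j := by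
    show (∀ i, 0 ≤ ∑ j, r i j * Sum.elim e l j) ↔ _
    simp [r, Sum.forall, Fintype.sum_sum_type, Pi.single_apply, mul_comm, add_comm]
  rw [mem_ofPred_eq, ← e3]
  exact ⟨fun ⟨x, hx, c⟩ => φ.injective c ▸ hx, fun c => ⟨_, c, rfl⟩⟩

/-- **Gordan's lemma** for places -/
theorem gor (y0 : ∀ j, y j ≠ 0) (O : Fin k → Pl K) {W : Set (Pl K)} (hW : W.Finite) :
    ∃ (N : ℕ) (s : Fin N → K) (a : Fin N → Fin k → ℤ), (∀ j, s j ≠ 0) ∧ ∀ e, Sp s a e =
      Submodule.span ℂ (mon y '' {l | (∀ i, 0 ≤ (O i).ord (mon y l) + e i) ∧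
        ∀ E ∈ W, 0 ≤ E.ord (mon y l)}) := by
  have := hW.fintype
  obtain ⟨N, s, a, s0, h⟩ := gor0 y0 (fun i j => (O i).ord (y j)) fun (E : W) j => E.1.ord (y j)
  refine ⟨N, s, a, s0, fun e => ?_⟩
  simp only [h e, ord_mon _ y0, Subtype.forall]

open Classical in
/-- the degrees: the coefficients of the places `O i` -/
def di (O : Fin k → Pl K) (P : Pl K) : Fin k → ℤ := fun i => if P = O i then 1 else 0

theorem di_self {O : Fin k → Pl K} (inj : Function.Injective O) (e : Fin k → ℤ) (i : Fin k) :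
    e ⬝ᵥ di O (O i) = e i := by
  simp [di, dotProduct, inj.eq_iff]

theorem di_not {O : Fin k → Pl K} {P : Pl K} (h : P ∉ range O) (e : Fin k → ℤ) :
    e ⬝ᵥ di O P = 0 := by
  have : ∀ i, P ≠ O i := fun i c => h ⟨i, c.symm⟩
  simp [di, dotProduct, this]

theorem di_fin {T : Set (Pl K)} (fin : ∀ φ : K, {P | P ∈ T ∧ P.ord φ ≠ 0}.Finite)
    (O : Fin k → Pl K) (φ : K) (e : Fin k → ℤ) :
    {P | P ∈ T ∧ P.ord φ + e ⬝ᵥ di O P ≠ 0}.Finite :=
  ((fin φ).union (finite_range O)).subset fun P p => or_iff_not_imp_right.2 fun c =>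
    ⟨p.1, by simpa only [di_not c, add_zero] using p.2⟩

/-- the functions which are regular outside of `A` are sums of monomials -/
def Dec (T A : Set (Pl K)) (y : J → K) : Prop :=
  ∀ φ : K, φ ≠ 0 → (∀ E ∈ T, E ∉ A → 0 ≤ E.ord φ) →
    φ ∈ Submodule.span ℂ (mon y '' {l | ∀ E ∈ A, E.ord φ ≤ E.ord (mon y l)})

theorem ord_span {A : Set K} {P : Pl K} {r : ℤ} (h : ∀ x ∈ A, x ≠ 0 → r ≤ P.ord x) {φ : K}
    (hφ : φ ∈ Submodule.span ℂ A) (φ0 : φ ≠ 0) : r ≤ P.ord φ := by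
  have := (P.mem_sub.1 (Submodule.span_le.2 (fun x hx => (P.mem_sub (r := -(r : ℝ))).2
    (or_iff_not_imp_left.2 fun x0 => by
      have : (r : ℝ) ≤ P.ord x := by exact_mod_cast h x hx x0
      linarith)) hφ)).resolve_left φ0
  exact_mod_cast (by linarith : (r : ℝ) ≤ P.ord φ)

/-- **the sections**; the places of `A` outside of `T` are dropped -/
theorem fgc {T T' A : Set (Pl K)} (y0 : ∀ j, y j ≠ 0) (hA : A.Finite) (dec : Dec T' A y)
    (un : ∀ E ∈ T', E ∉ A → ∀ j, E.ord (y j) = 0) (s1 : T ⊆ T') (s2 : T' ⊆ T ∪ A)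
    {O : Fin k → Pl K} (inj : Function.Injective O) (o : ∀ i, O i ∈ T ∩ A) :
    ∃ (N : ℕ) (s : Fin N → K) (a : Fin N → Fin k → ℤ), (∀ j, s j ≠ 0) ∧
      (∀ e φ, φ ≠ 0 → (φ ∈ Sp s a e ↔ ∀ P ∈ T, 0 ≤ P.ord φ + e ⬝ᵥ di O P)) ∧
      ∀ e, Sp s a e = Submodule.span ℂ
        (mon y '' {l | ∀ P ∈ T, 0 ≤ P.ord (mon y l) + e ⬝ᵥ di O P}) := by
  obtain ⟨N, s, a, s0, h⟩ := gor y0 O (W := (T ∩ A) \ range O) ((hA.inter_of_right T).sdiff)
  have h' : ∀ e, Sp s a e = Submodule.span ℂ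
      (mon y '' {l | ∀ P ∈ T, 0 ≤ P.ord (mon y l) + e ⬝ᵥ di O P}) := fun e => by
    rw [h e]
    refine congrArg (fun A => Submodule.span ℂ (mon y '' A)) (Set.ext fun l =>
      ⟨fun c P p => ?_, fun c => ⟨fun i => di_self inj e i ▸ c _ (o i).1, fun E p => ?_⟩⟩)
    · by_cases m : P ∈ range O
      · obtain ⟨i, rfl⟩ := m
        exact (di_self inj e i).symm ▸ c.1 i
      · rw [di_not m, add_zero]
        by_cases m' : P ∈ A
        · exact c.2 P ⟨⟨p, m'⟩, m⟩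
        · simp [ord_mon _ y0, un P (s1 p) m']
    · simpa only [di_not p.2, add_zero] using c E p.1.1
  refine ⟨N, s, a, s0, fun e φ φ0 => ⟨fun c P p => ?_, fun c => ?_⟩, h'⟩
  · rw [h'] at c
    have := ord_span (P := P) (r := -(e ⬝ᵥ di O P)) (by
      rintro _ ⟨l, hl, rfl⟩ -
      linarith [hl P p]) c φ0
    linarith
  · have n : ∀ P ∉ A, e ⬝ᵥ di O P = 0 := fun P m => di_not (by
      rintro ⟨i, rfl⟩
      exact m (o i).2) e
    rw [h']
    refine Submodule.span_mono (image_mono fun l hl P p => ?_) (dec φ φ0 fun E p m => by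
      simpa only [n E m, add_zero] using c E ((s2 p).resolve_right m))
    by_cases m : P ∈ A
    · linarith [hl P m, c P p]
    · simp [ord_mon _ y0, un P (s1 p) m, n P m]

end Vale.Agent.P283R.Wd
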