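import Vale.Agent.P283R.Wd.Hz66
import Vale.Agent.P283R.To.Lin

/-!
# P283R, block WD: the alternative for the pages
-/

open Finset

namespace Vale.Agent.P283R.Wd

/-- **FK**: either the origin is a sum of points of the pages and of the horizontal cone, or there
is a regular homogeneous function of negative degree -/
theorem fk {ρ ι : Type} [Fintype ρ] [Fintype ι] [DecidableEq ρ] {r : ℕ} (pt : ι → Option ρ)
    (μ : ι → ℤ) (n : ι → Fin r → ℤ)
    (h : ¬ ∃ ξ : ι → ℝ, 0 ≤ ξ ∧ (∀ p, ∑ l with pt l = some p, ξ l * μ l = 1) ∧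
      ∀ i, ∑ l, ξ l * n l i = 0) :
    ∃ (u : Fin r → ℤ) (d : ρ → ℤ), ∑ p, d p < 0 ∧
      ∀ l, 0 ≤ u ⬝ᵥ n l + (pt l).elim 0 fun p => μ l * d p := by
  obtain ⟨U, hU⟩ := To.farkas_int' (α := Option ι) (κ := ρ ⊕ Fin r)
    (fun o => o.elim (Sum.elim (fun _ => -1) 0)
      fun l => Sum.elim (fun p => if pt l = some p then μ l else 0) (n l)) (· = none) (by
      rintro x x0 x1 _ rfl
      by_contra c
      have t0 : (0 : ℝ) < x none := by exact_mod_cast lt_of_le_of_ne (x0 none) (Ne.symm c)
      refine h ⟨fun l => (x none : ℝ)⁻¹ * x (some l),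
        fun l => mul_nonneg (by positivity) (Rat.cast_nonneg.2 (x0 (some l))), fun p => ?_,
        fun i => ?_⟩
      · have a := x1 (.inl p)
        simp only [Fintype.sum_option, Option.elim, Sum.elim_inl, Int.cast_ite, Int.cast_zero,
          mul_ite, mul_zero, ← sum_filter] at a
        have b := congrArg (Rat.cast (K := ℝ)) a
        push_cast at b
        simp only [mul_assoc, ← mul_sum]
        rw [inv_mul_eq_one₀ t0.ne']
        linarith
      · have a := x1 (.inr i)
        simp only [Fintype.sum_option, Option.elim, Sum.elim_inr, Pi.zero_apply, Int.cast_zero,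
          mul_zero, zero_add] at a
        have b := congrArg (Rat.cast (K := ℝ)) a
        push_cast at b
        simp only [mul_assoc, ← mul_sum, b, mul_zero])
  refine ⟨fun i => U (.inr i), fun p => U (.inl p), ?_, fun l => ?_⟩
  · have := (hU none).2 rfl
    simpa [Fintype.sum_sum_type] using this
  · have := (hU (some l)).1
    simp only [Fintype.sum_sum_type, Option.elim, Sum.elim_inl, Sum.elim_inr] at this
    rw [add_comm, dotProduct_comm]
    refine this.trans (le_of_eq (congrArg₂ _ ?_ rfl))
    cases pt l <;> simp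

end Vale.Agent.P283R.Wd
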