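import Vale.Agent.P283R.Cx.St
import Vale.Agent.P283R.Gf.Up
import Vale.Agent.P287D.Gf.One

/-!
# P283R, block WD: one geometric generic fibre for the tower `K ⊆ F = K(u)`
-/

set_option linter.all false

open Set Polynomial

noncomputable section

namespace Vale.Agent.P283R.Wd.N12

open Vale.Agent.P287D

theorem alg_tr {A B C : Type} [Field A] [Field B] [Field C] (i : A →+* B) (j : B →+* C)
    (h1 : ∀ b, ∃ p : A[X], p ≠ 0 ∧ p.eval₂ i b = 0) (c : C)
    (h2 : ∃ p : B[X], p ≠ 0 ∧ p.eval₂ j c = 0) :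
    ∃ p : A[X], p ≠ 0 ∧ p.eval₂ (j.comp i) c = 0 := by
  letI := i.toAlgebra
  letI := j.toAlgebra
  letI := (j.comp i).toAlgebra
  haveI : IsScalarTower A B C := IsScalarTower.of_algebraMap_eq fun _ => rfl
  haveI : Algebra.IsAlgebraic A B := ⟨h1⟩
  exact IsAlgebraic.restrictScalars A (h2 : IsAlgebraic B c)

variable {K F : Type} [Field K] [Algebra ℂ K] [Field F] [Algebra ℂ F] [Algebra K F]
  [IsScalarTower ℂ K F] {d r k : ℕ}

theorem mem_cl {E : IntermediateField ℂ K} {a : K} : a ∈ cl E ↔ IsAlgebraic E a :=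
  mem_algebraicClosure_iff

theorem adj_map (t : Fin r → K) : (IntermediateField.adjoin ℂ (range t)).map
    (IsScalarTower.toAlgHom ℂ K F) =
    IntermediateField.adjoin ℂ (range fun i => algebraMap K F (t i)) := by
  rw [IntermediateField.adjoin_map, ← range_comp]
  rfl

/-- the base maps to the base -/
theorem cl_map (t : Fin r → K) {a : K} (ha : a ∈ cl (IntermediateField.adjoin ℂ (range t))) :
    algebraMap K F a ∈ cl (IntermediateField.adjoin ℂ (range fun i => algebraMap K F (t i))) := by
  have m : ∀ b : IntermediateField.adjoin ℂ (range t), algebraMap K F b ∈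
      IntermediateField.adjoin ℂ (range fun i => algebraMap K F (t i)) := fun b =>
    adj_map (F := F) t ▸ ⟨b, b.2, rfl⟩
  exact mem_cl.2 ((mem_cl.1 ha).ringHom_of_comp_eq
    (((algebraMap K F).comp (algebraMap _ K)).codRestrict _ m) (algebraMap K F)
    (RingHom.injective _) rfl)

/-- **one transport for `K ⊆ F`** -/
theorem gfx {u : Fin k → F} (x : Cx.Ext K (d + r) u) (t : Fin r → K)
    (ht : AlgebraicIndependent ℂ t) :
    ∃ (K1 F1 : Type) (_ : Field K1) (_ : Algebra ℂ K1) (_ : Field F1) (_ : Algebra ℂ F1)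
      (_ : Algebra K1 F1) (_ : IsScalarTower ℂ K1 F1) (φ0 : K →+* K1) (φ : F →+* F1),
      GF (cl (IntermediateField.adjoin ℂ (range t))) φ0 ∧
      GF (cl (IntermediateField.adjoin ℂ (range fun i => algebraMap K F (t i)))) φ ∧
      (∀ a, φ (algebraMap K F a) = algebraMap K1 F1 (φ0 a)) ∧
      Cx.Ext K1 d fun i => φ (u i) := by
  have ht' : AlgebraicIndependent ℂ fun i => algebraMap K F (t i) :=
    ht.map' (f := IsScalarTower.toAlgHom ℂ K F) (algebraMap K F).injective
  have fl := Gf.ff_cl x.ff' ht'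
  obtain ⟨F1, _, _, φ, h⟩ := g1 F _ (Gf.cld_cl _) ⟨r, fl⟩
  have f1 : FF F1 (d + k) := h.toExt.ff fl (by
    have := x.ff'
    rwa [add_right_comm] at this)
  let K1 := IntermediateField.adjoin ℂ (range fun a => φ (algebraMap K F a))
  let φ0 : K →+* K1 := (φ.comp (algebraMap K F)).codRestrict K1 fun a =>
    IntermediateField.subset_adjoin _ _ ⟨a, rfl⟩
  have h0 : GF (cl (IntermediateField.adjoin ℂ (range t))) φ0 := by
    refine Gf.mk_gf (Gf.cld_cl _) (fun a ha => ?_) (eq_top_iff.2 fun a _ => ?_) fun c => ?_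
    · obtain ⟨c, hc⟩ := h.cst _ (cl_map t ha)
      exact ⟨c, Subtype.ext hc⟩
    · refine (Subfield.mem_map.1 ?_ : ∃ y ∈ _, K1.toSubfield.subtype y = a).elim fun y hy =>
        (Subtype.ext hy.2 : y = a) ▸ hy.1
      rw [RingHom.map_field_closure, image_union, ← range_comp, ← range_comp, union_comm]
      exact a.2
    · let E0 := IntermediateField.adjoin ℂ (range t)
      let E := IntermediateField.adjoin ℂ (range fun i => algebraMap K F (t i))
      have le : E0 ≤ cl E0 := fun b hb => mem_cl.2 (isAlgebraic_algebraMap (⟨b, hb⟩ : E0))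
      have m : ∀ b : E0, algebraMap K F b ∈ E := fun b =>
        (adj_map (F := F) t).le ⟨b, b.2, rfl⟩
      let e : E0 →+* E := ((algebraMap K F).comp (algebraMap _ K)).codRestrict _ m
      have es : Function.Surjective e := fun b => by
        obtain ⟨a, ha, e⟩ : (b : F) ∈ E0.map (IsScalarTower.toAlgHom ℂ K F) :=
          (adj_map (F := F) t).ge b.2
        exact ⟨⟨a, ha⟩, Subtype.ext e⟩
      let i : E0 →+* cl E := ((algebraMap K F).comp (algebraMap _ K)).codRestrict _
        fun b => cl_map t (le b.2)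
      obtain ⟨p, p0, hp⟩ := alg_tr i (φ.comp (algebraMap _ F)) (fun b => by
        obtain ⟨q, q0, hq⟩ := mem_cl.1 b.2
        obtain ⟨q, rfl⟩ := map_surjective e es q
        refine ⟨q, fun z => q0 (by rw [z, Polynomial.map_zero]), Subtype.ext ?_⟩
        rw [aeval_def, eval₂_map] at hq
        exact (hom_eval₂ q i (algebraMap (cl E) F) b).trans hq) _ (h.alg c)
      refine ⟨p.map (IntermediateField.inclusion le).toRingHom,
        Polynomial.map_ne_zero p0, Subtype.ext ?_⟩
      rw [eval₂_map]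
      exact (hom_eval₂ p _ (algebraMap K1 F1) _).trans hp
  have f0 : FF K1 d := h0.toExt.ff (Gf.ff_cl x.ff ht) x.ff
  have gen : IntermediateField.adjoin K1 (range fun i => φ (u i)) = ⊤ := by
    set A := IntermediateField.adjoin K1 (range fun i => φ (u i))
    have h1 : (IntermediateField.adjoin K (range u)).toSubfield ≤ A.toSubfield.comap φ :=
      Subfield.closure_le.2 (by
        rintro _ (⟨a, rfl⟩ | ⟨i, rfl⟩)
        · exact A.algebraMap_mem (φ0 a)
        · exact IntermediateField.subset_adjoin _ _ ⟨i, rfl⟩)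
    have h2 : Subfield.closure (range φ ∪ range (algebraMap ℂ F1)) ≤ A.toSubfield :=
      Subfield.closure_le.2 (by
        rintro _ (⟨a, rfl⟩ | ⟨c, rfl⟩)
        · exact h1 (x.gen ▸ IntermediateField.mem_top : a ∈ IntermediateField.adjoin K (range u))
        · exact A.algebraMap_mem (algebraMap ℂ K1 c))
    exact eq_top_iff.2 fun a _ => h2 (h.gen ▸ Subfield.mem_top a)
  refine ⟨K1, F1, inferInstance, inferInstance, inferInstance, inferInstance, inferInstance,
    inferInstance, φ0, φ, h0, h, fun _ => rfl, f0, f1, ?_, gen⟩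
  haveI : Algebra.IsAlgebraic (Algebra.adjoin K1 (range fun i => φ (u i))) F1 :=
    IntermediateField.isAlgebraic_adjoin_iff_top.1 ⟨fun a =>
      isAlgebraic_algebraMap (⟨a, gen ▸ IntermediateField.mem_top⟩ :
        IntermediateField.adjoin K1 (range fun i => φ (u i)))⟩
  exact (Algebra.IsAlgebraic.isTranscendenceBasis_of_le_trdeg_of_finite K1 _
    (by rw [trdeg_sub f0 (add_comm d k ▸ f1)]; simp)).1

end Vale.Agent.P283R.Wd.N12
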