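import Vale.Agent.P283R.Wd.S42
import Vale.Agent.P283R.Wd.Gq95

/-!
# P283R, block WD: the row GLF
-/

namespace Vale.Agent.P283R.Wd

theorem glf14 : GLF := fun _ _ _ _ _ _ _ _ _ _ _ _ x hy P _ w hb =>
  let ⟨U, h⟩ := gq x hy P hb w
  ⟨U, ⟨h.lies, h.lt, h.min⟩, h.e_pos, h.ord⟩

end Vale.Agent.P283R.Wd
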