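import Vale.Agent.P283R.Be2.Lo
import Vale.Agent.P287D.Pb.Bas

/-!
# P283R, block WD: from the region downstairs to all places upstairs
-/

open Set
open Vale.Agent.P297Z

noncomputable section

namespace Vale.Agent.P283R.Wd

open Vale.Agent.P287D Vale.Agent.P287D.Cb Be2

variable {F F' : Type} [Field F] [Algebra ℂ F] [Field F'] [Algebra ℂ F'] {n d N : ℕ}

theorem ord_dom {R : Pl F} {a : F} {H : Finset F} (a0 : a ≠ 0)
    (h : ∀ x ∈ H, x ≠ 0 → R.ord a < R.ord x) : R.ord (a + ∑ x ∈ H, x) = R.ord a := by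
  have m : ∑ x ∈ H, x ∈ R.sub (-(R.ord a + 1)) := sum_mem fun x hx =>
    or_iff_not_imp_left.2 fun x0 => by
      have : (R.ord a : ℝ) + 1 ≤ R.ord x := by exact_mod_cast h x hx x0
      linarith
  by_cases z : ∑ x ∈ H, x = 0
  · rw [z, add_zero]
  · have k := m.resolve_left z
    exact Pl.ord_add_eq_of_lt _ a0 z (by exact_mod_cast (by linarith :
      (R.ord a : ℝ) < R.ord (∑ x ∈ H, x)))

theorem mx_im {φ : F' →+* F} {R : Pl F} {R' : Pl F'} (l : Lies φ R R') (s : Finset F') :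
    mx (im φ s) R = R.ord (φ R'.t) * mx s R' := by
  rw [mx_apply, mx_apply, l.mz]
  push_cast
  rfl

omit [Algebra ℂ F] [Algebra ℂ F'] in
theorem nz_im (φ : F' →+* F) {s : Finset F'} (h : Nz s) : Nz (im φ s) :=
  let ⟨a, b, c⟩ := h; ⟨φ a, Finset.mem_map_of_mem _ b, (map_ne_zero φ).2 c⟩

/-- **step (5)** -/
theorem lc5 (φ : F' →+* F) {S : Subalgebra ℂ F} {p : Ideal S} (hA : Aff (n + 1) S)
    (hN : IsIntegrallyClosed S) (res : ∀ a : S, ∃ c : ℂ, a - algebraMap ℂ S c ∈ p)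
    {y : Fin (n + 1) → F} (hy : Frm y) {q m k : ℕ} {h h₀ : F} (kl : Bc.KL S p y)
    (bd : ∀ R, PDat S p R → ld y q h R ≤ 1) {S' : Subalgebra ℂ F'} {p' : Ideal S'}
    (i : ∀ a ∈ S', φ a ∈ S) {z : Fin N → F'} (z0 : ∀ j, z j ≠ 0) (zs : ∀ j, z j ∈ S')
    (hd : 0 < d) {y' t : Fin d → F'} {h' w g f : F'} (t0 : ∀ l, t l ≠ 0)
    (tp : ∀ l, ∃ s ∈ p', (s : F') = t l) (wp : ∃ s ∈ p', (s : F') = w)
    {C : Finset (Fin N → ℕ)} {c₀ : ℝ} (hc : 0 < c₀) (ha : OutA q m k c₀ C S' p' z y' h' t w g f)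
    (hb : OutB q m k c₀ C S' p' z y' h' t w g f) {H : Finset F} (e : h = h₀ + ∑ x ∈ H, x)
    (h0 : h₀ ≠ 0) (dwn : ∀ R, Cen S p R → ∃ R', Cen S' p' R' ∧ Lies φ R R' ∧
      R.ord (φ R'.t) * ld y' q h' R' ≤ ld y q h₀ R)
    (up : ∀ E' μ, Cen S' p' E' → Mu t w E' μ → (E'.ord f : ℝ) < k * μ → ∃ E, Cen S p E ∧
      Lies φ E E' ∧ ld y q h₀ E ≤ E.ord (φ E'.t) * ld y' q h' E' ∧
      ∀ x ∈ H, x ≠ 0 → E.ord h₀ < E.ord x) {v : Pl F} (hv : Cen S p v) :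
    ∃ c ∈ C, om (fun j => φ (z j)) v c / m < ld y q h v := by
  classical
  obtain ⟨E', μ, hE, mu, b1, b2, ⟨c₁, hc₁, b3⟩, b4⟩ := hb
  obtain ⟨E, u1, u2, u3, u4⟩ := up E' μ hE mu b2
  let V : Finset F' := insert w (Finset.univ.image t)
  let U : Finset F' := C.image fun c => ∏ j, z j ^ c j
  have tV : ∀ l, t l ∈ V := fun l =>
    Finset.mem_insert_of_mem (Finset.mem_image_of_mem _ (Finset.mem_univ l))
  have V0 : Nz V := ⟨t ⟨0, hd⟩, tV _, t0 _⟩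
  have Vp : ∀ x ∈ V, ∃ s ∈ p', (s : F') = x := fun x hx => by
    rcases Finset.mem_insert.1 hx with rfl | hx
    · exact wp
    · obtain ⟨l, -, rfl⟩ := Finset.mem_image.1 hx
      exact tp l
  have m0 : ∀ c : Fin N → ℕ, ∏ j, z j ^ c j ≠ 0 := fun c =>
    Finset.prod_ne_zero_iff.2 fun j _ => pow_ne_zero _ (z0 j)
  have U0 : Nz U := ⟨_, Finset.mem_image_of_mem _ hc₁, m0 c₁⟩
  have U1 : ∀ P : Pl F', ∀ c ∈ C, -mx U P ≤ om z P c := fun P c a =>
    ord_mon z0 P c ▸ Lc.mx_le (Finset.mem_image_of_mem _ a) (m0 c) P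
  have U2 : ∀ P : Pl F', ∃ c ∈ C, -mx U P = om z P c := fun P => by
    obtain ⟨x, hx, -, e⟩ := Lc.exists_mx U0 P
    obtain ⟨c, a, rfl⟩ := Finset.mem_image.1 hx
    exact ⟨c, a, e.trans (ord_mon z0 P c)⟩
  have mE : μ ≤ -mx V E' := by
    obtain ⟨x, hx, x0, e⟩ := Lc.exists_mx V0 E'
    rw [e]
    rcases Finset.mem_insert.1 hx with rfl | hx
    · exact mu.2.2 x0
    · obtain ⟨l, -, rfl⟩ := Finset.mem_image.1 hx
      exact mu.2.1 l
  have kE := mul_le_mul_of_nonneg_left mE (Nat.cast_nonneg (α := ℝ) k)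
  have mi : (0 : ℝ) ≤ (m : ℝ)⁻¹ := by positivity
  have h1 : (1 : S) ∉ p := fun k => by simpa using (Hr.cen_iff u1 1).1 k
  have lo : ∀ x ∈ S', ∀ R, PDat S p R → φ x ∈ R.ring := fun x hx R r =>
    Lc.pd_lo r ⟨⟨_, i x hx⟩, 1, h1, by simp⟩
  have ep : ∀ {R R'}, Lies φ R R' → (0 : ℝ) < R.ord (φ R'.t) := fun l => by
    exact_mod_cast l.e_pos
  have ap : ∀ {R R'}, Lies φ R R' → ((m : ℝ)⁻¹ • -mx (im φ U) + c₀ • -mx (im φ V)) R =
      R.ord (φ R'.t) * ((m : ℝ)⁻¹ * -mx U R' + c₀ * -mx V R') := fun l => by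
    simp only [Pi.add_apply, Pi.smul_apply, Pi.neg_apply, smul_eq_mul, mx_im l]
    ring
  have a1 : ∀ (x : F') {R R'}, Lies φ R R' → (0 < ((k : ℝ) • -mx (im φ V) - dv (φ x)) R ↔
      0 < k * -mx V R' - R'.ord x) := fun x R R' l => by
    refine Iff.trans ?_ (mul_pos_iff_of_pos_left (ep l))
    simp only [Pi.sub_apply, Pi.smul_apply, Pi.neg_apply, smul_eq_mul, mx_im l, dv, l.ord x]
    push_cast
    exact iff_of_eq (congrArg _ (by ring))
  have a2 : ∀ {R R'}, Lies φ R R' → (0 < ((k : ℝ) • -mx (im φ V) - (m : ℝ)⁻¹ • -mx (im φ U)) R ↔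
      0 < k * -mx V R' - (m : ℝ)⁻¹ * -mx U R') := fun {R R'} l => by
    refine Iff.trans ?_ (mul_pos_iff_of_pos_left (ep l))
    simp only [Pi.sub_apply, Pi.smul_apply, Pi.neg_apply, smul_eq_mul, mx_im l]
    exact iff_of_eq (congrArg _ (by ring))
  have a3 : ∀ (x : F) (R : Pl F), 0 < (dv x - dv h₀) R ↔ R.ord h₀ < R.ord x := fun x R => by
    rw [Pi.sub_apply, sub_pos, dv, dv, Int.cast_lt]
  have eq : ∀ R : Pl F, (∀ x ∈ H, x ≠ 0 → R.ord h₀ < R.ord x) → ld y q h R = ld y q h₀ R :=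
    fun R a => by rw [ld, ld, e, ord_dom h0 a]
  have cV : (k : ℝ) • -mx (im φ V) ∈ Car F := Submodule.smul_mem _ _ (neg_mem (mx_mem_Car _))
  have key := lc_kl hA hN res hy kl bd (M := (m : ℝ)⁻¹ • -mx (im φ U) + c₀ • -mx (im φ V))
    (T := {(k : ℝ) • -mx (im φ V) - dv (φ g), (k : ℝ) • -mx (im φ V) - dv (φ f),
      (k : ℝ) • -mx (im φ V) - (m : ℝ)⁻¹ • -mx (im φ U)} ∪
        (fun x => dv x - dv h₀) '' {x | x ∈ H ∧ x ≠ 0})
    (by simpa [add_comm] using ((nef_mx (im φ U)).smul mi).add ((nef_mx (im φ V)).smul hc.le))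
    (fun R r => add_nonneg (mul_nonneg mi (Lc.mx_nn (nz_im φ U0) fun u hu => by
        obtain ⟨u, hw, rfl⟩ := Finset.mem_map.1 hu
        obtain ⟨c, -, rfl⟩ := Finset.mem_image.1 hw
        exact lo _ (prod_mem fun j _ => pow_mem (zs j) _) R r))
      (mul_nonneg hc.le (Lc.mx_nn (nz_im φ V0) fun u hu => by
        obtain ⟨u, hw, rfl⟩ := Finset.mem_map.1 hu
        obtain ⟨s, -, rfl⟩ := Vp u hw
        exact lo _ s.2 R r)))
    ((toFinite _).union ((H.finite_toSet.subset fun _ a => a.1).image _)) (by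
      rintro β ((rfl | rfl | rfl) | ⟨x, -, rfl⟩)
      · exact sub_mem cV (dv_mem_Car _)
      · exact sub_mem cV (dv_mem_Car _)
      · exact sub_mem cV (Submodule.smul_mem _ _ (neg_mem (mx_mem_Car _)))
      · exact sub_mem (dv_mem_Car _) (dv_mem_Car _)) u1 (by
      rintro β ((rfl | rfl | rfl) | ⟨x, ⟨x1, x0⟩, rfl⟩)
      · rw [a1 _ u2]; linarith
      · rw [a1 _ u2]; linarith
      · have := mul_le_mul_of_nonneg_left (U1 E' c₁ hc₁) mi
        rw [div_eq_inv_mul] at b3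
        rw [a2 u2]; linarith
      · exact (a3 x E).2 (u4 x x1 x0)) (by
      obtain ⟨c, a, e⟩ := U2 E'
      have := b4 c a
      have := mul_le_mul_of_nonneg_left mE hc.le
      rw [eq E u4, ap u2, e, ← div_eq_inv_mul]
      exact u3.trans (mul_le_mul_of_nonneg_left (by linarith) (ep u2).le)) (fun R r a => by
      obtain ⟨R', r1, r2, r3⟩ := dwn R r
      have q1 := (a1 _ r2).1 (a _ (.inl (.inl rfl)))
      have q2 := (a1 _ r2).1 (a _ (.inl (.inr (.inl rfl))))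
      have q3 := (a2 r2).1 (a _ (.inl (.inr (.inr rfl))))
      rw [eq R fun x x1 x0 => (a3 x R).1 (a _ (.inr ⟨x, ⟨x1, x0⟩, rfl⟩)), ap r2]
      refine le_trans (mul_le_mul_of_nonneg_left ?_ (ep r2).le) r3
      exact ha R' _ _ r1 ⟨Lc.mx_pos V0 Vp r1, fun l => Lc.mx_le (tV l) (t0 l) R',
        fun w0 => Lc.mx_le (Finset.mem_insert_self _ _) w0 R'⟩ (by linarith) (by linarith)
        (by linarith) fun c a => by
          rw [div_eq_inv_mul]; exact mul_le_mul_of_nonneg_left (U1 R' c a) mi) hv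
  obtain ⟨v', r1, r2, -⟩ := dwn v hv
  obtain ⟨c, a, e⟩ := U2 v'
  have k1 := mul_pos (ep r2) (mul_pos hc (Lc.mx_pos V0 Vp r1))
  have k2 : om (fun j => φ (z j)) v c = v.ord (φ v'.t) * om z v' c := by
    simp only [om, r2.ord (z _), Finset.mul_sum]
    exact Finset.sum_congr rfl fun j _ => by push_cast; ring
  rw [ap r2, e, mul_add] at key
  refine ⟨c, a, ?_⟩
  rw [k2, div_eq_inv_mul, mul_left_comm]
  linarith

end Vale.Agent.P283R.Wd
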