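import Vale.Agent.P283R.Wd.Nt12

/-!
# P283R, block WD: from closed points to all points
-/

set_option linter.all false

attribute [-instance] HahnSeries.powerSeriesAlgebra

open Set
open Vale.Agent.P285N.Brep (jac Fr)
open Vale.Agent.P297Z

noncomputable section

namespace Vale.Agent.P283R.Wd.N12

open Vale.Agent.P287D Vale.Agent.P287D.Cb Cx Gf Bgl

variable {K F K' F' : Type} [Field K] [Algebra ℂ K] [Field F] [Algebra ℂ F] [Algebra K F]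
  [IsScalarTower ℂ K F] [Field K'] [Algebra ℂ K'] [Field F'] [Algebra ℂ F'] [Algebra K' F']
  [IsScalarTower ℂ K' F'] {d r ρ N k : ℕ} {u : Fin ρ → F} {c : (Fin ρ → ℤ) → K}
  {S₁ : Subalgebra ℂ K} {p₁ : Ideal S₁} {S : Subalgebra ℂ F} {p : Ideal S} {φ0 : K →+* K'}
  {φ : F →+* F'}

theorem gd_up (g : Gd u c S₁ p₁ S p) (sq : ∀ a, φ (algebraMap K F a) = algebraMap K' F' (φ0 a))
    (hc : ∀ a, φ (algebraMap ℂ F a) ∈ range (algebraMap ℂ F'))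
    {S₁' : Subalgebra ℂ K'} {p₁' : Ideal S₁'} {S' : Subalgebra ℂ F'} {p' : Ideal S'}
    (e₁ : S₁' = Algebra.adjoin ℂ (φ0 '' S₁)) (eS : S' = Algebra.adjoin ℂ (φ '' S))
    (ψ : S →+* S') (e : ∀ a, (ψ a : F') = φ a) (key : ∀ a, a ∈ p ↔ ψ a ∈ p') {U : Pl F'}
    {P : Pl K'} (l : Lies (algebraMap K' F') U P) (c₁ : Cen S₁' p₁' P) (cS : Cen S' p' U) :
    Gd (fun i => φ (u i)) (fun m => φ0 (c m)) S₁' p₁' S' p' := by
  refine ⟨fun a ha => ?_, fun a b z => ?_, fun m m0 => ?_, ?_⟩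
  · rw [e₁] at ha
    rw [eS]
    induction ha using Algebra.adjoin_induction with
    | mem a ha =>
      obtain ⟨a, ha, rfl⟩ := ha
      exact Algebra.subset_adjoin ⟨_, g.le a ha, sq a⟩
    | algebraMap b =>
      rw [← IsScalarTower.algebraMap_apply]
      exact Subalgebra.algebraMap_mem _ _
    | add a b _ _ u v => rw [map_add]; exact add_mem u v
    | mul a b _ _ u v => rw [map_mul]; exact mul_mem u v
  · rw [(c₁ a).2, (cS b).2, rd_eq_zero (c₁ a).1, rd_eq_zero (cS b).1, ← z, C18.mx_iff l]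
  · obtain ⟨b, hb, z⟩ := g.th m m0
    exact ⟨ψ b, (key b).1 hb, by rw [e, z, hm_tr sq]⟩
  · rw [eS]
    refine Algebra.adjoin_le ?_
    rintro _ ⟨a, ha, rfl⟩
    have := g.gen ha
    clear ha
    induction this using Algebra.adjoin_induction with
    | mem a ha =>
      obtain ⟨a, ha, rfl⟩ | ⟨m, m0, rfl⟩ := ha
      · exact Algebra.subset_adjoin (Or.inl ⟨φ0 a, e₁ ▸ Algebra.subset_adjoin ⟨a, ha, rfl⟩,
          (sq a).symm⟩)
      · exact Algebra.subset_adjoin (Or.inr ⟨m, m0, (hm_tr sq _ _).symm⟩)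
    | algebraMap b =>
      obtain ⟨b', hb⟩ := hc b
      exact hb ▸ Subalgebra.algebraMap_mem _ _
    | add a b _ _ u v => rw [map_add]; exact add_mem u v
    | mul a b _ _ u v => rw [map_mul]; exact mul_mem u v

theorem ug_up {A B : Subgroup (K ≃ₐ[ℂ] K)} {G : Subgroup (F ≃ₐ[ℂ] F)} (g : Ug u A G) (le : B ≤ A)
    (sq : ∀ a, φ (algebraMap K F a) = algebraMap K' F' (φ0 a)) {L₀ : IntermediateField ℂ K}
    {L : IntermediateField ℂ F} (h0 : GF L₀ φ0) (h : GF L φ) (fx : ∀ τ ∈ B, ∀ a ∈ L₀, τ a = a)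
    (hL : ∀ a ∈ L, ∃ b ∈ L₀, algebraMap K F b = a) :
    Ug (fun i => φ (u i)) (lift φ0 B) (lift φ (abv G B)) := by
  have ext : ∀ (σ : F ≃ₐ[ℂ] F) (τ : K ≃ₐ[ℂ] K) (σ' : F' ≃ₐ[ℂ] F') (τ' : K' ≃ₐ[ℂ] K'),
      (∀ a, σ (algebraMap K F a) = algebraMap K F (τ a)) → (∀ f, σ' (φ f) = φ (σ f)) →
      (∀ f, τ' (φ0 f) = φ0 (τ f)) → ∀ a, σ' (algebraMap K' F' a) = algebraMap K' F' (τ' a) :=
    fun σ τ σ' τ' e e1 e2 a => by
      refine Submodule.span_induction ?_ (by simp) (fun _ _ _ _ u v => by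
        simp only [map_add, u, v]) (fun b _ _ u => ?_) (h0.span a)
      · rintro _ ⟨b, rfl⟩
        rw [← sq, e1, e, sq, e2]
      · rw [Algebra.smul_def, map_mul, map_mul, map_mul, map_mul, u, τ'.commutes,
          ← IsScalarTower.algebraMap_apply, σ'.commutes]
  have := g.fin
  refine ⟨lift_fin h (Finite.of_injective _
    (Subgroup.inclusion_injective (H := abv G B) (K := G) fun _ z => z.1)),
    fun j => fix_up fun σ hσ => g.fu j σ hσ.1, ?_, ?_⟩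
  · rintro σ' ⟨σ, ⟨-, τ, hτ, e⟩, e1⟩
    obtain ⟨τ', h1, e2⟩ := lift_ex h0 hτ (fx τ hτ)
    exact ⟨τ', h1, ext σ τ σ' τ' e e1 e2⟩
  · rintro τ' ⟨τ, hτ, e2⟩
    obtain ⟨σ, hσ, e⟩ := g.up τ (le hτ)
    obtain ⟨σ', h1, e1⟩ := lift_ex (A := abv G B) h ⟨hσ, τ, hτ, e⟩ fun a ha => by
      obtain ⟨b, hb, rfl⟩ := hL a ha
      rw [e, fx τ hτ b hb]
    exact ⟨σ', h1, ext σ τ σ' τ' e e1 e2⟩

section up

variable {A B : Subgroup (K ≃ₐ[ℂ] K)} {G : Subgroup (F ≃ₐ[ℂ] F)} {L₀ : IntermediateField ℂ K}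
  {L : IntermediateField ℂ F} {S₁' : Subalgebra ℂ K'} {p₁' : Ideal S₁'} {S' : Subalgebra ℂ F'}
  {p' : Ideal S'} {y : Fin d → K} {y' : Fin k → K'} {ψ : (Fin ρ → ℤ) →₀ K}
  {ψ' : (Fin ρ → ℤ) →₀ K'} {q : ℕ} {j : K}

theorem tm_up (tm : Tm q y u c ψ A S₁ p₁ S p) (le : B ≤ A) (h0 : GF L₀ φ0) (h : GF L φ)
    (hK : FF K' k) (hF : FF F' N) (j0 : j ≠ 0) (hq : 0 < q) (pa : ∀ m, ψ' m = φ0 (ψ m / j ^ q))
    (l₁ : ∀ R' R, Lies φ0 R' R → ∀ m g, 0 < m → g ≠ 0 →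
      ld y' m (φ0 (g / j ^ m)) R' = ld y m g R)
    (l₃ : ∀ R' R, Lies φ R' R → lw y' (fun i => φ (u i)) q ψ' R' = lw y u q ψ R)
    (pd₁ : ∀ R' R, Lies φ0 R' R → PDat S₁' p₁' R' → PDat S₁ p₁ R)
    (pd : ∀ R' R, Lies φ R' R → PDat S' p' R' → PDat S p R) (k₁ : Bc.KL S₁' p₁' y')
    (k₂ : Bc.KL S' p' (zt y' fun i => φ (u i))) :
    Tm q y' (fun i => φ (u i)) (fun m => φ0 (c m)) ψ' (lift φ0 B) S₁' p₁' S' p' := by
  have jq : j ^ q ≠ 0 := pow_ne_zero _ j0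
  refine ⟨?_, fun m => ?_, fun m hm m0 => ?_, fun R' hR => ?_, fun R' hR => ?_, k₁, k₂⟩
  · rw [pa]
    exact (map_ne_zero φ0).2 (div_ne_zero tm.h0 jq)
  · rw [pa, pa, ← map_div₀, div_div_div_cancel_right₀ jq]
    exact fix_up fun σ hσ => tm.fx m σ (le hσ)
  · have hm' : ψ m ≠ 0 := fun z => Finsupp.mem_support_iff.1 hm (by rw [pa, z, zero_div, map_zero])
    obtain ⟨c0, k⟩ := tm.sec m (Finsupp.mem_support_iff.2 hm') m0
    refine ⟨(map_ne_zero φ0).2 c0, fun R' hR => ?_⟩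
    obtain ⟨R, l⟩ := h0.below hK R'
    rw [pa, ← map_div₀, div_right_comm, l₁ _ _ l _ _ hq (div_ne_zero hm' c0)]
    exact k R (pd₁ _ _ l hR)
  · obtain ⟨R, l⟩ := h0.below hK R'
    rw [pa, l₁ _ _ l _ _ hq tm.h0]
    exact tm.bd₁ R (pd₁ _ _ l hR)
  · obtain ⟨R, l⟩ := h.below hF R'
    rw [l₃ _ _ l]
    exact tm.bd R (pd _ _ l hR)

theorem dp_up (h0 : GF L₀ φ0) (hK : FF K' k) (ψ₁ : S₁ →+* S₁') (e₁ : ∀ a, (ψ₁ a : K') = φ0 a)
    (key₁ : ∀ a, a ∈ p₁ ↔ ψ₁ a ∈ p₁') {W : ℕ} (dp : Dp W c S₁ p₁) :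
    Dp W (fun m => φ0 (c m)) S₁' p₁' := fun R' hR l μ l0 h1 h2 => by
  obtain ⟨R, k⟩ := h0.below hK R'
  have cR := cen_dn h0 ψ₁ e₁ k hR
  rw [show p₁'.comap ψ₁ = p₁ from Ideal.ext fun a => (key₁ a).symm] at cR
  obtain ⟨n, n0, hn⟩ := dp R cR l μ l0 h1 fun s hs s0 => by
    have := h2 (ψ₁ s) ((key₁ s).1 hs) (by rw [e₁]; exact (map_ne_zero φ0).2 s0)
    rwa [e₁, h0.ord_eq k] at this
  exact ⟨n, n0, fun m m0 c0 => by
    rw [h0.ord_eq k]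
    exact hn m m0 ((map_ne_zero φ0).1 c0)⟩

theorem hw_up (h : GF L φ) (hF : FF F' N) (ψS : S →+* S') (e : ∀ a, (ψS a : F') = φ a)
    (key : ∀ a, a ∈ p ↔ ψS a ∈ p')
    (l₃ : ∀ R' R, Lies φ R' R → lw y' (fun i => φ (u i)) q ψ' R' = lw y u q ψ R) {ε : ℝ}
    (hw : Hw ε G S p y u q ψ) : Hw ε (lift φ (abv G B)) S' p' y' (fun i => φ (u i)) q ψ' :=
  fun U' hU ⟨i, hi⟩ a a0 dv => by
    obtain ⟨U, k⟩ := h.below hF U'
    have cU := cen_dn h ψS e k hU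
    rw [show p'.comap ψS = p from Ideal.ext fun a => (key a).symm] at cU
    rw [l₃ _ _ k]
    refine hw U cU ⟨i, h.ord_eq k (u i) ▸ hi⟩ a a0 fun g g0 hg => ?_
    rw [← h.ord_eq k]
    exact dv _ ((map_ne_zero φ).2 g0) (fix_up fun σ hσ => hg σ hσ.1)

end up

/-- **NCL** -/
theorem ncl12 : NCL := by
  intro L d E q ε hq hε
  obtain ⟨J, hJ⟩ := eige E
  choose W n₀ pos H using fun d => L (d + 1) E q ε d.succ_pos hq hε
  refine ⟨∑ k ∈ Finset.range d, W k, J, ∏ k ∈ Finset.range d, n₀ k,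
    Finset.prod_pos fun k _ => pos k, ?_⟩
  intro n hn dn dq ρ K F _ _ _ _ _ _ y u A G c ψ S₁ p₁ q₁ S p x hy fy aff₁ nor₁ pri p0 hq₁ le em
    fA sA eψ aff nor ug gd tm dp hw
  obtain ⟨B, r, x₀, t, idx, -, pa, hx₀, ht⟩ := hJ d K S₁ A p₁ q₁ aff₁ fA sA pri hq₁ le em
  refine ⟨B, idx, fun v hv => ?_⟩
  obtain ⟨a, ap, a0⟩ := Submodule.exists_mem_ne_zero_of_ne_bot p0
  have a1 : (a : K) ≠ 0 := fun z => a0 (Subtype.ext z)
  have am : Mx v (algebraMap K F a) := (rd_eq_zero (hv ⟨_, gd.le a a.2⟩).1).1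
    ((hv _).2.1 ((gd.cm a ⟨_, gd.le a a.2⟩ rfl).1 ap))
  obtain ⟨P, lP⟩ := restr x.ff' a1 am
  have hP := (cen18 K F d ρ y u x hy c S₁ p₁ S p gd).2.1 v P lP hv
  obtain ⟨z₁, par, hx, x0⟩ := pa.nz hx₀ hP
  have fB : Finite B := Finite.of_injective _ (Subgroup.inclusion_injective idx.le)
  have it : AlgebraicIndependent ℂ fun i => (t i : K) := algebraicIndependent_iff.2 fun u e =>
    par.ind u (by
      have : (MvPolynomial.aeval t u : S₁) = 0 := Subtype.ext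
        ((MvPolynomial.comp_aeval_apply t S₁.val u).trans e)
      exact this ▸ zero_mem p₁)
  obtain ⟨d, rfl⟩ : ∃ e, d = e + r := by
    have := it.cardinalMk_le_trdeg
    rw [aff₁.ff.trdeg, Cardinal.mk_fin, Nat.cast_le] at this
    exact ⟨d - r, by omega⟩
  obtain ⟨w, fw, hi⟩ := inv_frame hy.ind fy it ht
  set z : Fin (d + r) → K := Fin.append w fun i => (t i : K) with hz
  obtain ⟨D, fr⟩ := fr_of aff₁.ff hi
  have kz := kzt x fr hy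
  obtain ⟨D', fr'⟩ := hy
  obtain ⟨j0, kj, -⟩ := kap' _ K z y D D' fr fr'
  set j := jac D y with hj
  have fj : Fix A j := fun σ hσ => by
    have e := P285N.Brep.chain ℂ K _ _ D fr σ y
    have e1 : (fun i => σ (y i)) = y := funext fun i => fy i σ hσ
    have e2 : (fun i => σ (z i)) = z := funext fun i => by
      refine Fin.addCases (fun i => ?_) (fun i => ?_) i
      · rw [hz, Fin.append_left, fw i σ hσ]
      · rw [hz, Fin.append_right, ht i σ hσ]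
    rw [e1, e2, jac_self fr, mul_one] at e
    exact e.symm
  obtain ⟨K', F', _, _, _, _, _, _, φ0, φ, h0, h, sq, x'⟩ := gfx x _ it
  have pS := cen_pri hv
  obtain ⟨m, zS, paS⟩ := pae_up gd aff pS par
  have ht0 : ∀ i, (t i : K) ∈ cl (IntermediateField.adjoin ℂ (range fun i => (t i : K))) :=
    fun i => mem_cl.2 (isAlgebraic_algebraMap (⟨t i, IntermediateField.subset_adjoin _ _ ⟨i, rfl⟩⟩ :
      IntermediateField.adjoin ℂ (range fun i => (t i : K))))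
  have htS := fun i => cl_map (F := F) _ (ht0 i)
  have hL₁ := fun a ha => Bn.cl_lo' aff₁ nor₁ par.ind (a := a) ha
  have hLS := fun a ha => Bn.cl_lo' aff nor paS.ind (a := a) ha
  have fL := fun σ hσ a ha => Bn.fixL' aff₁ nor₁ pri par.ind σ (idx.inr σ hσ)
    (fun i => ht i σ (idx.le hσ)) (a := a) ha
  obtain ⟨v', lv'⟩ := h.above (ff_cl x.ff'
    (it.map' (f := IsScalarTower.toAlgHom ℂ K F) (algebraMap K F).injective))
    fun a ha => lo_ring hv (hLS a ha)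
  obtain ⟨P', lP'⟩ := restr x'.ff' ((map_ne_zero φ0).2 a1) (U := v') (by
    rw [← sq, mx_iff, h.ord_eq lv', map_eq_zero, ← mx_iff]; exact am)
  have l0 : Lies φ0 P' P := fun f => by rw [lP f, lv' _, sq, ← lP']
  obtain ⟨S₁', p₁', ψ₁, e₁, eS₁, key₁, cn₁, af₁, pr₁, xm, gn, rs⟩ := up h0 x'.ff par ht0 l0 hP
  obtain ⟨S', p', ψS, e, eS, key, cn, af, -⟩ := up h x'.ff' paS htS lv' hv
  have in₁ := inr_up idx.inr ψ₁ e₁ eS₁ key₁
  have pd₁ := fun R' R l => pdat_down h0 pri hL₁ ψ₁ e₁ eS₁ key₁ (R' := R') (R := R) l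
  have pd := fun R' R l => pdat_down h pS hLS ψS e eS key (R' := R') (R := R) l
  have l₁ : ∀ R' R, Lies φ0 R' R → ∀ m g, 0 < m → g ≠ 0 →
      ld (fun i => φ0 (w i)) m (φ0 (g / j ^ m)) R' = ld y m g R := fun R' R l m g m0 g0 => by
    rw [ld_eq h0 aff₁.ff x'.ff ht0 hi l, ld_chg j0 kj m0 g0]
  have j1 : algebraMap K F j ≠ 0 := (map_ne_zero _).2 j0
  have l₂ : ∀ R' R, Lies φ R' R → ∀ m g, 0 < m → g ≠ 0 →
      ld (zt (fun i => φ0 (w i)) fun i => φ (u i)) m (φ (g / algebraMap K F j ^ m)) R' =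
        ld (zt y u) m g R := fun R' R l m g m0 g0 => by
    rw [ld_zt x hi h htS x'.ff' sq l, ld_chg j1 kz m0 g0]
  have v0 : lv u ψ ≠ 0 := fun k => tm.h0 (by rw [lv_inj x.ind k]; rfl)
  set ψ' := ψ.mapRange (fun a => φ0 (a / j ^ q)) (by simp) with hψ
  have pa' : ∀ m, ψ' m = φ0 (ψ m / j ^ q) := fun m => Finsupp.mapRange_apply
  have l₃ : ∀ R' R, Lies φ R' R →
      lw (fun i => φ0 (w i)) (fun i => φ (u i)) q ψ' R' = lw y u q ψ R := fun R' R l => by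
    rw [lw_ld, lw_ld, hψ, lv_tr sq, map_pow, l₂ _ _ l _ _ hq v0]
    simp only [h.ord_eq l]
  have jq : j ^ q ≠ 0 := pow_ne_zero _ j0
  have k1 : Frm fun i => φ0 (w i) :=
    fr_of x'.ff (ind_map (fun c => h0.cst _ (IntermediateField.algebraMap_mem _ c))
      (fun j => h0.cst _ (ht0 j)) fr x'.ff (alg_of_gf h0).alc)
  have k2 : IsIntegrallyClosed S₁' := by rw [eS₁]; exact Bn.nor_up aff₁ nor₁ t h0
  have k3 : IsIntegrallyClosed S' := by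
    rw [eS]
    exact Bn.nor_up aff nor (fun i => ⟨algebraMap K F (t i), gd.le _ (t i).2⟩) h
  have k4 : Eig (lift φ0 B) (ψ' 0) := by
    rw [pa']
    refine lift_eig h0 fun σ hσ => ?_
    obtain ⟨c, hc⟩ := eψ σ (idx.le hσ)
    exact ⟨c, by rw [map_div₀, map_pow, hc, fj σ (idx.le hσ), smul_div_assoc]⟩
  have k5 := ug_up ug idx.le sq h0 h fL fun a ha => acl x _ ha
  have k6 := gd_up gd sq (fun a => h.cst _ (IntermediateField.algebraMap_mem _ a)) eS₁ eS ψS e key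
    lP' cn₁ cn
  have k7 := tm_up tm idx.le h0 h x'.ff x'.ff' j0 hq pa' l₁ l₃ pd₁ pd
    (kl_up h0 x'.ff ψ₁ e₁ key₁ j0 l₁ pd₁ tm.kl₁) (kl_up h x'.ff' ψS e key j1 l₂ pd tm.kl)
  have k8 := hw_up (B := B) h x'.ff' ψS e key l₃ hw
  have k9 : Tx.Pt d (lift φ0 B) S₁' p₁' fun i => φ0 (z₁ i) :=
    ⟨af₁, k2, pr₁, xm, fun j => (map_ne_zero φ0).2 (x0 j), gn, rs, in₁,
      fun j => lift_eig h0 (hx j)⟩
  rcases d with _ | d
  · exact (no_pl x'.ff P').elim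
  have lt : d ∈ Finset.range (d + 1 + r) := Finset.mem_range.2 (by omega)
  obtain ⟨b, c1, c2⟩ := H d n hn ((Finset.dvd_prod_of_mem n₀ lt).trans dn) dq ρ K' F' _ _ _ _ _ _
    S₁' p₁' S' p' _ x' k1 (fun i => fix_up fun σ hσ => fw i σ (idx.le hσ)) k9 (lift_fin h0 fB) k4
    af k3 k5 k6 k7 (dp_up h0 x'.ff ψ₁ e₁ key₁
      (dp.mono (Finset.single_le_sum (fun i _ => Nat.zero_le (W i)) lt))) k8 v' cn
  refine ⟨∏ i, z₁ i ^ b i, lo_of pri ⟨∏ i, z₁ i ^ b i, prod_mem fun i _ => pow_mem ?_ _⟩,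
    Finset.prod_ne_zero_iff.2 fun i _ => pow_ne_zero _ (x0 i), fun σ hσ => ?_, ?_⟩
  · obtain ⟨s, -, k⟩ := par.mem i
    exact k ▸ s.2
  · obtain ⟨τ, hτ, eτ⟩ := lift_ex h0 hσ (fL σ hσ)
    have k := c1 τ hτ
    rw [pa'] at k
    simp only [← map_pow φ0, ← map_prod φ0, ← map_mul φ0] at k
    rw [eτ, φ0.injective.eq_iff, div_pow, ← mul_div_assoc, map_div₀, map_pow σ (j ^ q), map_pow σ j,
      fj σ (idx.le hσ), div_left_inj' (pow_ne_zero _ jq)] at k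
    exact k
  · rw [l₃ _ _ lv'] at c2
    rw [map_prod, A0r.ord_prod v _ _ fun i => (map_ne_zero _).2 (pow_ne_zero _ (x0 i))]
    simp only [← sq, h.ord_eq lv'] at c2
    simp only [map_pow, Pl.ord_pow]
    push_cast
    exact c2

end Vale.Agent.P283R.Wd.N12
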