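import Vale.Agent.P283R.Wd.Ac12
import Vale.Agent.P283R.Wd.Cen18
import Vale.Agent.P283R.Be2.GlA
import Vale.Agent.P283R.Cx.Bas

/-!
# P283R, block WD: from closed points to all points, the tools
-/

set_option linter.all false

attribute [-instance] HahnSeries.powerSeriesAlgebra

open Set
open Vale.Agent.P285N.Brep (jac Fr)
open Vale.Agent.P297Z

noncomputable section

namespace Vale.Agent.P283R.Wd.N12

open Vale.Agent.P287D Vale.Agent.P287D.Cb Cx Gf Bgl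

section one

variable {F F' : Type} [Field F] [Algebra ℂ F] [Field F'] [Algebra ℂ F'] {N N' : ℕ}
  {L : IntermediateField ℂ F} {φ : F →+* F'} {S : Subalgebra ℂ F} {p : Ideal S}
  {S' : Subalgebra ℂ F'} {p' : Ideal S'}

theorem kap_eqv (hF : FF F N) (y : Fin N → F) (e : Fin N' ≃ Fin N) : kap (y ∘ e) = kap y := by
  obtain rfl : N' = N := Fin.equiv_iff_eq.1 ⟨e⟩
  exact kap_perm hF y e

theorem cen_dn (h : GF L φ) (ψ : S →+* S') (e : ∀ a, (ψ a : F') = φ a) {P' : Pl F'} {P : Pl F}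
    (l : Lies φ P' P) (c : Cen S' p' P') : Cen S (p'.comap ψ) P := fun a => by
  have mem : (a : F) ∈ P.ring := (l a).2 (e a ▸ (c (ψ a)).1)
  exact ⟨mem, by rw [Ideal.mem_comap, (c _).2, e, rd_iff h l mem]⟩

theorem kl_up (h : GF L φ) (hF : FF F' N') (ψ : S →+* S') (e : ∀ a, (ψ a : F') = φ a)
    (key : ∀ a, a ∈ p ↔ ψ a ∈ p') {y : Fin N → F} {y' : Fin N' → F'} {j : F} (j0 : j ≠ 0)
    (hl : ∀ P' P, Lies φ P' P → ∀ m g, 0 < m → g ≠ 0 → ld y' m (φ (g / j ^ m)) P' = ld y m g P)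
    (pd : ∀ P' P, Lies φ P' P → PDat S' p' P' → PDat S p P) (kl : Bc.KL S p y) :
    Bc.KL S' p' y' := by
  obtain ⟨m, g, m0, g0, k1, k2⟩ := kl
  refine ⟨m, φ (g / j ^ m), m0, (map_ne_zero φ).2 (div_ne_zero g0 (pow_ne_zero _ j0)),
    fun R' hR => ?_, fun a le R' hR => ?_⟩
  · obtain ⟨R, l⟩ := h.below hF R'
    rw [hl _ _ l _ _ m0 g0]
    exact k1 R (pd _ _ l hR)
  · obtain ⟨R, l⟩ := h.below hF R'
    rw [hl _ _ l _ _ m0 g0]
    exact k2 _ (fun b hb => (key b).2 (le hb)) R (cen_dn h ψ e l hR)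

theorem inr_up {A : Subgroup (F ≃ₐ[ℂ] F)} (hI : ∀ σ ∈ A, Inr S p σ) (ψ : S →+* S')
    (e : ∀ a, (ψ a : F') = φ a) (eS : S' = Algebra.adjoin ℂ (φ '' S))
    (key : ∀ a, a ∈ p ↔ ψ a ∈ p') : ∀ τ ∈ lift φ A, Inr S' p' τ := by
  rintro τ ⟨σ, hσ, eτ⟩ ⟨a, ha⟩
  have : a ∈ S' ∧ ∃ b ∈ p', τ a - a = (b : F') := by
    have := eS.le ha
    clear ha
    induction this using Algebra.adjoin_induction with
    | mem a ha =>
      obtain ⟨a, ha, rfl⟩ := ha
      obtain ⟨b, hb, eb⟩ := hI σ hσ ⟨a, ha⟩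
      exact ⟨e ⟨a, ha⟩ ▸ (ψ _).2, ψ b, (key b).1 hb, by rw [eτ, e, ← eb, map_sub]⟩
    | algebraMap c => exact ⟨S'.algebraMap_mem c, 0, zero_mem _, by simp⟩
    | add a b _ _ ha hb =>
      obtain ⟨ha, c, hc, ec⟩ := ha
      obtain ⟨hb, d, hd, ed⟩ := hb
      exact ⟨add_mem ha hb, c + d, add_mem hc hd, by
        rw [map_add, Subalgebra.coe_add, ← ec, ← ed]; ring⟩
    | mul a b _ _ ha hb =>
      obtain ⟨ha, c, hc, ec⟩ := ha
      obtain ⟨hb, d, hd, ed⟩ := hb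
      refine ⟨mul_mem ha hb, c * (⟨b, hb⟩ + d) + ⟨a, ha⟩ * d,
        add_mem (p'.mul_mem_right _ hc) (p'.mul_mem_left _ hd), ?_⟩
      rw [map_mul, Subalgebra.coe_add, Subalgebra.coe_mul, Subalgebra.coe_mul,
        Subalgebra.coe_add, ← ec, ← ed]
      ring
  exact this.2

theorem fix_up {A : Subgroup (F ≃ₐ[ℂ] F)} {g : F} (hg : Fix A g) : Fix (lift φ A) (φ g) := by
  rintro τ ⟨σ, hσ, eτ⟩
  rw [eτ, hg σ hσ]

theorem cen_pri {P : Pl F} (h : Cen S p P) : p.IsPrime :=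
  ⟨fun z => by
    have := (h 1).2.1 (z ▸ Submodule.mem_top)
    rw [Subalgebra.coe_one, rd_eq_zero (one_mem _), mx_iff, Pl.ord_one] at this
    simp at this, fun {u v} z => by
    rw [(h _).2, Subalgebra.coe_mul, rd_mul (h u).1 (h v).1, mul_eq_zero] at z
    rwa [(h _).2, (h _).2]⟩

end one

variable {K F K' F' : Type} [Field K] [Algebra ℂ K] [Field F] [Algebra ℂ F] [Algebra K F]
  [IsScalarTower ℂ K F] [Field K'] [Algebra ℂ K'] [Field F'] [Algebra ℂ F'] [Algebra K' F']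
  [IsScalarTower ℂ K' F'] {d r ρ N k : ℕ} {u : Fin ρ → F} {c : (Fin ρ → ℤ) → K}
  {S₁ : Subalgebra ℂ K} {p₁ : Ideal S₁} {S : Subalgebra ℂ F} {p : Ideal S} {φ0 : K →+* K'}
  {φ : F →+* F'}

/-- the elements of `G` above `B` -/
def abv (G : Subgroup (F ≃ₐ[ℂ] F)) (B : Subgroup (K ≃ₐ[ℂ] K)) : Subgroup (F ≃ₐ[ℂ] F) where
  carrier := {σ | σ ∈ G ∧ ∃ τ ∈ B, ∀ a, σ (algebraMap K F a) = algebraMap K F (τ a)}
  mul_mem' := fun ⟨g, a, ha, e⟩ ⟨g', b, hb, e'⟩ => ⟨mul_mem g g', a * b, mul_mem ha hb, fun f => by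
    rw [AlgEquiv.mul_apply, e', e, AlgEquiv.mul_apply]⟩
  one_mem' := ⟨one_mem G, 1, one_mem B, fun _ => rfl⟩
  inv_mem' := fun {σ} ⟨g, a, ha, e⟩ => ⟨inv_mem g, a⁻¹, inv_mem ha, fun f => σ.injective (by
    rw [e, ← AlgEquiv.mul_apply, ← AlgEquiv.mul_apply, mul_inv_cancel, mul_inv_cancel]
    rfl)⟩

theorem pae_up (g : Gd u c S₁ p₁ S p) (aff : Aff N S) (pri : p.IsPrime) {x : Fin k → K}
    {t : Fin r → S₁} (pa : Pae d S₁ p₁ x t) : ∃ (m : ℕ) (x' : Fin m → F),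
      Pae N S p x' fun i => ⟨algebraMap K F (t i), g.le _ (t i).2⟩ := by
  have := isNoetherianRing_of_fg aff.fg
  obtain ⟨m, s, hs⟩ := Submodule.fg_iff_exists_fin_generating_family.1
    (IsNoetherian.noetherian p)
  let ι : S₁ →ₐ[ℂ] S := ((IsScalarTower.toAlgHom ℂ K F).comp S₁.val).codRestrict S
    fun a => g.le _ a.2
  have cm : ∀ a, a ∈ p₁ ↔ ι a ∈ p := fun a => g.cm a (ι a) rfl
  have ev : (MvPolynomial.aeval fun i => ι (t i) : MvPolynomial (Fin r) ℂ →ₐ[ℂ] S) =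
      ι.comp (MvPolynomial.aeval t) := (MvPolynomial.comp_aeval t ι).symm
  refine ⟨m, fun j => s j, aff, pri, fun j => ⟨s j, hs ▸ Submodule.subset_span ⟨j, rfl⟩, rfl⟩,
    fun a ha => ?_, fun q hq => pa.ind q ((cm _).2 ?_), fun a => ?_⟩
  · obtain ⟨b, rfl⟩ := (Submodule.mem_span_range_iff_exists_fun S).1 (hs ▸ ha)
    exact ⟨fun j => b j, fun j => lo_of pri _, by simp⟩
  · exact (DFunLike.congr_fun ev q).symm ▸ hq
  · obtain ⟨a₁, b, hb, e⟩ := C18.dec0 g a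
    obtain ⟨q, q0, hq⟩ := pa.alg a₁
    refine ⟨q, q0, ?_⟩
    have e1 : a - ι a₁ = b := Subtype.ext (sub_eq_iff_eq_add'.2 e)
    have h1 := (cm _).1 hq
    have h2 := Polynomial.hom_eval₂ q (MvPolynomial.aeval t : _ →ₐ[ℂ] S₁).toRingHom ι.toRingHom a₁
    change q.eval₂ (MvPolynomial.aeval fun i => ι (t i) : _ →ₐ[ℂ] S).toRingHom a ∈ p
    rw [ev]
    obtain ⟨w, hw⟩ := Polynomial.sub_dvd_eval_sub a (ι a₁)
      (q.map (ι.comp (MvPolynomial.aeval t)).toRingHom)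
    rw [Polynomial.eval_map, Polynomial.eval_map, e1, sub_eq_iff_eq_add] at hw
    rw [hw]
    exact add_mem (p.mul_mem_right _ hb) (h2 ▸ h1)

theorem hm_tr (sq : ∀ a, φ (algebraMap K F a) = algebraMap K' F' (φ0 a)) (a : K)
    (m : Fin ρ → ℤ) : hm (fun i => φ (u i)) (φ0 a) m = φ (hm u a m) := by
  simp only [hm, To.mon, map_mul, map_prod, map_zpow₀, sq]

theorem lv_tr (sq : ∀ a, φ (algebraMap K F a) = algebraMap K' F' (φ0 a)) (j : K)
    (ψ : (Fin ρ → ℤ) →₀ K) :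
    lv (fun i => φ (u i)) (ψ.mapRange (fun a => φ0 (a / j)) (by simp)) =
      φ (lv u ψ / algebraMap K F j) := by
  rw [lv, lv, Finsupp.sum_mapRange_index (h := fun e a => hm (fun i => φ (u i)) a e)
    fun e => hm_zero _ e, Finsupp.sum, Finsupp.sum, Finset.sum_div, map_sum]
  refine Finset.sum_congr rfl fun m _ => ?_
  rw [hm_tr sq, hm, hm, map_div₀, div_mul_eq_mul_div]

theorem ld_zt {w : Fin d → K} {t : Fin r → K} (x : Ext K (d + r) u)
    (hi : AlgebraicIndependent ℂ (Fin.append w t)) {L : IntermediateField ℂ F} (h : GF L φ)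
    (ht : ∀ i, algebraMap K F (t i) ∈ L) (hF : FF F' (d + ρ))
    (sq : ∀ a, φ (algebraMap K F a) = algebraMap K' F' (φ0 a)) {U' : Pl F'} {U : Pl F}
    (l : Lies φ U' U) (m : ℕ) (f : F) :
    ld (zt (fun i => φ0 (w i)) fun i => φ (u i)) m (φ f) U' = ld (zt (Fin.append w t) u) m f U := by
  let e : Fin (d + ρ + r) ≃ Fin (d + r + ρ) := finSumFinEquiv.symm.trans
    ((finSumFinEquiv.symm.sumCongr (Equiv.refl _)).trans ((Equiv.sumAssoc _ _ _).trans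
      (((Equiv.refl _).sumCongr (Equiv.sumComm _ _)).trans ((Equiv.sumAssoc _ _ _).symm.trans
        ((finSumFinEquiv.sumCongr (Equiv.refl _)).trans finSumFinEquiv)))))
  have e1 : Fin.append (zt w u) (fun i => algebraMap K F (t i)) = zt (Fin.append w t) u ∘ e :=
    funext fun i => by
      refine Fin.addCases (fun i => Fin.addCases (fun i => ?_) (fun i => ?_) i) (fun i => ?_) i <;>
        simp [zt, e]
  have e2 : (zt (fun i => φ0 (w i)) fun i => φ (u i)) = fun i => φ (zt w u i) :=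
    funext fun i => by
      refine Fin.addCases (fun i => ?_) (fun i => ?_) i <;> simp [zt, sq]
  rw [e2, ld_eq h (add_right_comm d r ρ ▸ x.ff') hF ht
    (e1 ▸ (zt_ind hi x.ind).comp e e.injective) l, e1, ld, ld, kap_eqv x.ff']

theorem lw_ld (y : Fin d → K) (q : ℕ) (ψ : (Fin ρ → ℤ) →₀ K) (U : Pl F) :
    lw y u q ψ U = ld (zt y u) q (lv u ψ) U - ∑ i, (U.ord (u i) : ℝ) := by
  rw [lw, lt, ld]
  ring

theorem restr (hF : FF F N) {a : K} (a0 : a ≠ 0) {U : Pl F} (h : Mx U (algebraMap K F a)) :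
    ∃ P, Lies (algebraMap K F) U P :=
  (hF.ok (IsScalarTower.toAlgHom ℂ K F) U).resolve_left fun z => by
    have h1 := Pl.ord_nonneg_of_mem U.toPlace (z a⁻¹)
    have h2 := (mx_iff.1 h).resolve_left ((map_ne_zero _).2 a0)
    change 0 ≤ U.ord (algebraMap K F a⁻¹) at h1
    rw [map_inv₀, Pl.ord_inv] at h1
    omega

end Vale.Agent.P283R.Wd.N12
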