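import Vale.Agent.P283R.Wd.On46
import Vale.Agent.P283R.Pq.Su10

/-!
# P283R, block WD: the class over an arbitrary open neighbourhood
-/

open CategoryTheory AlgebraicGeometry

namespace Vale.Agent.P283R.Wd

open Sl Sl.Var

theorem on_wdw_of (t : Pq.TXT) (h : WT) : On fun _ _ Z f ω B z => FanoType f ω ∧
    NefOver f (-logCan ω B) ∧ ∃ W : Z.X.Opens, z.In W ∧
      (ProjectiveQuotient (pre f W) ∨ ∃ r, ComplexityOne (pre f W) r) := fun d hd ε hε R hR =>
  (on_wd_of t h d hd ε hε R hR).imp fun _ H => ⟨H.1, fun X Z f ω B z a b c e s t u =>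
    let ⟨_, i, j⟩ := u.2.2
    H.2 X Z f ω B z a b c e s t ⟨u.1, u.2.1, Pq.sumi10 s i j⟩⟩

end Vale.Agent.P283R.Wd
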