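import Mathlib.Algebra.Order.Floor.Ring
import Mathlib.Algebra.Order.Archimedean.Real.Basic
import Mathlib.Data.Fintype.Pi
import Mathlib.Data.Fintype.BigOperators
import Mathlib.Data.Fintype.Pigeonhole
import Mathlib.Data.Finset.Max
import Mathlib.Tactic.Linarith
import Mathlib.Tactic.Positivity
import Mathlib.Tactic.FieldSimp
import Mathlib.Tactic.Ring

/-!
# P283R, block WD: one sided simultaneous approximation
-/

namespace Vale.Agent.P283R.Wd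

namespace O66

variable {ι : Type}

/-- simultaneous approximation -/
theorem dir (I : Finset ι) (A : ι → ℝ) {m : ℕ} (hm : 0 < m) :
    ∃ j : ℕ, 1 ≤ j ∧ j ≤ m ^ I.card ∧ ∀ i ∈ I, ∃ n : ℤ, |j * A i - n| ≤ 1 / m := by
  classical
  have m0 : (0 : ℝ) < m := Nat.cast_pos.2 hm
  let φ : Fin (m ^ I.card + 1) → I → Fin m := fun j i =>
    ⟨⌊m * Int.fract (((j : ℕ) : ℝ) * A i)⌋₊, (Nat.floor_lt (mul_nonneg m0.le (Int.fract_nonneg _))).2
      (mul_lt_of_lt_one_right m0 (Int.fract_lt_one _))⟩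
  have key : ∀ a b : Fin (m ^ I.card + 1), a < b → φ a = φ b →
      ∃ j : ℕ, 1 ≤ j ∧ j ≤ m ^ I.card ∧ ∀ i ∈ I, ∃ n : ℤ, |j * A i - n| ≤ 1 / m := by
    intro a b ab e
    have ab' : (a : ℕ) < b := ab
    refine ⟨b - a, by omega, by have := b.2; omega, fun i hi => ?_⟩
    have e1 : ⌊m * Int.fract (((a : ℕ) : ℝ) * A i)⌋₊ = ⌊m * Int.fract (((b : ℕ) : ℝ) * A i)⌋₊ :=
      congrArg Fin.val (congrFun e ⟨i, hi⟩)
    refine ⟨⌊((b : ℕ) : ℝ) * A i⌋ - ⌊((a : ℕ) : ℝ) * A i⌋, ?_⟩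
    have h1 := Nat.floor_le (mul_nonneg m0.le (Int.fract_nonneg (((a : ℕ) : ℝ) * A i)))
    have h2 := Nat.lt_floor_add_one (m * Int.fract (((a : ℕ) : ℝ) * A i))
    have h3 := Nat.floor_le (mul_nonneg m0.le (Int.fract_nonneg (((b : ℕ) : ℝ) * A i)))
    have h4 := Nat.lt_floor_add_one (m * Int.fract (((b : ℕ) : ℝ) * A i))
    rw [e1] at h1 h2
    have e2 : ((b - a : ℕ) : ℝ) * A i - ((⌊((b : ℕ) : ℝ) * A i⌋ - ⌊((a : ℕ) : ℝ) * A i⌋ : ℤ) : ℝ) =
        Int.fract (((b : ℕ) : ℝ) * A i) - Int.fract (((a : ℕ) : ℝ) * A i) := by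
      rw [Nat.cast_sub ab'.le, Int.fract, Int.fract]
      push_cast
      ring
    rw [e2, abs_le, neg_le, le_div_iff₀ m0, le_div_iff₀ m0]
    constructor <;> linarith
  obtain ⟨a, b, ab, e⟩ := Fintype.exists_ne_map_eq_of_card_lt φ (by simp)
  rcases lt_or_gt_of_ne ab with h | h
  · exact key a b h e
  · exact key b a h e.symm

/-- the one sided form with a margin -/
theorem mar (s : ℕ) : ∀ e : ℝ, 0 < e → ∃ η : ℝ, 0 < η ∧ ∀ (I : Finset ι) (A : ι → ℝ),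
    I.card ≤ s → (∀ i ∈ I, 1 ≤ A i) → ∃ t, η ≤ t ∧ t ≤ e ∧
      ∀ i ∈ I, ∃ n : ℤ, η ≤ t * A i - n ∧ t * A i - n ≤ e := by
  classical
  induction s with
  | zero =>
    exact fun e he => ⟨e, he, fun I A h _ => ⟨e, le_rfl, le_rfl, fun i hi => by
      rw [Finset.card_eq_zero.1 (Nat.le_zero.1 h)] at hi
      exact absurd hi (Finset.notMem_empty i)⟩⟩
  | succ s ih =>
    intro e he
    obtain ⟨η, η0, H⟩ := ih (e / 3) (by positivity)
    obtain ⟨m, hm⟩ := exists_nat_gt (2 / η)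
    have m0 : (0 : ℝ) < m := (by positivity : (0 : ℝ) < 2 / η).trans hm
    have m1 : 0 < m := Nat.cast_pos.1 m0
    have m2 : 1 / (m : ℝ) ≤ η / 2 := by
      rw [div_lt_iff₀ η0] at hm
      rw [div_le_iff₀ m0]
      linarith
    have c0 : (0 : ℝ) < e / 3 / (m : ℝ) ^ (s + 1) := by positivity
    have p1 : (1 : ℝ) ≤ (m : ℝ) ^ (s + 1) := one_le_pow₀ (by exact_mod_cast m1)
    refine ⟨min (η / 2) (e / 3 / (m : ℝ) ^ (s + 1)), lt_min (by positivity) c0, fun I A hI hA => ?_⟩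
    rcases I.eq_empty_or_nonempty with rfl | ne
    · exact ⟨e, (min_le_right _ _).trans ((div_le_self (by positivity) p1).trans (by linarith)),
        le_rfl, fun i hi => absurd hi (Finset.notMem_empty i)⟩
    obtain ⟨i₀, hi₀, mn⟩ := I.exists_min_image A ne
    have a1 := hA i₀ hi₀
    have a0 : 0 < A i₀ := one_pos.trans_le a1
    obtain ⟨t', t1, t2, t3⟩ := H (I.erase i₀) (fun i => A i / A i₀)
      (by rw [Finset.card_erase_of_mem hi₀]; omega)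
      fun i hi => (one_le_div a0).2 (mn i (Finset.mem_of_mem_erase hi))
    obtain ⟨j, j1, j2, j3⟩ := dir I (fun i => e / 3 / (m : ℝ) ^ (s + 1) * A i) m1
    have j1' : (1 : ℝ) ≤ j := by exact_mod_cast j1
    have j2' : (j : ℝ) ≤ (m : ℝ) ^ (s + 1) := by
      exact_mod_cast j2.trans (Nat.pow_le_pow_right m1 hI)
    have u0 : 0 ≤ t' / A i₀ := div_nonneg (η0.le.trans t1) a0.le
    have u1 : t' / A i₀ ≤ t' := div_le_self (η0.le.trans t1) a1
    have v0 : e / 3 / (m : ℝ) ^ (s + 1) ≤ j * (e / 3 / (m : ℝ) ^ (s + 1)) :=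
      le_mul_of_one_le_left c0.le j1'
    have v1 : j * (e / 3 / (m : ℝ) ^ (s + 1)) ≤ e / 3 :=
      (mul_le_mul_of_nonneg_right j2' c0.le).trans_eq (mul_div_cancel₀ _ (by positivity))
    refine ⟨j * (e / 3 / (m : ℝ) ^ (s + 1)) + t' / A i₀, (min_le_right _ _).trans (by linarith),
      by linarith, fun i hi => ?_⟩
    obtain ⟨n, hn⟩ := j3 i hi
    obtain ⟨n', h1, h2⟩ : ∃ n' : ℤ, η ≤ t' / A i₀ * A i - n' ∧ t' / A i₀ * A i - n' ≤ e / 3 := by
      by_cases h : i = i₀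
      · subst h
        exact ⟨0, by rw [div_mul_cancel₀ _ a0.ne']; simpa using ⟨t1, t2⟩⟩
      · obtain ⟨n', h⟩ := t3 i (Finset.mem_erase.2 ⟨h, hi⟩)
        exact ⟨n', by rwa [div_mul_eq_mul_div, mul_div_assoc]⟩
    rw [abs_le, ← mul_assoc] at hn
    have := min_le_left (η / 2) (e / 3 / (m : ℝ) ^ (s + 1))
    refine ⟨n + n', ?_, ?_⟩ <;> rw [add_mul] <;> push_cast <;> linarith [hn.1, hn.2]

end O66

/-- **OSD**: one sided simultaneous approximation in continuous time -/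
theorem osd {ι : Type} (s : ℕ) {e : ℝ} (he : 0 < e) : ∃ η : ℝ, 0 < η ∧
    ∀ (I : Finset ι) (A : ι → ℝ), I.card ≤ s → (∀ i ∈ I, 0 ≤ A i) → ∃ t, η ≤ t ∧ t ≤ e ∧
      ∀ i ∈ I, ∃ n : ℤ, 0 ≤ t * A i - n ∧ t * A i - n ≤ e := by
  classical
  obtain ⟨η, η0, H⟩ := O66.mar (ι := ι) s e he
  refine ⟨η, η0, fun I A hI hA => ?_⟩
  obtain ⟨t, t1, t2, t3⟩ := H (I.filter fun i => 1 ≤ A i) A
    ((Finset.card_filter_le _ _).trans hI) fun i hi => (Finset.mem_filter.1 hi).2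
  refine ⟨t, t1, t2, fun i hi => ?_⟩
  have t0 := η0.le.trans t1
  by_cases h : 1 ≤ A i
  · obtain ⟨n, h1, h2⟩ := t3 i (Finset.mem_filter.2 ⟨hi, h⟩)
    exact ⟨n, η0.le.trans h1, h2⟩
  · refine ⟨0, by simpa using mul_nonneg t0 (hA i hi), ?_⟩
    have := mul_le_of_le_one_right t0 (not_le.1 h).le
    simpa using this.trans t2

end Vale.Agent.P283R.Wd
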