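import Mathlib

/-!
# P283R, block WD: flatness for sums of many lattice polytopes
-/

open Finset

namespace Vale.Agent.P283R.Wd

namespace P18

variable {ι τ σ : Type} [Fintype τ] {e : ι → τ → σ → ℤ}

/-- the vectors span -/
def Spn (v : τ → σ → ℤ) : Prop := ∀ x : σ → ℝ, ∃ s : τ → ℝ, ∀ k, x k = ∑ j, s j * v j k

/-- `y` lies in the sum of the zonotopes -/
def Rch (e : ι → τ → σ → ℤ) (J : Finset ι) (y : σ → ℝ) : Prop :=
  ∃ a : ι → τ → ℝ, (∀ i j, 0 ≤ a i j ∧ a i j ≤ 1) ∧ ∀ k, ∑ i ∈ J, ∑ j, a i j * e i j k = y k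

theorem Rch.ins [DecidableEq ι] {J : Finset ι} {y : σ → ℝ} (h : Rch e J y) {i : ι}
    (hi : i ∉ J) {α : τ → ℝ} (hα : ∀ j, 0 ≤ α j ∧ α j ≤ 1) :
    Rch e (insert i J) fun k => y k + ∑ j, α j * e i j k := by
  obtain ⟨a, h1, h2⟩ := h
  refine ⟨Function.update a i α, fun l j => ?_, fun k => ?_⟩
  · by_cases c : l = i
    · subst c
      simpa using hα j
    · simpa [Function.update_of_ne c] using h1 l j
  · change _ = y k + _
    rw [sum_insert hi, Function.update_self, ← h2 k, add_comm]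
    refine congrArg (· + _) (sum_congr rfl fun l hl => ?_)
    rw [Function.update_of_ne fun c : l = i => hi (c ▸ hl)]

theorem fund {v : τ → σ → ℤ} (h : Spn v) (x : σ → ℝ) : ∃ (α : τ → ℝ) (p : τ → ℤ),
    (∀ j, 0 ≤ α j ∧ α j ≤ 1) ∧ ∀ k, x k = ∑ j, α j * v j k + (∑ j, p j * v j k : ℤ) := by
  obtain ⟨s, hs⟩ := h x
  refine ⟨fun j => Int.fract (s j), fun j => ⌊s j⌋,
    fun j => ⟨Int.fract_nonneg _, (Int.fract_lt_one _).le⟩, fun k => ?_⟩
  rw [hs, Int.cast_sum, ← sum_add_distrib]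
  refine sum_congr rfl fun j _ => ?_
  simp only [Int.fract]
  push_cast
  ring

/-- the residues of the lattice points -/
def Res (N : ℕ) (e : ι → τ → σ → ℤ) (J : Finset ι) : Set (σ → ZMod N) :=
  {g | ∃ m : σ → ℤ, Rch e J (fun k => m k) ∧ g = fun k => (m k : ZMod N)}

theorem stab {N : ℕ} [NeZero N] {A : Set (σ → ZMod N)} {t : σ → ℤ}
    (h : ∀ g ∈ A, (fun k => g k + t k) ∈ A) (p : ℤ) : ∀ g ∈ A, (fun k => g k + p * t k) ∈ A := by
  have a : ∀ n : ℕ, ∀ g ∈ A, (fun k => g k + n * t k) ∈ A := fun n => by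
    induction n with
    | zero => exact fun g hg => by simpa using hg
    | succ n ih =>
      intro g hg
      have := h _ (ih g hg)
      simpa [add_mul, add_assoc] using this
  intro g hg
  have := a (p : ZMod N).val g hg
  rwa [ZMod.natCast_zmod_val] at this

theorem grow [Finite σ] [DecidableEq ι] {N : ℕ} [NeZero N] (J : Finset ι)
    (h : ∀ i ∈ J, Spn (e i)) : Res N e J = Set.univ ∨ J.card + 1 ≤ (Res N e J).ncard := by
  classical
  induction J using Finset.induction_on with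
  | empty =>
    exact .inr ((Set.ncard_pos (Set.toFinite _)).2
      ⟨_, 0, ⟨0, fun _ _ => by simp, fun _ => by simp⟩, rfl⟩)
  | insert i J hi ih =>
    have st : ∀ g ∈ Res N e J, ∀ (α : τ → ℝ) (t : σ → ℤ), (∀ j, 0 ≤ α j ∧ α j ≤ 1) →
        (∀ k, (t k : ℝ) = ∑ j, α j * e i j k) → (fun k => g k + t k) ∈ Res N e (insert i J) := by
      rintro _ ⟨m, hm, rfl⟩ α t a ht
      refine ⟨m + t, ?_, by ext k; simp⟩
      simpa only [Pi.add_apply, Int.cast_add, ht] using hm.ins hi a
    have sub : Res N e J ⊆ Res N e (insert i J) := fun g hg => by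
      simpa using st g hg 0 0 (by simp) (by simp)
    rcases ih fun i hi => h i (mem_insert_of_mem hi) with c | c
    · exact .inl (Set.eq_univ_of_univ_subset (c ▸ sub))
    by_cases q : Res N e (insert i J) ⊆ Res N e J
    · refine .inl (Set.eq_univ_of_forall fun g => sub ?_)
      obtain ⟨g₀, h₀⟩ : (Res N e J).Nonempty := (Set.ncard_pos (Set.toFinite _)).1 (by omega)
      obtain ⟨α, p, a, k1⟩ := fund (h i (mem_insert_self _ _))
        fun k => (((g k - g₀ k).val : ℤ) : ℝ)
      have s1 := q (st g₀ h₀ α (fun k => (g k - g₀ k).val - ∑ j, p j * e i j k) a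
        fun k => by rw [Int.cast_sub, k1 k]; ring)
      have s2 : ∀ T : Finset τ, ∀ g ∈ Res N e J,
          (fun k => g k + (∑ j ∈ T, p j * e i j k : ℤ)) ∈ Res N e J := fun T => by
        induction T using Finset.induction_on with
        | empty => exact fun g hg => by simpa using hg
        | insert j T hj ih =>
          intro g hg
          have := stab (fun g hg => q (st g hg (Pi.single j 1) (e i j)
            (fun l => by by_cases c : l = j <;> simp [c]) (by simp [Pi.single_apply]))) (p j) _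
            (ih g hg)
          simpa [sum_insert hj, add_assoc, add_comm, add_left_comm] using this
      simpa [add_assoc] using s2 univ _ s1
    · have := Set.ncard_lt_ncard ⟨sub, q⟩ (Set.toFinite _)
      rw [card_insert_of_notMem hi]
      exact .inr (by omega)

theorem spn_of [Fintype σ] {v : τ → σ → ℤ} (h : ∀ ν : σ → ℤ, ν ≠ 0 → ∃ j, v j ⬝ᵥ ν ≠ 0) :
    Spn v := by
  classical
  have t : Submodule.span ℚ (Set.range fun j k => (v j k : ℚ)) = ⊤ := by
    by_contra c
    obtain ⟨f, f0, hf⟩ := Submodule.exists_le_ker_of_lt_top _ (lt_top_iff_ne_top.2 c)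
    obtain ⟨b, hb⟩ := IsLocalization.exist_integer_multiples_of_finite (nonZeroDivisors ℤ)
      fun k => f (Pi.single k 1)
    choose ν hν using hb
    have b0 : ((b : ℤ) : ℚ) ≠ 0 := Int.cast_ne_zero.2 (nonZeroDivisors.ne_zero b.2)
    have hν' : ∀ k, (ν k : ℚ) = (b : ℤ) * f (Pi.single k 1) := fun k => by simpa using hν k
    obtain ⟨j, hj⟩ := h ν fun e => f0 (LinearMap.pi_ext' fun k => LinearMap.ext_ring (by
      simpa [e, b0] using hν' k))
    have := hf (Submodule.subset_span ⟨j, rfl⟩)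
    rw [LinearMap.mem_ker, LinearMap.pi_apply_eq_sum_univ] at this
    refine hj (Int.cast_injective (α := ℚ) ?_)
    rw [dotProduct, Int.cast_sum, Int.cast_zero, ← mul_zero ((b : ℤ) : ℚ), ← this, mul_sum]
    refine sum_congr rfl fun k _ => ?_
    rw [Int.cast_mul, hν', smul_eq_mul, mul_left_comm]
    congr 3
    ext l
    simp [Pi.single_apply, eq_comm]
  have u : ∀ l : σ, ∃ c : τ → ℚ, ∑ j, c j • (fun k => (v j k : ℚ)) = Pi.single l 1 := fun l =>
    (Submodule.mem_span_range_iff_exists_fun ℚ).1 (t ▸ Submodule.mem_top)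
  choose c hc using u
  refine fun x => ⟨fun j => ∑ l, x l * c l j, fun k => ?_⟩
  have w : ∀ l, ∑ j, (c l j : ℝ) * v j k = if k = l then 1 else 0 := fun l => by
    have := congrFun (hc l) k
    rw [Finset.sum_apply, Pi.single_apply] at this
    have := congrArg ((↑) : ℚ → ℝ) this
    simpa [apply_ite ((↑) : ℚ → ℝ)] using this
  simp only [sum_mul, mul_assoc]
  rw [sum_comm]
  simp [← mul_sum, w]

end P18

open P18

/-- **the sum of many spanning lattice zonotopes meets every coset of `N ℤ^σ`** -/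
theorem parR {ι τ σ : Type} [Fintype τ] [Fintype σ] {N : ℕ} (hN : 0 < N) (I : Finset ι)
    (hI : N ^ Fintype.card σ + 1 ≤ I.card) (e : ι → τ → σ → ℤ)
    (h : ∀ i ∈ I, ∀ ν : σ → ℤ, ν ≠ 0 → ∃ j, e i j ⬝ᵥ ν ≠ 0) (x : σ → ℝ) :
    ∃ a : ι → τ → ℝ, (∀ i j, 0 ≤ a i j ∧ a i j ≤ 1) ∧ ∃ n : σ → ℤ,
      ∀ k, x k + ∑ i ∈ I, ∑ j, a i j * e i j k = N * n k := by
  classical
  obtain ⟨i, hi⟩ : I.Nonempty := card_pos.1 (by omega)
  have : NeZero N := ⟨hN.ne'⟩
  have u : Res N e (I.erase i) = Set.univ := by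
    rcases grow (N := N) (I.erase i) fun l hl => spn_of (h l (mem_of_mem_erase hl)) with c | c
    · exact c
    · have := Set.ncard_le_card (Res N e (I.erase i))
      rw [Nat.card_eq_fintype_card, Fintype.card_fun, ZMod.card] at this
      rw [card_erase_of_mem hi] at c
      omega
  obtain ⟨α, p, a0, k1⟩ := fund (spn_of (h i hi)) (-x)
  obtain ⟨m, hm, e1⟩ : (fun k => ((∑ j, p j * e i j k : ℤ) : ZMod N)) ∈ Res N e (I.erase i) :=
    u ▸ trivial
  obtain ⟨a, h1, h2⟩ := hm.ins (notMem_erase i I) a0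
  rw [insert_erase hi] at h2
  choose c hc using fun k => (ZMod.intCast_eq_intCast_iff_dvd_sub _ _ _).1 (congrFun e1 k)
  refine ⟨a, h1, c, fun k => ?_⟩
  have a1 := k1 k
  have a2 := congrArg ((↑) : ℤ → ℝ) (hc k)
  rw [h2 k]
  rw [Pi.neg_apply] at a1
  push_cast at a1 a2 ⊢
  linear_combination a2 - a1

end Vale.Agent.P283R.Wd
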