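import Vale.Agent.P283R.Wd.Sr
import Vale.Agent.P283R.C3.Fac20

/-!
# P283R, block WD: factorisation and orders
-/

open Set

noncomputable section

namespace Vale.Agent.P283R.Wr

open Vale.Agent.P287D Vale.Agent.P283M Vale.Agent.P283R.To Vale.Agent.P297Z

open C3.F20 in
/-- **FAC** -/
theorem fac : FAC := fun r K _ _ s y h => by
  have l : ∀ p, s - algebraMap ℂ K p ≠ 0 := fun p e =>
    h.ind.transcendental 0 (show IsAlgebraic ℂ s from sub_eq_zero.1 e ▸ isAlgebraic_algebraMap p)
  have y0 : ∀ j, y j ≠ 0 := fun j => h.ind.ne_zero j.succ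
  have o : ∀ (P : Pl K) n u, P.ord (hm s y n u) = ∑ j, u j * P.ord (y j) + P.ord (rt s n) :=
    fun P n u => by
      rw [← ord_mon P y0, add_comm]
      exact Pl.ord_mul _ (rt_ne l n) (mon_ne y0 u)
  refine ⟨?_, fun n u => ⟨mul_ne_zero (rt_ne l n) (mon_ne y0 u), _, rt_mem n, rfl⟩,
    fun n u n' u' => ?_, fun P r r' => uniq l, fun P r a t => ?_,
    fun P r n u a => by rw [o, ord_at l a], fun P n u a => ?_⟩
  · rintro u _ ⟨φ, hφ, rfl⟩ a0
    obtain ⟨c, n, c0, rfl⟩ := C3.F20.fac l hφ (left_ne_zero_of_mul a0)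
    exact ⟨c, n, c0, smul_mul_assoc _ _ _⟩
  · show rt s _ * _ = rt s _ * _ * (rt s _ * _)
    rw [rt_add l, mon_add y0, mul_mul_mul_comm]
  · have k : ∀ p, P.ord (s - algebraMap ℂ K p) = 0 := fun p => t 0 _
      ⟨_, sub_mem (IntermediateField.mem_adjoin_simple_self ℂ s)
        (IntermediateField.algebraMap_mem _ p), by simp [mon]⟩ (l p)
    rcases r with _ | p
    · have b : 0 < -P.ord s := a
      have := k 0
      rw [map_zero, sub_zero] at this
      omega
    · exact (k p).not_gt a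
  · rw [o, ord_rt l]
    simp only [ord_no l a, mul_zero, Finset.sum_const_zero, add_zero]

end Vale.Agent.P283R.Wr
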