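import Vale.Agent.P283R.Wd.S42

/-!
# P283R, block WD: sections at the places centred at `p`
-/

open Vale.Agent.P285N.Brep (jac Fr)

noncomputable section

namespace Vale.Agent.P283R.Wd

open Vale.Agent.P287D Vale.Agent.P297Z

theorem secb22 : SECB := by
  intro d q K _ _ S p y t γ hq aff nor pri hy ht ind γ0 bd P hP
  obtain ⟨D, fr⟩ := hy
  have j0 : jac D t ≠ 0 := (Cb.jac_ne_iff fr _).2 ind
  have q0 : (0 : ℝ) < q := by exact_mod_cast hq
  have ρ0 : jac D t ^ q * γ ≠ 0 := mul_ne_zero (pow_ne_zero _ j0) γ0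
  have el : ∀ R : Pl K, ld y q γ R = 1 + kap t R - (R.ord (jac D t ^ q * γ) : ℝ) / q :=
    fun R => by
      rw [ld, Cb.kap_chg fr j0, Pi.add_apply, dv_apply, Pl.ord_mul _ (pow_ne_zero _ j0) γ0,
        Pl.ord_pow]
      push_cast
      field_simp
      ring
  have lo : jac D t ^ q * γ ∈ Lo S p := Hr.lo_of aff nor pri fun R hR => by
    have b := bd R hR
    obtain ⟨q', -, c, -⟩ := hR
    have k : 0 ≤ kap t R := Cb.kap_nonneg aff.ff fun l => (c ⟨_, ht l⟩).1
    rw [el R] at b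
    have : (0 : ℝ) ≤ (R.ord (jac D t ^ q * γ) : ℝ) / q := by linarith
    have := (div_nonneg_iff.1 this).elim (fun a => a.1) fun a => absurd a.2 (not_le.2 q0)
    exact (Pl.ord_nonneg_iff R.toPlace ρ0).1 (by exact_mod_cast this)
  have o : (0 : ℝ) ≤ P.ord (jac D t ^ q * γ) := by
    exact_mod_cast (Pl.ord_nonneg_iff P.toPlace ρ0).2 (Hr.cen_lo hP lo)
  rw [el P]
  linarith [div_nonneg o q0.le]

end Vale.Agent.P283R.Wd
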