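import Vale.Agent.P283R.Mt.Alg
import Vale.Agent.P283R.Cx.St
import Vale.Agent.P283R.To.Gs3

/-!
# P283R, block WD: generators of a ring spanned by monomials
-/

set_option linter.all false

open Set

noncomputable section

namespace Vale.Agent.P283R.Wd.S70

open Vale.Agent.P283R.To Vale.Agent.P283R.Cx

variable {K : Type} [Field K] [Algebra ℂ K] {k : ℕ}

/-- a monoid with a finite family of generators -/
theorem sp_mon {J ι : Type} [Fintype J] [Fintype ι] {y : J → K} (y0 : ∀ j, y j ≠ 0)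
    (c : ι → (Fin k → ℤ) × (J → ℤ)) :
    ∃ (s : Fin (Fintype.card ι) → K) (a : Fin (Fintype.card ι) → Fin k → ℤ), (∀ j, s j ≠ 0) ∧
      ∀ m, Sp s a m =
        Submodule.span ℂ (mon y '' {u | (m, u) ∈ AddSubmonoid.closure (range c)}) := by
  classical
  let e := (Fintype.equivFin ι).symm
  refine ⟨fun j => mon y (c (e j)).2, fun j => (c (e j)).1, fun j => mon_ne y0 _, fun m => ?_⟩
  have r : range c = range fun j => c (e j) := (e.surjective.range_comp c).symm
  have key : ∀ n : Fin (Fintype.card ι) → ℕ, ∑ j, n j • c (e j) =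
      (dg (fun j => (c (e j)).1) n, fun i => ∑ j, (n j : ℤ) * (c (e j)).2 i) := fun n => by
    ext i <;> simp [dg, Prod.fst_sum, Prod.snd_sum, Finset.sum_apply]
  refine congrArg (Submodule.span ℂ) (Set.ext fun x => ⟨?_, ?_⟩)
  · rintro ⟨n, hn, rfl⟩
    refine ⟨fun i => ∑ j, (n j : ℤ) * (c (e j)).2 i, ?_, ?_⟩
    · show (m, _) ∈ AddSubmonoid.closure (range c)
      rw [← show _ = m from hn, ← key]
      exact sum_mem fun j _ => nsmul_mem (AddSubmonoid.subset_closure (mem_range_self _)) _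
    · rw [← mon_mon y0, mon_nat]
  · rintro ⟨u, hu, rfl⟩
    have hu' : (m, u) ∈ AddSubmonoid.closure (range fun j => c (e j)) := r ▸ hu
    obtain ⟨n, hn⟩ := (AddSubmonoid.mem_closure_range_iff_of_fintype).1 hu'
    rw [key] at hn
    obtain ⟨h1, h2⟩ := Prod.mk.inj hn
    refine ⟨n, h1.symm, ?_⟩
    rw [h2, ← mon_mon y0, mon_nat]

/-- the monomials with linear inequalities -/
theorem sp_tor {J : Type} [Fintype J] {y : J → K} (y0 : ∀ j, y j ≠ 0) (ρ : Fin k → J → ℤ) :
    ∃ (s : Fin (k + (Fintype.card J + 1)) → K) (a : Fin (k + (Fintype.card J + 1)) → Fin k → ℤ),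
      (∀ j, s j ≠ 0) ∧ ∀ m, Sp s a m =
        Submodule.span ℂ (mon y '' {u | ∀ i, 0 ≤ ∑ j, u j * ρ i j + m i}) := by
  let e := Fintype.equivFin J
  have h := sp_mon (y := fun j => y (e.symm j)) (fun j => y0 _) (Mt.cg fun i j => ρ i (e.symm j))
  rw [Fintype.card_sum, Fintype.card_option, Fintype.card_fin, Fintype.card_fin] at h
  obtain ⟨s, a, s0, h⟩ := h
  refine ⟨s, a, s0, fun m => (h m).trans (congrArg (Submodule.span ℂ) (Set.ext fun x => ?_))⟩
  simp only [Mt.mem_cg]
  constructor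
  · rintro ⟨u, hu, rfl⟩
    refine ⟨fun j => u (e j), fun i => ?_, ?_⟩
    · have := hu i
      rwa [← e.sum_comp, show (fun j => u (e j) * ρ i (e.symm (e j))) = fun j => u (e j) * ρ i j
        from funext fun j => by rw [e.symm_apply_apply]] at this
    · rw [mon, mon, ← e.prod_comp]
      exact Finset.prod_congr rfl fun j _ => by rw [e.symm_apply_apply]
  · rintro ⟨u, hu, rfl⟩
    refine ⟨fun j => u (e.symm j), fun i => ?_, e.symm.prod_comp fun j => y j ^ u j⟩
    rw [e.symm.sum_comp fun j => u j * ρ i j]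
    exact hu i

end Vale.Agent.P283R.Wd.S70
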