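import Vale.Agent.P283R.C3.St

/-!
# P283R, block WD: torus actions of complexity one in any dimension, the words of block C3
-/

open Set CategoryTheory AlgebraicGeometry

noncomputable section

namespace Vale.Agent.P283R.Wr

open Vale.Agent.P287D Vale.Agent.P283M Vale.Agent.P283R.To
open C3 (mu At od KT)

section defs

variable {K : Type} [Field K] [Algebra ℂ K] {ι : Type} {r : ℕ}

/-- the frame -/
def fr (s : K) (y : Fin r → K) : Fin (r + 1) → K := Fin.cons s y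

/-- homogeneous functions of the degree `u` -/
def Hm (s : K) (y : Fin r → K) (u : Fin r → ℤ) : Set K :=
  {a | ∃ φ ∈ IntermediateField.adjoin ℂ {s}, a = φ * mon y u}

/-- a family of homogeneous components -/
def Hg (s : K) (y : Fin r → K) (G : (Fin r → ℤ) →₀ K) : Prop := ∀ u, G u ∈ Hm s y u

/-- the sum of the components -/
def tot (G : (Fin r → ℤ) →₀ K) : K := G.sum fun _ a => a

/-- the standard homogeneous functions -/
def hm (s : K) (y : Fin r → K) (n : ℂ →₀ ℤ) (u : Fin r → ℤ) : K :=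
  (n.prod fun p k => (s - algebraMap ℂ K p) ^ k) * mon y u

/-- the place is trivial on the homogeneous functions -/
def Tv (s : K) (y : Fin r → K) (P : Pl K) : Prop := ∀ u, ∀ a ∈ Hm s y u, a ≠ 0 → P.ord a = 0

/-- the order of the form `ds ∧ dlog y` -/
def cz (s : K) (y : Fin r → K) (P : Pl K) : ℤ := ⌊kap (fr s y) P⌋ - ∑ j, P.ord (y j)

/-- the family `P` of the prime divisors, `w` selects those in the open set -/
structure Fm (s : K) (y : Fin r → K) (w : ι → Prop) (P : ι → Pl K) : Prop where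
  rat : D.Rat (fr s y)
  fin : ∀ a : K, {E | w E ∧ (P E).ord a ≠ 0}.Finite
  finc : {E | w E ∧ cz s y (P E) ≠ 0}.Finite
  inv : ∀ E, w E → ¬ Tv s y (P E) → ∀ G, Hg s y G → ∀ u, G u ≠ 0 →
    (P E).ord (tot G) ≤ (P E).ord (G u)
  lau : ∀ φ : K, φ ≠ 0 → (∀ E, w E → Tv s y (P E) → 0 ≤ (P E).ord φ) → ∃ G, Hg s y G ∧ φ = tot G
  eqn : ∀ c : ι → ℤ, {E | c E ≠ 0}.Finite →
    ∃ φ : K, φ ≠ 0 ∧ ∀ E, w E → Tv s y (P E) → (P E).ord φ = c E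
  kt : ∀ E, w E → Tv s y (P E) → cz s y (P E) = 0
  mis : {p : ℂ | ¬ ∃ E, w E ∧ At s (P E) (some p)}.Finite

/-- `ε`-lc and nef: `q (K + B) = div g + ∑ κ_E E` -/
def Hw (ε : ℝ) (q : ℕ) (s : K) (y : Fin r → K) (w : ι → Prop) (P : ι → Pl K) (g : K)
    (κ : ι → ℤ) : Prop :=
  ∀ (Q : Pl K) (ξ : ι → ℝ), 0 ≤ ξ → (∀ E, ξ E ≠ 0 → w E ∧ ¬ Tv s y (P E)) →
    (∀ u, ∀ a ∈ Hm s y u, a ≠ 0 → ∑ᶠ E, ξ E * (P E).ord a ≤ Q.ord a) →
    ε * q ≤ q * (cz s y Q + 1) - Q.ord g - ∑ᶠ E, ξ E * κ E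

end defs

/-- a property of a frame -/
def ForR (p : ∀ (r : ℕ) (K : Type) [Field K] [Algebra ℂ K], K → (Fin r → K) → Prop) : Prop :=
  ∀ (r : ℕ) (K : Type) [Field K] [Algebra ℂ K] (s : K) (y : Fin r → K), D.Rat (fr s y) → p r K s y

/-- **FAC**: factorisation and orders -/
def FAC : Prop := ForR fun _ _ _ _ s y =>
  (∀ u, ∀ a ∈ Hm s y u, a ≠ 0 → ∃ (c : ℂ) (n : ℂ →₀ ℤ), c ≠ 0 ∧ a = c • hm s y n u) ∧
  (∀ n u, hm s y n u ≠ 0 ∧ hm s y n u ∈ Hm s y u) ∧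
  (∀ n u n' u', hm s y (n + n') (u + u') = hm s y n u * hm s y n' u') ∧
  (∀ P r r', At s P r → At s P r' → r = r') ∧ (∀ P r, At s P r → ¬ Tv s y P) ∧
  (∀ P r n u, At s P r → P.ord (hm s y n u) = ∑ j, u j * P.ord (y j) + mu s P r * od n r) ∧
  (∀ P n u, (∀ r, ¬ At s P r) → P.ord (hm s y n u) = ∑ j, u j * P.ord (y j))

/-- **SUMS**: sums of homogeneous functions -/
def SUMS : Prop := ForR fun r K _ _ s y => (∀ G, Hg s y G → G ≠ 0 → tot G ≠ 0) ∧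
  (∀ (G : (Fin r → ℤ) →₀ K) (P : Pl K), tot G ≠ 0 → ∃ u, G u ≠ 0 ∧ P.ord (G u) ≤ P.ord (tot G)) ∧
  ∀ (A : Set K), ∀ a ∈ Submodule.span ℂ {b ∈ A | ∃ u, b ∈ Hm s y u},
    ∃ G, Hg s y G ∧ a = tot G ∧ ∀ u, G u ∈ Submodule.span ℂ (A ∩ Hm s y u)

/-- **CZ**: the invariant form -/
def CZ : Prop := ForR fun r K _ _ s y =>
  (∀ P p, mu s P (some p) - 1 ≤ cz s y P) ∧ (∀ P, -1 - mu s P none ≤ cz s y P) ∧
  (∃ h : K, h ≠ 0 ∧ ∀ P, cn K (r + 1) P = cz s y P + P.ord h) ∧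
  ∀ v : Fin r → ℤ, v ≠ 0 → ∃ (Q : Pl K) (e : ℕ), 0 < e ∧ (∀ j, v j = e * Q.ord (y j)) ∧
    (∀ x, ¬ At s Q x) ∧ cz s y Q + 1 ≤ 0

section sch

open Vale.Agent.P289 (Pt DForm dimension)
open Vale.Agent.P283M.Stm Vale.Agent.P283M.Stm.Var Vale.Agent.P283M.Br Vale.Agent.P283R.Gl

/-- `W` is covered by graded affine charts -/
def CoY {X : Var} {r : ℕ} (W : X.X.Opens) (s : X.K) (y : Fin r → X.K) : Prop :=
  AlgebraicIndependent ℂ (fr s y) ∧ ∀ x ∈ W, ∃ U ≤ W, IsAffineOpen U ∧ x ∈ U ∧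
    ∀ g, (∀ x' ∈ U, RegAt g x') →
      g ∈ Submodule.span ℂ {b ∈ {b | ∀ x' ∈ U, RegAt b x'} | ∃ u, b ∈ Hm s y u}

/-- a property of a variety of complexity one -/
def ForX (p : ∀ (r : ℕ) (X : Var), X.X.Opens → X.K → (Fin r → X.K) → Prop) : Prop :=
  ∀ (r : ℕ) (X : Var) (W : X.X.Opens) (s : X.K) (y : Fin r → X.K) (x : Pt X.X), CoY W s y →
    x ∈ W → p r X W s y

/-- **RAT** -/
def RAT : Prop := ForX fun _ X W s y => D.Rat (fr s y) ∧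
  ∀ E : X.PrimeDiv, E.1 ∈ W → Tv s y (pq E) → Tpr (fr s y) (pq E)

/-- **INV** -/
def INV : Prop := ForX fun _ X W s y => ∀ E : X.PrimeDiv, E.1 ∈ W → ¬ Tv s y (pq E) →
  ∀ G, Hg s y G → ∀ u, G u ≠ 0 → (pq E).ord (tot G) ≤ (pq E).ord (G u)

/-- **LAU** -/
def LAU : Prop := ForX fun _ X W s y => ∀ φ : X.K, φ ≠ 0 →
  (∀ E : X.PrimeDiv, E.1 ∈ W → Tv s y (pq E) → 0 ≤ (pq E).ord φ) → ∃ G, Hg s y G ∧ φ = tot G

/-- **MIS** -/
def MIS : Prop := ForX fun _ X W s _ =>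
  {p : ℂ | ¬ ∃ E : X.PrimeDiv, E.1 ∈ W ∧ At s (pq E) (some p)}.Finite

/-- **FM**: the prime divisors form a family -/
def FM : Prop := ForX fun _ X W s y => Fm s y (fun E : X.PrimeDiv => E.1 ∈ W) pq

end sch

end Vale.Agent.P283R.Wr
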