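import Vale.Agent.P283R.Wd.Tw36
import Vale.Agent.P283R.Be2.Ct
import Vale.Agent.P283R.Be2.RSkA

/-!
# P283R, block WD: the core uses the hypothesis at the fat places only
-/

attribute [-instance] HahnSeries.powerSeriesAlgebra

open Filter
open Vale.Agent.P285N.Brep (jac Fr)
open Vale.Agent.P287D Vale.Agent.P297Z
open Vale.Agent.P283.H647 (limLat)

noncomputable section

namespace Vale.Agent.P283R.Wd

open Co (Ge thl ulim UK)
open Tx Be2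

/-- **TTF**: the end product of the core, the region is bounded -/
def TTF : Prop := ∀ (d N q : ℕ) (ε : ℝ), 0 < d → 0 < q → 0 < ε → ∃ (ω : ℝ) (K : ℕ),
  Unif q fun n => ∀ (F : Type) [Field F] [Algebra ℂ F] (A : Subgroup (F ≃ₐ[ℂ] F))
    (S : Subalgebra ℂ F) (p : Ideal S) (z : Fin N → F) (y : Fin d → F) (h : F),
    Bc.Hp q A S p z y h → Finite A → Hyf ω ε A S p y q h →
    ∃ (D : Fin d → Derivation ℂ F F) (t : Fin d → F) (w g : F) (C : Finset (Fin N → ℕ)) (c₀ : ℝ)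
      (k : ℕ), Fr y D ∧ AlgebraicIndependent ℂ t ∧ (∀ l, ∃ s ∈ p, (s : F) = t l) ∧
      (∃ s ∈ p, (s : F) = w) ∧ g ≠ 0 ∧ 0 < c₀ ∧ k ≤ K ∧
      (∀ R, Cen S p R → ∀ s ∈ p, (s : F) ≠ 0 → ∃ l, R.ord (t l) ≤ R.ord (s : F)) ∧
      (∀ c ∈ C, Fix A (h ^ (n / q) * ∏ j, z j ^ c j)) ∧
      OutA q n k c₀ C S p z y h t w g (jac D t ^ q * h) ∧
      OutB q n k c₀ C S p z y h t w g (jac D t ^ q * h)

namespace T36

variable {d N q : ℕ} {𝒰 : Ultrafilter ℕ} {L : ℕ → LD d N q}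
  {G : ℕ → Ix N → MvPolynomial (Fin (d + 1)) ℂ}

/-- the inequality (P) for the limit -/
theorem pk (hd : 0 < d) (hq : 0 < q) {ε : ℝ} {κv : Fin N → ℤ}
    (hκ : ∀ᶠ i in (𝒰 : Filter ℕ), (L i).κv = κv) (fin : ∀ i, Finite (L i).A)
    (hyp : ∀ ω, ∀ᶠ i in (𝒰 : Filter ℕ), Hyf ω ε (L i).A (L i).S (L i).p (L i).y q (L i).h)
    {a og of μ : ℝ} {J : Set (Fin N)}
    {w : Fin N → ℝ} (h : ∀ K, ∀ᶠ i in (𝒰 : Filter ℕ), (L i).Ar a og of J w μ K) :
    (∀ j, j ∉ J → 0 < w j) ∧ ∀ ζ : Fin N → ℝ,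
      (∀ m ∈ limLat 𝒰 fun i => (L i).M, ∑ j, ζ j * m j = 0) → (∀ j, j ∉ J → 0 ≤ w j + ζ j) →
      ε ≤ a - of / q + ∑ j, (κv j : ℝ) / q * ζ j := by
  have hw : ∀ j, j ∉ J → 0 < w j := fun j hj => by
    obtain ⟨i, κ, _, _, x, δ, a1, -, -, -, -, -, -, -, -, a10⟩ := (h 0).exists
    obtain ⟨s, hs, e⟩ := (L i).lev.pt.mem j
    have := a1.pos s hs
    rw [e, a10 j hj] at this
    exact_mod_cast this
  refine ⟨hw, Blp.pp (fun i => (L i).M) hw fun η b hη => ?_⟩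
  obtain ⟨k, ω, hk⟩ := twf d N q (max a (max og of)) b η κv hd hq hη
  filter_upwards [h (η + b), hκ, box (fun i => (L i).M) k, hyp ω] with i
    ⟨κ, _, _, x, δ, a1, a2, a3, _, _, a6, a7, a8, a9, a10⟩ e hb hy r χ r0 c1 c2 c3 c4
  have := hk _ κ _ _ _ _ _ _ _ _ _ _ δ x a of r χ (e ▸ (L i).lev)
    ⟨a1, a2, a3, a6, le_max_left _ _,
      a7.trans_le (WithTop.coe_le_coe.2 ((le_max_left _ _).trans (le_max_right _ _))), a8.ge,
      a8.trans_le (WithTop.coe_le_coe.2 ((le_max_right _ _).trans (le_max_right _ _)))⟩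
    ⟨r0, c4, fun j => by
      by_cases hj : j ∈ J
      · exact (a9 j hj).mono (by linarith [(abs_le.1 (c4 j)).1])
      · exact le_trans (WithTop.coe_le_coe.2 (by linarith [c3 j hj])) (a10 j hj).ge,
      fun m h1 h2 => c2 m (hb m h1 h2)⟩ (fin i) c1 ε hy
  refine this.trans_eq ?_
  rw [Finset.sum_div]
  exact congrArg _ (Finset.sum_congr rfl fun j _ => by ring)

/-- the conclusion at one level -/
def Ouk (L : LD d N q) (n k : ℕ) : Prop :=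
  ∃ (C : Finset (Fin N → ℕ)) (c₀ : ℝ), 0 < c₀ ∧
    (∀ c ∈ C, Fix L.A (L.h ^ (n / q) * ∏ j, L.z j ^ c j)) ∧
    OutA q n k c₀ C L.S L.p L.z L.y L.h L.t L.w L.g L.f ∧
    OutB q n k c₀ C L.S L.p L.z L.y L.h L.t L.w L.g L.f

theorem lim (hd : 0 < d) (hq : 0 < q) {ε : ℝ} (hε : 0 < ε) {κv : Fin N → ℤ}
    (hκ : ∀ᶠ i in (𝒰 : Filter ℕ), (L i).κv = κv) (fin : ∀ i, Finite (L i).A)
    (hyp : ∀ ω, ∀ᶠ i in (𝒰 : Filter ℕ), Hyf ω ε (L i).A (L i).S (L i).p (L i).y q (L i).h)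
    {k₀ : ℕ}
    (sk : ∀ i, ∃ R μ, Cen (L i).S (L i).p R ∧ Mu (L i).t (L i).w R μ ∧
      (R.ord (L i).g : ℝ) ≤ k₀ * μ ∧ (R.ord (L i).f : ℝ) ≤ k₀ * μ) :
    ∃ n k : ℕ, 0 < n ∧ q ∣ n ∧ ∀ᶠ i in (𝒰 : Filter ℕ), Ouk (L i) n k := by
  have pay := payR
  choose G hG using fun i => (L i).exists_pol eul flo hq
  obtain ⟨n, C, hn, hqn, hC, hv⟩ := Blp.ver (limLat 𝒰 fun i => (L i).M) κv hq
  have n0 : (0 : ℝ) < n := by exact_mod_cast hn
  have q0 : (0 : ℝ) < q := by exact_mod_cast hq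
  have h0 := nz (𝒰 := 𝒰) pay flo hq hG sk
  have hP : LP 𝒰 L ≠ 0 := fun e => by
    obtain ⟨a, Z, o, μ, ⟨s, x, l, -, -, -, -, h, -⟩, hZ⟩ := h0
    have := h none (hZ _ (Or.inl rfl))
    simp only [LG, der_coe hG, Dn.ulim_pderiv] at this
    rw [show (ulim 𝒰 fun i => ((L i).P : MvPowerSeries (Fin (d + 1)) ℂ)) = 0 from e, map_zero,
      map_zero, Co.ev_zero] at this
    simp at this
  have : Nonempty (Fin d) := ⟨⟨0, hd⟩⟩
  obtain ⟨c, c0, lb, a, Z, o, μ, hI, hZ, ⟨c₁, hc₁⟩, hat⟩ := att2 (finSuccEquiv d) hP Fin.succ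
    (LG 𝒰 G) {none, some none} (V := C) (fun c => vx (n / q) c) n h0 fun a Z o μ hI hZ => by
      obtain ⟨p1, p2⟩ := pk hd hq hκ fin hyp
        (down dny exa arc hG hI (hZ _ (Or.inl rfl)) (hZ _ (Or.inr rfl)))
      obtain ⟨c, hc, r1, r2⟩ := hv (a - ((o (some none) : ℝ) - o none) / q - ε)
        (fun j => max ((o (some (some j)) : ℝ) - o none) 0) {j | some (some j) ∈ Z}
        (fun j => le_max_right _ _) fun ζ z1 z2 => by
          have := p2 ζ z1 fun j hj => by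
            have := z2 j hj
            rwa [max_eq_left (p1 j hj).le] at this
          linarith
      refine ⟨⟨c, hc⟩, (vx_zero hZ).2 r1, ?_⟩
      have r3 : ∑ j, (c j : ℝ) * ((o (some (some j)) : ℝ) - o none) ≤
          ∑ j, (c j : ℝ) * max ((o (some (some j)) : ℝ) - o none) 0 :=
        Finset.sum_le_sum fun j _ => mul_le_mul_of_nonneg_left (le_max_left _ _) (Nat.cast_nonneg _)
      have r4 : ∑ b, (vx (n / q) c b : ℝ) * (o b : ℝ) < n * a := by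
        rw [sum_vx (o := fun b => (o b : ℝ)), Nat.cast_div hqn q0.ne']
        rw [div_le_iff₀' n0] at r2
        have := mul_pos n0 hε
        have e : (n : ℝ) * (a - ((o (some none) : ℝ) - o none) / q - ε) =
            n * a - n / q * ((o (some none) : ℝ) - o none) - n * ε := by ring
        linarith
      exact_mod_cast r4
  have m1 : (1 : ℝ) ≤ μ := by
    obtain ⟨_, _, _, _, _, -, h, -⟩ := hI
    exact_mod_cast h
  obtain ⟨k, hk⟩ := exists_nat_gt (max (max (o none : ℝ) ((o (some none) : ℝ) - o none))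
    ((∑ j, (c₁.1 j : ℝ) * ((o (some (some j)) : ℝ) - o none)) / n))
  have kk : (k : ℝ) ≤ k * μ := le_mul_of_one_le_right (Nat.cast_nonneg _) m1
  simp only [max_lt_iff] at hk
  refine ⟨n, k, hn, hqn, ?_⟩
  have e1 : ∀ᶠ i in (𝒰 : Filter ℕ), ∀ c ∈ C,
      (fun j => (c j : ℤ) - (n / q : ℕ) * κv j) ∈ (L i).M :=
    (eventually_all_finset C).2 fun c hc => hC c hc
  filter_upwards [e1, hκ, down dny exa arc hG hI (hZ _ (Or.inl rfl)) (hZ _ (Or.inr rfl))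
    (n * (a - ((o (some none) : ℝ) - o none) / q)),
    tu2 (finSuccEquiv d) 0 Fin.succ Fin.succ_ne_zero 𝒰 (fun i => (L i).P)
      (fun b i => G i b) {none, some none} (Or.inl rfl) (der_coe hG) (V := C)
      (fun c => vx (n / q) c) (fun c => vx_nonneg _ _) n c
      (show 2 * k < (n + 2) * k + 1 by nlinarith) lb] with i r1 r2 r3 r4
  refine ⟨C, c / n, div_pos c0 n0, fun c hc => (L i).fix (r2 ▸ r1 c hc),
    (L i).outA pay flo hq (hG i) hn hqn r4,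
    (L i).outB apy flo hd hq hn r3 (one_pos.trans_le m1) (div_pos c0 n0).le (hk.1.1.trans_le kk)
      (hk.1.2.trans_le kk) ⟨c₁.1, c₁.2, (vx_zero hZ).1 hc₁, hk.2.trans_le kk⟩
      (fun c' hc h => ?_) (mul_div_cancel_left₀ _ n0.ne').ge⟩
  have := hat ⟨c', hc⟩ ((vx_zero hZ).2 h)
  rw [sum_vx (o := fun b => (o b : ℝ)), Nat.cast_div hqn q0.ne'] at this
  refine le_of_mul_le_mul_left ?_ n0
  have e2 : (n : ℝ) * ((∑ j, (c' j : ℝ) * ((o (some (some j)) : ℝ) - o none)) / n + c / n * μ) =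
      ∑ j, (c' j : ℝ) * ((o (some (some j)) : ℝ) - o none) + c * μ := by field_simp
  have e3 : (n : ℝ) * (a - ((o (some none) : ℝ) - o none) / q) =
      n * a - n / q * ((o (some none) : ℝ) - o none) := by ring
  linarith

theorem scale {L : LD d N q} {n r k : ℕ} (hq : q ∣ n) (hr : 0 < r) (h : Ouk L n k) :
    Ouk L (n * r) k := by
  classical
  obtain ⟨C, c₀, h1, h2, h3, E, μ, h4, h5, h6, h7, ⟨c, hc, h8⟩, h9⟩ := h
  have r0 : (r : ℝ) ≠ 0 := by exact_mod_cast hr.ne'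
  have e : ∀ (R : Pl L.F) (c : Fin N → ℕ),
      om L.z R (fun j => c j * r) / (n * r : ℕ) = om L.z R c / n := fun R c => by
    have : om L.z R (fun j => c j * r) = om L.z R c * r := by
      simp only [om, Finset.sum_mul]
      exact Finset.sum_congr rfl fun j _ => by push_cast; ring
    rw [this, Nat.cast_mul, mul_div_mul_right _ _ r0]
  refine ⟨C.image fun c j => c j * r, c₀, h1, Finset.forall_mem_image.2 fun c hc σ hσ => ?_,
    fun R μ β a1 a2 a3 a4 a5 a6 => h3 R μ β a1 a2 a3 a4 a5 fun c hc =>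
      e R c ▸ a6 _ (Finset.mem_image_of_mem _ hc),
    E, μ, h4, h5, h6, h7, ⟨_, Finset.mem_image_of_mem _ hc, (e E c).symm ▸ h8⟩,
    Finset.forall_mem_image.2 fun c hc => (e E c).symm ▸ h9 c hc⟩
  have : L.h ^ (n * r / q) * ∏ j, L.z j ^ (c j * r) = (L.h ^ (n / q) * ∏ j, L.z j ^ c j) ^ r := by
    rw [mul_pow, ← pow_mul, ← Finset.prod_pow, Nat.div_mul_right_comm hq]
    simp only [pow_mul]
  rw [this, map_pow, h2 c hc σ hσ]

theorem uni (d N q k₀ B : ℕ) {ε : ℝ} (hd : 0 < d) (hq : 0 < q) (hε : 0 < ε) : ∃ i : ℕ,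
    ∀ (n : ℕ) (L : LD d N q), 0 < n → i.factorial ∣ n → (∀ j, |L.κv j| ≤ B) → Finite L.A →
      Hyf i ε L.A L.S L.p L.y q L.h → (∃ R μ, Cen L.S L.p R ∧ Mu L.t L.w R μ ∧
        (R.ord L.g : ℝ) ≤ k₀ * μ ∧ (R.ord L.f : ℝ) ≤ k₀ * μ) → ∃ k ≤ i, Ouk L n k := by
  by_contra hn
  push Not at hn
  choose n L n0 nd hb fin hyp sk no using hn
  let 𝒰 : Ultrafilter ℕ := hyperfilter ℕ
  have fi : {m : Fin N → ℤ | ∀ j, |m j| ≤ B}.Finite :=
    (Set.Finite.pi' fun _ => Set.finite_Icc (-(B : ℤ)) B).subset fun m hm j => abs_le.1 (hm j)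
  obtain ⟨κv, -, hκ⟩ := (Ultrafilter.eventually_exists_mem_iff (f := 𝒰) fi
    (P := fun m i => (L i).κv = m)).1 (Eventually.of_forall fun i => ⟨_, hb i, rfl⟩)
  have big : ∀ m : ℕ, ∀ᶠ i in (𝒰 : Filter ℕ), m ≤ i := fun m =>
    hyperfilter_le_cofinite (Nat.cofinite_eq_atTop ▸ eventually_ge_atTop m)
  obtain ⟨n₁, k, h1, h2, h3⟩ := lim hd hq hε hκ fin (fun ω => (big ⌈ω⌉₊).mono fun i hi =>
    (hyp i).mono (Nat.ceil_le.1 hi)) sk
  obtain ⟨i, ⟨a1, a3⟩, a4⟩ := ((h3.and (big n₁)).and (big k)).exists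
  obtain ⟨r, hr⟩ : n₁ ∣ n i := (Nat.dvd_factorial h1 a3).trans (nd i)
  have r0 : 0 < r := Nat.pos_of_ne_zero fun e => (n0 i).ne' (by rw [hr, e, mul_zero])
  exact no i k a4 (hr ▸ scale h2 r0 a1)

end T36

/-- **TTF** -/
theorem ttf : TTF := by
  intro d N q ε hd hq hε
  obtain ⟨k₀, hk⟩ := Bc.sk d N hd
  obtain ⟨i, hi⟩ := T36.uni d N q (q * k₀) (d * q + q * k₀) hd hq hε
  refine ⟨i + k₀ + 1, i, i.factorial, i.factorial_pos,
    fun n n0 nd _ F _ _ A S p z y h H fin hy => ?_⟩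
  obtain ⟨t, w, Φ, s⟩ := hk F A S p z y H.pt H.fr H.kl
  obtain ⟨D, hD⟩ := H.fr
  obtain ⟨R, r, e⟩ := s.pl
  have : Nonempty (Fin d) := ⟨⟨0, hd⟩⟩
  obtain ⟨l, hl⟩ := Finite.exists_min fun l => R.ord (t l)
  have j0 : jac D t ≠ 0 := (Cb.jac_ne_iff hD t).2 s.ind
  have st : Stab A S := fun σ hσ a ha => by
    obtain ⟨b, _, e⟩ := H.pt.inr σ hσ ⟨a, ha⟩
    rw [eq_add_of_sub_eq e]
    exact add_mem b.2 ha
  have ht : ∀ l, t l ∈ S ∧ t l ∈ Lo S p ∧ 0 < R.ord (t l) := fun l => by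
    obtain ⟨x, hx, e⟩ := s.prj.mem l
    exact ⟨e ▸ x.2, e ▸ Dr13.coe_mem H.pt.pri x,
      e ▸ ((Hr.cen_iff r x).1 hx).resolve_left (e ▸ s.ind.ne_zero l)⟩
  have l1 : (1 : ℝ) ≤ R.ord (t l) := by exact_mod_cast (ht l).2.2
  have q1 : (1 : ℝ) ≤ q := by exact_mod_cast hq
  have i0 : (0 : ℝ) ≤ i := Nat.cast_nonneg _
  have k0 : (0 : ℝ) ≤ k₀ := Nat.cast_nonneg _
  have red : ∀ x ∈ p, (x : F) ≠ 0 → (R.ord (t l) : ℝ) ≤ R.ord (x : F) := fun x hx x0 => by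
    obtain ⟨l', e'⟩ := s.red R r x hx x0
    exact_mod_cast (hl l').trans e'
  have e1 : (R.ord (ev2 t w Φ.derivative) : ℝ) ≤ k₀ * R.ord (t l) := by exact_mod_cast (e l).1
  have e2 := (e l).2
  have lc := hy R r 1 1 (R.ord (t l)) one_pos one_pos (by linarith) (fun _ _ _ => one_dvd _) red
    (by push_cast; nlinarith) t (fun l => (ht l).1) s.ind (by nlinarith)
  have e3 : (R.ord (jac D t ^ q * h) : ℝ) ≤ (q * k₀ : ℕ) * R.ord (t l) := by
    have b := e2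
    rw [Cb.kap_chg hD j0, Pi.add_apply, dv] at b
    rw [Nat.cast_one, mul_one, one_mul, ld] at lc
    have a : (R.ord h : ℝ) / q ≤ 1 + kap y R := by linarith
    rw [div_le_iff₀ (by linarith)] at a
    rw [Pl.ord_mul _ (pow_ne_zero _ j0) H.h0, Pl.ord_pow]
    push_cast
    nlinarith [mul_le_mul_of_nonneg_left b (by linarith : (0 : ℝ) ≤ q)]
  obtain ⟨κv, k1, k2⟩ := Bkb.kb H.pt st hD H.fy hq H.h0 H.eh H.bd (fun l => (ht l).2.1) j0 r
    (μ := R.ord (t l)) (by linarith) (fun j => by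
      obtain ⟨x, hx, e⟩ := H.pt.mem j
      exact e ▸ red x hx (e ▸ H.pt.ne j)) e3
  have lev : Lev q κv A S p z y D h t w Φ := ⟨H.pt, s.prj, hD, H.fy, H.h0, k2, H.bd⟩
  obtain ⟨k, kl, C, c₀, h0, h1, h2, h3⟩ := hi n ⟨F, κv, A, S, p, z, y, D, h, t, w, Φ, lev,
    ⟨s.wp, fun q hq e => (s.only q hq fun a a' => e a a'.symm).ge⟩⟩ n0 nd k1 fin
    (hy.mono (by linarith)) ⟨R, R.ord (t l), r, ⟨by linarith, fun l' => by exact_mod_cast hl l',
      fun w0 => by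
        obtain ⟨x, hx, e⟩ := s.wp
        exact e ▸ red x hx (e ▸ w0)⟩, by
      refine e1.trans ?_
      push_cast
      nlinarith [mul_nonneg k0 (by linarith : (0 : ℝ) ≤ R.ord (t l))], e3⟩
  exact ⟨D, t, w, _, C, c₀, k, hD, s.ind, s.prj.mem, s.wp,
    (flo _ N q F κv A S p z y D h t w Φ hq lev).2.1, h0, kl, s.red, h1, h2, h3⟩

end Vale.Agent.P283R.Wd
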