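import Vale.Agent.P283R.Be2.TwM
import Vale.Agent.P283R.Be2.Tw8
import Vale.Agent.P283R.Be2.Kb

/-!
# P283R, block WD: the twisted arc uses the hypothesis at a fat place only
-/

attribute [-instance] HahnSeries.powerSeriesAlgebra

open Vale.Agent.P285N.Brep (jac Fr)
open Vale.Agent.P287D Vale.Agent.P297Z

noncomputable section

namespace Vale.Agent.P283R.Wd

open Co (Ge thl)
open Om (om omc ch)
open Tx Tx.Tl

/-- the hypothesis (H) at the fat places; the orders of the invariants lie in `(b / a) ℤ` -/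
def Hyf {F : Type} [Field F] [Algebra ℂ F] {d : ℕ} (ω ε : ℝ) (A : Subgroup (F ≃ₐ[ℂ] F))
    (S : Subalgebra ℂ F) (p : Ideal S) (y : Fin d → F) (q : ℕ) (h : F) : Prop :=
  ∀ P, Cen S p P → ∀ (a b : ℕ) (μ : ℝ), 0 < a → 0 < b → 0 < μ →
    (∀ f, f ≠ 0 → Fix A f → (b : ℤ) ∣ a * P.ord f) → (∀ s ∈ p, (s : F) ≠ 0 → μ ≤ P.ord (s : F)) →
    b ≤ ω * (a * μ) → ∀ u : Fin d → F, (∀ l, u l ∈ S) → AlgebraicIndependent ℂ u →
    1 + kap u P ≤ ω * μ → ε * b ≤ a * ld y q h P

theorem Hyf.mono {F : Type} [Field F] [Algebra ℂ F] {d : ℕ} {ω ω' ε : ℝ}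
    {A : Subgroup (F ≃ₐ[ℂ] F)} {S : Subalgebra ℂ F} {p : Ideal S} {y : Fin d → F} {q : ℕ} {h : F}
    (H : Hyf ω ε A S p y q h) (le : ω' ≤ ω) : Hyf ω' ε A S p y q h :=
  fun P hP a b μ a0 b0 m0 h1 h2 h3 u h4 h5 h6 => H P hP a b μ a0 b0 m0 h1 h2
    (h3.trans (mul_le_mul_of_nonneg_right le (by positivity))) u h4 h5
    (h6.trans (mul_le_mul_of_nonneg_right le m0.le))

/-- **TWf**: the inequality (P) at one level from the hypothesis at the fat places -/
def TWf : Prop :=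
  ∀ (d N q : ℕ) (a c η : ℝ) (κv : Fin N → ℤ), 0 < d → 0 < q → 0 < η → ∃ (k : ℕ) (ω : ℝ),
    ∀ (F κ : Type) [Field F] [Algebra ℂ F] [Field κ] [Algebra ℂ κ] (A : Subgroup (F ≃ₐ[ℂ] F))
      (S : Subalgebra ℂ F) (p : Ideal S) (z : Fin N → F) (y : Fin d → F)
      (D : Fin d → Derivation ℂ F F) (h : F) (t : Fin d → F) (w : F)
      (Φ : Polynomial (MvPolynomial (Fin d) ℂ)) (δ : Fin d → Derivation ℂ κ κ)
      (x : F →ₐ[ℂ] HahnSeries ℝ κ) (a' E : ℝ) (r : ℕ) (χ : Fin N → ℤ),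
      Lev q κv A S p z y D h t w Φ → Dat a a' E S p z t w Φ (jac D t ^ q * h) δ x →
      Dua c η k A z x r χ → Finite A →
      (∀ m : Fin N → ℤ, Fix A (∏ j, z j ^ m j) → (r : ℤ) ∣ ∑ j, χ j * m j) →
      ∀ ε : ℝ, Hyf ω ε A S p y q h → ε ≤ a' - E / q + (∑ j, (χ j / r : ℝ) * κv j) / q

theorem gen_le {F : Type} [Field F] [Algebra ℂ F] {d N : ℕ} {A : Subgroup (F ≃ₐ[ℂ] F)}
    {S : Subalgebra ℂ F} {p : Ideal S} {z : Fin N → F} (pt : Pt d A S p z) {P : Pl F}
    (hP : Cen S p P) {μ : ℝ} (h : ∀ j, μ ≤ P.ord (z j)) :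
    ∀ s ∈ p, (s : F) ≠ 0 → μ ≤ P.ord (s : F) := fun s hs s0 => by
  obtain ⟨c, hc, e⟩ := pt.gen s hs
  have : (s : F) ∈ P.sub (-μ) := by
    rw [e]
    exact Submodule.sum_mem _ fun j _ => Bkb.mul_sub (Hr.cen_lo hP (hc j))
      (.inr (by linarith [h j]))
  have := this.resolve_left s0
  linarith

/-- **TWf** from the core -/
theorem twf_of (hC : TWC) (hS : CLS) : TWf := by
  intro d N q a c η κv hd hq hη
  obtain ⟨a₂, hC⟩ := hC d N a c η hd hη
  obtain ⟨n₀, k₀, hS⟩ := hS d N (a + q * a₂) c η (q * d + ∑ j, (κv j).natAbs) hη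
  obtain ⟨n, hn, k₁, hC⟩ := hC (max n₀ η)
  refine ⟨max k₀ k₁, (|a₂| + d * c + |d * c| + 1) / η,
    fun F κ _ _ _ _ A S p z y D h t w Φ δ x a' E r χ L T U fin hM ε hH => ?_⟩
  obtain ⟨g, hg, hgz⟩ := exists_exp L.pt.ne L.pt.eig U.pos hM
  have zs := Om.zs_all L.prj T.zt T.zw
  have U' : Dua c η k₁ A z x r χ := ⟨U.pos, U.bd, U.ge, fun m hm => U.low m fun j =>
    (hm j).trans (by exact_mod_cast le_max_right _ _)⟩
  obtain ⟨J, ψ, hJ, X, uq⟩ := hC F κ A S p z t w Φ δ x r χ L.pt L.prj T.arc zs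
    (T.jac.trans (WithTop.coe_le_coe.2 T.le)) T.der U'
  have r0 : (0 : ℝ) < r := by exact_mod_cast U.pos
  have q0 : (0 : ℝ) < q := by exact_mod_cast hq
  have e1 : ∀ f, Fix A f → om 1 (ψ f) = ψ f := fun f hf => by
    have := uq _ (ex_comp X (L.pt.inr _ (A.inv_mem hg)) (s := 1) (fun j => by
      have := congrArg (fun b => (ch 1 (χ j / r))⁻¹ • g⁻¹ b) (hgz j)
      simp only [map_smul, smul_smul] at this
      rw [show Complex.exp _ = ch 1 (χ j / r) by simp [ch], inv_mul_cancel₀ (Om.ch_ne _ _),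
        one_smul] at this
      rw [← this]
      simp) fun j => Om.zs_iff.1 (zs _))
    have := DFunLike.congr_fun this f
    rwa [show (omc 1).comp (ψ.comp ((g⁻¹ : F ≃ₐ[ℂ] F) : F →ₐ[ℂ] F)) f = om 1 (ψ (g⁻¹ f)) from rfl,
      hf _ (A.inv_mem hg)] at this
  have e2 : ∀ f, om r (ψ f) = ψ f := fun f => by
    have := uq _ (ex_comp X (L.pt.inr _ A.one_mem) (s := r) (fun j => by
      rw [Om.ch_eq_one.2 ⟨χ j, by field_simp⟩]; simp) fun j => by
        simpa using Om.Zs.om_int (zs (z j)) r)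
    exact DFunLike.congr_fun this f
  have jz0 : (Jx δ fun i => x (z (J i))) ≠ 0 := fun e => by simp [e] at hJ
  obtain ⟨aJ, haJ⟩ := fin_ord jz0
  have jψ : (Jx δ fun i => ψ (z (J i))).orderTop = (aJ + ∑ i, (χ (J i) / r : ℝ) : ℝ) := by
    simp only [X.exa]
    rw [jx_tw, ord_tw haJ]
  obtain ⟨P, e, hP, e0, ho, hk⟩ := apx L.pt.aff.ff L.pt.res X.arc (δ := 1 / r) (by positivity)
    (fun f f0 => by
      obtain ⟨v, hv⟩ := fin_ord ((map_ne_zero ψ).2 f0)
      obtain ⟨m, hm⟩ := Om.int_of_eq hv (e2 f)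
      exact ⟨m, by rw [hv, ← hm]; congr 1; field_simp⟩)
    (by
      obtain ⟨s, hs, e⟩ := L.pt.mem (J ⟨0, hd⟩)
      exact ⟨s, hs, fun c => L.pt.ne (J ⟨0, hd⟩) (by simp [← e, c])⟩) δ (fun i => z (J i)) jψ.le
  have e0' : (0 : ℝ) < e * (1 / r) := by positivity
  have c1 := jx_chain L.fr δ x fun i => z (J i)
  have c2 := jx_chain L.fr δ x t
  have j0 : jac D (fun i => z (J i)) ≠ 0 := fun e => jz0 (by rw [c1, e, map_zero, mul_zero])
  have e3 : (0 : ℝ) < e := by exact_mod_cast e0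
  have j1' : aJ ≤ a₂ := by rw [haJ] at hJ; exact_mod_cast hJ
  have fat : ε ≤ e * (1 / r) * ld y q h P := by
    have := hH P hP e r (η * r / e) e0 U.pos (by positivity) (fun f f0 hf => by
        obtain ⟨m, hm⟩ := Om.int_of_eq (ho f f0) (e1 f hf)
        refine ⟨m, ?_⟩
        have : (e : ℝ) * P.ord f = r * m := by rw [← hm]; field_simp
        exact_mod_cast this)
      (gen_le L.pt hP fun j => by
        have g1 : Ge η (HahnSeries.single (χ j / r : ℝ) (1 : κ) * x (z j)) := by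
          simpa using (Co.ge_single (χ j / r : ℝ) (1 : κ)).mul (U.ge j)
        have g2 := ((X.near j).mono ((le_max_right _ _).trans hn)).add g1
        rw [sub_add_cancel, Ge, ho _ (L.pt.ne j), WithTop.coe_le_coe] at g2
        rw [div_le_iff₀ e3]
        have g3 := mul_le_mul_of_nonneg_right g2 r0.le
        have g4 : (e : ℝ) * (1 / r) * P.ord (z j) * r = P.ord (z j) * e := by field_simp
        linarith)
      (by
        have g1 : (|a₂| + d * c + |d * c| + 1) / η * (e * (η * r / e)) =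
          (|a₂| + d * c + |d * c| + 1) * r := by field_simp
        rw [g1]
        exact le_mul_of_one_le_left r0.le (by linarith [abs_nonneg a₂, neg_abs_le (d * c)]))
      (fun i => z (J i)) (fun l => by
        obtain ⟨s, -, hs⟩ := L.pt.mem (J l)
        exact hs ▸ s.2) ((Cb.jac_ne_iff L.fr _).1 j0) (by
        have g1 : ∑ i, (χ (J i) / r : ℝ) ≤ d * c :=
          (Finset.sum_le_card_nsmul _ _ c fun i _ => (le_abs_self _).trans (U.bd _)).trans
            (by simp)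
        have g2 : (|a₂| + d * c + |d * c| + 1) / η * (η * r / e) =
          (|a₂| + d * c + |d * c| + 1) / (e * (1 / r)) := by field_simp
        rw [g2, le_div_iff₀' e0']
        linarith [le_abs_self a₂, abs_nonneg (d * c)])
    rw [← le_div_iff₀ r0] at this
    exact this.trans_eq (by ring)
  refine fat.trans ?_
  set ρ := jac D (fun i => z (J i)) ^ q * h with hρ
  have ρ0 : ρ ≠ 0 := mul_ne_zero (pow_ne_zero _ j0) L.h0
  have el : ∀ R : Pl F, ld y q h R = 1 + kap (fun i => z (J i)) R - (R.ord ρ : ℝ) / q :=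
    fun R => by
      rw [ld, Cb.kap_chg L.fr j0, Pi.add_apply, dv_apply, hρ,
        Pl.ord_mul _ (pow_ne_zero _ j0) L.h0, Pl.ord_pow]
      push_cast
      field_simp
      ring
  have lo : ρ ∈ Lo S p := Hr.lo_of L.pt.aff L.pt.nor L.pt.pri fun R hR => by
    have b := L.bd R hR
    obtain ⟨q', -, c, -⟩ := hR
    have k : 0 ≤ kap (fun i => z (J i)) R := Cb.kap_nonneg L.pt.aff.ff fun l => by
      obtain ⟨s, -, hs⟩ := L.pt.mem (J l)
      exact hs ▸ (c s).1
    rw [el R] at b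
    have : (0 : ℝ) ≤ (R.ord ρ : ℝ) / q := by linarith
    have := (div_nonneg_iff.1 this).elim (fun a => a.1) fun a => absurd a.2 (not_le.2 q0)
    exact (Pl.ord_nonneg_iff R.toPlace ρ0).1 (by exact_mod_cast this)
  obtain ⟨aT, haT⟩ := fin_ord (a := Jx δ fun l => x (t l)) fun e => by
    have := T.jac
    simp [e] at this
  obtain ⟨vf, hvf⟩ := fin_ord (a := x (jac D t ^ q * h)) fun e => by
    have := T.del
    simp [e] at this
  obtain ⟨v, hv⟩ := fin_ord ((map_ne_zero x).2 ρ0)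
  have rel : v + q * aT = vf + q * aJ := by
    have : x ρ * (Jx δ fun l => x (t l)) ^ q =
        x (jac D t ^ q * h) * (Jx δ fun i => x (z (J i))) ^ q := by
      rw [c1, c2, hρ, map_mul, map_mul, map_pow, map_pow]
      ring
    have := congrArg HahnSeries.orderTop this
    rw [HahnSeries.orderTop_mul, HahnSeries.orderTop_mul, Co.orderTop_pow, Co.orderTop_pow, hv,
      haT, hvf, haJ] at this
    have : v + q • aT = vf + q • aJ := by exact_mod_cast this
    simpa using this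
  have t0 : 0 ≤ aT := by
    have := jx_ge (δ := δ) (u := fun l => x (t l)) fun l => by
      obtain ⟨s, -, hs⟩ := L.prj.mem l
      exact hs ▸ T.arc.ge _ s.2
    rw [Ge, haT] at this
    exact_mod_cast this
  have t1 : aT ≤ a' := by have := T.jac; rw [haT] at this; exact_mod_cast this
  have f1 : vf ≤ a := by have := T.del; rw [hvf] at this; exact_mod_cast this
  have f2 : E ≤ vf := by have := T.ge; rw [Ge, hvf] at this; exact_mod_cast this
  have j1 : aJ ≤ a₂ := by rw [haJ] at hJ; exact_mod_cast hJ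
  have key := hS n (max k₀ k₁) ((le_max_left _ _).trans hn) (le_max_left _ _) F κ A S p z x r χ
    J ψ L.pt T.arc zs U X ρ lo (fun j => q * (∑ i, if J i = j then 1 else 0) - κv j)
    (fun j => by
      have a1 : (∑ i, if J i = j then (1 : ℤ) else 0) ≤ d :=
        (Finset.sum_le_card_nsmul _ _ 1 fun i _ => by split_ifs <;> simp).trans (by simp)
      have a2 : (0 : ℤ) ≤ ∑ i, if J i = j then (1 : ℤ) else 0 :=
        Finset.sum_nonneg fun i _ => by split_ifs <;> simp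
      have a3 : |κv j| ≤ ∑ j, |κv j| :=
        Finset.single_le_sum (f := fun j => |κv j|) (fun _ _ => abs_nonneg _) (Finset.mem_univ j)
      have a4 := mul_le_mul_of_nonneg_left a1 (Int.natCast_nonneg q)
      have a5 := mul_nonneg (Int.natCast_nonneg q) a2
      have := le_abs_self (κv j)
      have := neg_abs_le (κv j)
      push_cast
      exact abs_le.2 ⟨by nlinarith, by linarith⟩)
    (fun σ hσ => by
      have : ρ / ∏ j, z j ^ ((q : ℤ) * (∑ i, if J i = j then 1 else 0) - κv j) =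
          (jac D (fun i => z (J i)) / ∏ i, z (J i)) ^ q * (h * ∏ j, z j ^ κv j) := by
        rw [← prod_cnt L.pt.ne J, hρ]
        simp only [zpow_sub₀ (L.pt.ne _), Finset.prod_div_distrib, mul_comm (q : ℤ), zpow_mul,
          zpow_natCast, Finset.prod_pow, div_pow]
        rw [div_div_eq_mul_div]
        ring
      rw [this, map_mul, map_pow, fix_jac L.fr L.fy (fun i => L.pt.eig _) σ hσ, L.fh σ hσ])
    v hv (by nlinarith)
  rw [Ge, ho ρ ρ0, WithTop.coe_le_coe] at key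
  have s : ∑ j, (χ j / r : ℝ) * ((q * (∑ i, if J i = j then 1 else 0) - κv j : ℤ) : ℝ) =
      q * ∑ i, (χ (J i) / r : ℝ) - ∑ j, (χ j / r : ℝ) * κv j := by
    push_cast
    simp only [mul_sub, Finset.sum_sub_distrib, Finset.mul_sum]
    rw [Finset.sum_comm]
    simp [mul_comm]
  rw [s] at key
  rw [el P, mul_sub, ← mul_div_assoc _ (P.ord ρ : ℝ)]
  have k2 := div_le_div_of_nonneg_right key q0.le
  have k3 : (v + (q * ∑ i, (χ (J i) / r : ℝ) - ∑ j, (χ j / r : ℝ) * κv j)) / q =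
      vf / q + aJ - aT + ∑ i, (χ (J i) / r : ℝ) - (∑ j, (χ j / r : ℝ) * κv j) / q := by
    field_simp
    linarith
  have k4 := div_le_div_of_nonneg_right f2 q0.le
  linarith

theorem twf : TWf := twf_of Tw8.twc cls'

end Vale.Agent.P283R.Wd
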