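import Vale.Agent.P283R.Cy.Tpb
import Vale.Agent.P283R.Cy.Hly
import Vale.Agent.P283R.Cg.Tpy

/-!
# P283R, block WD: Veronese subrings of Cox data
-/

open Set Matrix

noncomputable section

namespace Vale.Agent.P283R.Wd

open Vale.Agent.P287D Vale.Agent.P283M Cx Cy Vale.Agent.P297Z
open Vale.Agent.P283R.To (mon mon_ne ord_mon)

namespace V42

/-- the lemma of Farkas: an integral matrix, real bounds, integral certificates -/
theorem frk {ι : Type} [Fintype ι] {r : ℕ} (A : ι → Fin r → ℤ) (b : ι → ℝ)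
    (h : ∀ x : ι → ℕ, (∀ l, ∑ i, (x i : ℤ) * A i l = 0) → 0 ≤ ∑ i, (x i : ℝ) * b i) :
    ∃ t : Fin r → ℝ, ∀ i, ∑ l, (A i l : ℝ) * t l ≤ b i := by
  classical
  refine P283.H647.farkas_aux r ι _ b fun x x0 x1 => ?_
  have := Lp.cone_real (ι := ι ⊕ Fin r ⊕ Fin r) (Sum.elim (fun i => Pi.single i 1)
    (Sum.elim (fun l i => A i l) fun l i => -A i l)) b (fun u hu => by
      have u0 : ∀ i, 0 ≤ u i := fun i => by simpa [Pi.single_apply] using hu (.inl i)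
      have e : ∀ i, ((u i).toNat : ℤ) = u i := fun i => Int.toNat_of_nonneg (u0 i)
      have := h (fun i => (u i).toNat) fun l => by
        have a := hu (.inr (.inl l))
        have c := hu (.inr (.inr l))
        simp only [Sum.elim_inr, Sum.elim_inl, neg_mul, Finset.sum_neg_distrib] at a c
        simp only [e, mul_comm (u _)]
        omega
      refine this.trans_eq (Finset.sum_congr rfl fun i _ => ?_)
      rw [mul_comm, ← Int.cast_natCast, e]) x (by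
      rintro (i | l | l)
      · simpa [Pi.single_apply] using x0 i
      · simpa [mul_comm] using (x1 l).ge
      · simpa [mul_comm] using (x1 l).le)
  simpa only [mul_comm] using this

variable {k k' N : ℕ}

theorem pa_vm (e : Fin k' → ℤ) (lam : Fin k' → Fin k → ℤ) (ξ : Fin k → ℝ) :
    pa (e ᵥ* of lam) ξ = pa e fun i => pa (lam i) ξ := by
  rw [vecMul_eq_sum]; exact Tpb.pa_sum e lam ξ

/-- extension of the weights -/
theorem ext (a : Fin N → Fin k → ℤ) (lam : Fin k' → Fin k → ℤ) (o : Fin N → ℝ)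
    (ξ' : Fin k' → ℝ) (h : ∀ (c : Fin N → ℕ) e, dg a c = e ᵥ* of lam →
      0 ≤ ∑ j, (c j : ℝ) * o j + pa e ξ') :
    ∃ ξ : Fin k → ℝ, (∀ j, 0 ≤ o j + pa (a j) ξ) ∧ ∀ e, pa (e ᵥ* of lam) ξ = pa e ξ' := by
  obtain ⟨ξ, H⟩ := frk (ι := Fin N ⊕ Fin k' ⊕ Fin k')
    (Sum.elim (fun j => -a j) (Sum.elim lam fun i => -lam i)) (Sum.elim o (Sum.elim ξ' (-ξ')))
    fun x hx => by
      have := h (fun j => x (.inl j)) (fun i => (x (.inr (.inl i)) : ℤ) - x (.inr (.inr i)))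
        (funext fun l => by
          have := hx l
          simp only [Fintype.sum_sum_type, Sum.elim_inl, Sum.elim_inr, Pi.neg_apply, mul_neg,
            Finset.sum_neg_distrib] at this
          simp only [dg, vecMul, dotProduct, sub_mul, Finset.sum_sub_distrib, of_apply]
          linarith)
      simp only [pa, Int.cast_sub, Int.cast_natCast, sub_mul, Finset.sum_sub_distrib] at this
      simp only [Fintype.sum_sum_type, Sum.elim_inl, Sum.elim_inr, Pi.neg_apply, mul_neg,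
        Finset.sum_neg_distrib]
      linarith
  refine ⟨ξ, fun j => ?_, fun e => ?_⟩
  · have := H (.inl j)
    simp only [Sum.elim_inl, Pi.neg_apply, Int.cast_neg, neg_mul, Finset.sum_neg_distrib] at this
    rw [pa]; linarith
  · rw [pa_vm]
    congr 1
    funext i
    have a1 := H (.inr (.inl i))
    have a2 := H (.inr (.inr i))
    simp only [Sum.elim_inl, Sum.elim_inr, Pi.neg_apply, Int.cast_neg, neg_mul,
      Finset.sum_neg_distrib] at a1 a2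
    rw [pa]; linarith

/-- the lemma of Gordan -/
theorem gor (a : Fin N → Fin k → ℤ) (lam : Matrix (Fin k') (Fin k) ℤ) :
    ∃ (N' : ℕ) (v : Fin N' → Fin N → ℕ) (a' : Fin N' → Fin k' → ℤ),
      (∀ j, dg a (v j) = a' j ᵥ* lam) ∧ ∀ p : (Fin N → ℕ) → (Fin k' → ℤ) → Prop, p 0 0 →
        (∀ j, p (v j) (a' j)) → (∀ c e c' e', p c e → p c' e' → p (c + c') (e + e')) →
        ∀ c e, dg a c = e ᵥ* lam → p c e := by
  let π : (Fin N ⊕ Fin k' ⊕ Fin k' → ℕ) → Fin k' → ℤ := fun x i =>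
    (x (.inr (.inl i)) : ℤ) - x (.inr (.inr i))
  have πa : ∀ x x', π (x + x') = π x + π x' := fun x x' => funext fun i => by
    simp only [π, Pi.add_apply]; push_cast; ring
  have π0 : π 0 = 0 := funext fun i => by simp [π]
  let P : AddSubmonoid (Fin N ⊕ Fin k' ⊕ Fin k' → ℕ) :=
    { carrier := {x | dg a (x ∘ .inl) = π x ᵥ* lam}
      zero_mem' := by
        change dg a 0 = _
        rw [π0, dg_zero, zero_vecMul]
      add_mem' := fun {x x'} h h' => by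
        change dg a (x ∘ .inl + x' ∘ .inl) = _
        rw [πa, dg_add, add_vecMul, h, h'] }
  obtain ⟨S, hS⟩ : P.FG := AddSubmonoid.fg_of_subtractive fun x h x' h' => by
    change dg a (x ∘ .inl + x' ∘ .inl) = _ at h'
    rw [πa, dg_add, add_vecMul, show dg a (x ∘ .inl) = _ from h] at h'
    exact add_left_cancel h'
  refine ⟨S.card, fun j => (S.equivFin.symm j).1 ∘ .inl, fun j => π (S.equivFin.symm j).1,
    fun j => (hS.le (AddSubmonoid.subset_closure (S.equivFin.symm j).2) :), ?_⟩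
  intro p p0 p1 p2 c e h
  have k : ∀ x ∈ AddSubmonoid.closure (S : Set _), p (x ∘ .inl) (π x) := fun x hx => by
    induction hx using AddSubmonoid.closure_induction with
    | mem x hx => simpa using p1 (S.equivFin ⟨x, hx⟩)
    | zero => exact π0 ▸ p0
    | add x x' _ _ u v => exact πa x x' ▸ p2 _ _ _ _ u v
  have ee : π (Sum.elim c (Sum.elim (fun i => (e i).toNat) fun i => (-e i).toNat)) = e :=
    funext fun i => Int.toNat_sub_toNat_neg (e i)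
  have := k (Sum.elim c (Sum.elim (fun i => (e i).toNat) fun i => (-e i).toNat)) (hS.ge (by
    change dg a c = _
    rw [ee, h]))
  rwa [ee] at this

variable {K : Type} [Field K] [Algebra ℂ K] {T : Set (Pl K)} {D : Pl K → Fin k → ℤ}
  {s : Fin N → K} {a : Fin N → Fin k → ℤ}

theorem ord_pm (s0 : ∀ j, s j ≠ 0) (P : Pl K) (c : Fin N → ℕ) :
    (P.ord (∏ j, s j ^ c j) : ℝ) = ∑ j, (c j : ℝ) * P.ord (s j) := by
  have := ord_mon P s0 fun j => (c j : ℤ)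
  simp only [mon, zpow_natCast] at this
  rw [this]; push_cast; rfl

/-- two equations of the same divisor -/
theorem unit (x : Cox T D s a) {h h' : K} (h0 : h ≠ 0) (h1 : h' ≠ 0) {δ δ' : Fin k → ℤ}
    (e : ∀ E ∈ T, E.ord h' + δ' ⬝ᵥ D E = E.ord h + δ ⬝ᵥ D E) : h' / h ∈ Sp s a (δ' + -δ) :=
  (x.sec _ _ (div_ne_zero h1 h0)).2 fun E hE => by
    have := e E hE
    rw [Pl.ord_div _ h1 h0, add_dotProduct, neg_dotProduct]
    omega

theorem pa_sub (e e' : Fin k → ℤ) (ξ : Fin k → ℝ) : pa (e + -e') ξ = pa e ξ - pa e' ξ := by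
  simp [pa, add_mul, Finset.sum_add_distrib, sub_eq_add_neg]

theorem eq0 (x : Cox T D s a) {h h' : K} (h0 : h ≠ 0) (h1 : h' ≠ 0) {δ δ' : Fin k → ℤ}
    (e : ∀ E ∈ T, E.ord h' + δ' ⬝ᵥ D E = E.ord h + δ ⬝ᵥ D E) {ξ : Fin k → ℝ}
    (H : ∀ j, 0 ≤ pa (a j) ξ) : pa δ' ξ = pa δ ξ := by
  have k : ∀ e, ∀ φ ∈ Sp s a e, φ ≠ 0 → 0 ≤ pa e ξ := fun e φ m φ0 => by
    obtain ⟨c, rfl⟩ := Hl.exists_dg m φ0
    rw [Tpb.pa_dg]
    exact Finset.sum_nonneg fun j _ => mul_nonneg (Nat.cast_nonneg _) (H j)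
  have k1 := k _ _ (unit x h0 h1 e) (div_ne_zero h1 h0)
  have k2 := k _ _ (unit x h1 h0 fun E hE => (e E hE).symm) (div_ne_zero h0 h1)
  rw [pa_sub] at k1 k2
  linarith

theorem eq1 (x : Cox T D s a) {h h' : K} (h0 : h ≠ 0) (h1 : h' ≠ 0) {δ δ' : Fin k → ℤ}
    (e : ∀ E ∈ T, E.ord h' + δ' ⬝ᵥ D E = E.ord h + δ ⬝ᵥ D E) {P : Pl K} {ξ : Fin k → ℝ}
    (H : ∀ j, 0 ≤ (P.ord (s j) : ℝ) + pa (a j) ξ) :
    (P.ord h' : ℝ) + pa δ' ξ = P.ord h + pa δ ξ := by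
  have k1 := Tpb.wt x.ne H (unit x h0 h1 e) (div_ne_zero h1 h0)
  have k2 := Tpb.wt x.ne H (unit x h1 h0 fun E hE => (e E hE).symm) (div_ne_zero h0 h1)
  rw [pa_sub, Pl.ord_div _ h1 h0] at k1
  rw [pa_sub, Pl.ord_div _ h0 h1] at k2
  push_cast at k1 k2
  linarith

end V42

open V42

/-- the sections of the degree `e` -/
def Sc {K : Type} [Field K] [Algebra ℂ K] {k : ℕ} (T : Set (Pl K)) (D : Pl K → Fin k → ℤ)
    (e : Fin k → ℤ) (φ : K) : Prop := φ ≠ 0 ∧ ∀ P ∈ T, 0 ≤ P.ord φ + e ⬝ᵥ D P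

/-- **Veronese subrings**, the generators -/
theorem verc {K : Type} [Field K] [Algebra ℂ K] {k k' N : ℕ} {T : Set (Pl K)}
    {D : Pl K → Fin k → ℤ} {s : Fin N → K} {a : Fin N → Fin k → ℤ} (cx : Cox T D s a)
    (lam : Fin k' → Fin k → ℤ) {D' : Pl K → Fin k' → ℤ}
    (hD : ∀ P ∈ T, ∀ i, D' P i = lam i ⬝ᵥ D P)
    (fr0 : ∀ φ : K, φ ≠ 0 → ∃ e x z, Sc T D' e x ∧ Sc T D' e z ∧ φ = x / z)
    (fr1 : ∀ e, ∃ e' x z, Sc T D' (e + e') x ∧ Sc T D' e' z) :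
    ∃ (N' : ℕ) (v : Fin N' → Fin N → ℕ) (a' : Fin N' → Fin k' → ℤ),
      Cox T D' (fun j => ∏ i, s i ^ v j i) a' ∧ ∀ (o : Fin N → ℝ) (ξ' : Fin k' → ℝ),
      (∀ j, 0 ≤ ∑ i, (v j i : ℝ) * o i + pa (a' j) ξ') → ∃ ξ : Fin k → ℝ,
        (∀ j, 0 ≤ o j + pa (a j) ξ) ∧ ∀ e, pa (e ᵥ* Matrix.of lam) ξ = pa e ξ' := by
  obtain ⟨N', v, a', v1, v2⟩ := gor a (Matrix.of lam)
  have dp : ∀ e, ∀ P ∈ T, (e ᵥ* Matrix.of lam) ⬝ᵥ D P = e ⬝ᵥ D' P := fun e P hP => by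
    rw [← dotProduct_mulVec, funext (hD P hP)]; rfl
  let s' : Fin N' → K := fun j => ∏ i, s i ^ v j i
  have m0 : ∀ c : Fin N → ℕ, ∏ i, s i ^ c i ≠ 0 := fun c =>
    Finset.prod_ne_zero_iff.2 fun i _ => pow_ne_zero _ (cx.ne i)
  have sp : ∀ e, Sp s' a' e = Sp s a (e ᵥ* Matrix.of lam) := fun e => by
    refine le_antisymm (Submodule.span_le.2 ?_) (Submodule.span_le.2 ?_)
    · rintro _ ⟨n, rfl, rfl⟩
      have : ∀ J : Finset (Fin N'), ∏ j ∈ J, s' j ^ n j ∈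
          Sp s a ((∑ j ∈ J, (n j : ℤ) • a' j) ᵥ* Matrix.of lam) := fun J => by
        induction J using Finset.induction_on with
        | empty => simpa [dg_zero] using mon_mem s a 0
        | insert j J hj ih =>
          rw [Finset.prod_insert hj, Finset.sum_insert hj, add_vecMul, smul_vecMul, ← v1]
          refine sp_mul ?_ ih
          have := mon_mem s a (n j • v j)
          have e1 : dg a (n j • v j) = (n j : ℤ) • dg a (v j) := funext fun i => by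
            simp [dg, Finset.mul_sum, mul_assoc]
          rw [e1] at this
          simpa only [s', ← Finset.prod_pow, ← pow_mul, Pi.smul_apply, smul_eq_mul, mul_comm]
            using this
      have e2 : dg a' n = ∑ j, (n j : ℤ) • a' j := funext fun i => by simp [dg, Finset.sum_apply]
      rw [e2]
      exact this Finset.univ
    · rintro _ ⟨n, hn, rfl⟩
      refine v2 (fun c e => ∏ i, s i ^ c i ∈ Sp s' a' e) ?_ (fun j => ?_)
        (fun c e c' e' u w => ?_) n e hn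
      · simpa [dg_zero] using mon_mem s' a' 0
      · have := mon_mem s' a' (Pi.single j 1)
        rwa [dg_single, Finset.prod_eq_single j (fun l _ h => by simp [h]) (by simp),
          Pi.single_eq_same, pow_one] at this
      · simpa only [Pi.add_apply, pow_add, Finset.prod_mul_distrib] using sp_mul u w
  have sec : ∀ e φ, φ ≠ 0 → (φ ∈ Sp s' a' e ↔ ∀ P ∈ T, 0 ≤ P.ord φ + e ⬝ᵥ D' P) := fun e φ φ0 => by
    rw [sp, cx.sec _ _ φ0]
    exact forall₂_congr fun P hP => by rw [dp e P hP]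
  have ex : ∀ (o : Fin N → ℝ) (ξ' : Fin k' → ℝ),
      (∀ j, 0 ≤ ∑ i, (v j i : ℝ) * o i + pa (a' j) ξ') → ∃ ξ : Fin k → ℝ,
        (∀ j, 0 ≤ o j + pa (a j) ξ) ∧ ∀ e, pa (e ᵥ* Matrix.of lam) ξ = pa e ξ' := fun o ξ' H =>
    ext a _ o ξ' (v2 _ (by simp [pa]) H fun c e c' e' u w => by
      simp only [pa, Pi.add_apply, Nat.cast_add, Int.cast_add, add_mul,
        Finset.sum_add_distrib] at u w ⊢
      linarith)
  refine ⟨N', v, a', ⟨fun j => m0 _, sec, fun φ e => ?_, fun φ => ?_, fun e => ?_⟩, ex⟩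
  · refine (cx.fin φ (e ᵥ* Matrix.of lam)).subset fun P hP => ⟨hP.1, ?_⟩
    rw [dp e P hP.1]; exact hP.2
  · by_cases z : φ = 0
    · exact ⟨0, 0, zero_mem _, 1, by simpa [dg_zero] using mon_mem s' a' 0, one_ne_zero, by simp [z]⟩
    · obtain ⟨e, x, z, u, w, k⟩ := fr0 φ z
      exact ⟨e, x, (sec _ _ u.1).2 u.2, z, (sec _ _ w.1).2 w.2, w.1, k⟩
  · obtain ⟨e', x, z, u, w⟩ := fr1 e
    exact ⟨e', x, (sec _ _ u.1).2 u.2, z, (sec _ _ w.1).2 w.2, u.1, w.1⟩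

/-- **Veronese subrings** -/
theorem ver {K : Type} [Field K] [Algebra ℂ K] {d k k' N c q : ℕ} {ε : ℝ} {y : Fin d → K}
    {T : Set (Pl K)} {D : Pl K → Fin k → ℤ} {s : Fin N → K} {a : Fin N → Fin k → ℤ}
    {f : Fin c → MvPolynomial (Fin N) ℂ} {h g : K} {δ b : Fin k → ℤ}
    (X : Dx q ε y T D s a f h g δ b) (lam : Fin k' → Fin k → ℤ) {D' : Pl K → Fin k' → ℤ}
    (hD : ∀ P ∈ T, ∀ i, D' P i = lam i ⬝ᵥ D P) {h' g' : K} {δ' b' : Fin k' → ℤ} (h0 : h' ≠ 0)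
    (g0 : g' ≠ 0) (eh : ∀ E ∈ T, E.ord h' + δ' ⬝ᵥ D' E = E.ord h + δ ⬝ᵥ D E)
    (eg : ∀ E ∈ T, E.ord g' + b' ⬝ᵥ D' E = E.ord g + b ⬝ᵥ D E)
    (fr0 : ∀ φ : K, φ ≠ 0 → ∃ e x z, Sc T D' e x ∧ Sc T D' e z ∧ φ = x / z)
    (fr1 : ∀ e, ∃ e' x z, Sc T D' (e + e') x ∧ Sc T D' e' z) :
    ∃ (N' : ℕ) (s' : Fin N' → K) (a' : Fin N' → Fin k' → ℤ) (c' : ℕ)
      (f' : Fin c' → MvPolynomial (Fin N') ℂ), Dx q ε y T D' s' a' f' h' g' δ' b' := by
  have cx := X.cox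
  obtain ⟨N', v, a', cy, ex⟩ := verc cx lam hD fr0 fr1
  have dp : ∀ e, ∀ P ∈ T, (e ᵥ* Matrix.of lam) ⬝ᵥ D P = e ⬝ᵥ D' P := fun e P hP => by
    rw [← dotProduct_mulVec, funext (hD P hP)]; rfl
  have eh' : ∀ E ∈ T, E.ord h' + (δ' ᵥ* Matrix.of lam) ⬝ᵥ D E = E.ord h + δ ⬝ᵥ D E :=
    fun E hE => by rw [dp _ E hE, eh E hE]
  have eg' : ∀ E ∈ T, E.ord g' + (b' ᵥ* Matrix.of lam) ⬝ᵥ D E = E.ord g + b ⬝ᵥ D E :=
    fun E hE => by rw [dp _ E hE, eg E hE]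
  obtain ⟨c', f', ci⟩ := Cg.exists_rel (fun j => ∏ i, s i ^ v j i) a'
  refine ⟨N', _, a', c', f', X.ff, X.fr, cy, ci, h0, g0, (cy.sec _ _ g0).2 fun P hP => ?_,
    fun E hE => ?_, fun P ξ' H => ?_, fun ξ' H => ?_⟩
  · rw [eg P hP]; exact (cx.sec _ _ X.g0).1 X.gs P hP
  · rw [eh E hE, eg E hE]; exact X.eq E hE
  · obtain ⟨ξ, k1, k2⟩ := ex (fun i => P.ord (s i)) ξ' fun j => ord_pm cx.ne P (v j) ▸ H j
    rw [← k2, eq1 cx X.h0 h0 eh' k1]
    exact X.hw P ξ k1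
  · obtain ⟨ξ, k1, k2⟩ := ex 0 ξ' fun j => by simpa using H j
    have k3 : ∀ j, 0 ≤ pa (a j) ξ := fun j => by simpa using k1 j
    rw [← k2, ← k2, eq0 cx X.h0 h0 eh' k3, eq0 cx X.g0 g0 eg' k3]
    refine ⟨(X.lw ξ k3).1, fun z => (X.lw ξ k3).2 fun z' => z (funext fun i => ?_)⟩
    have := k2 (Pi.single i 1)
    simpa [z', pa, Pi.single_apply] using this.symm

end Vale.Agent.P283R.Wd
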